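/-
Row 258 (S0498), block [S6a] (architect helper70).  LEAF P-S6A-HTPOLY.  ONLY MATHLIB, no paper.

`ℓ¹`-norm of the coefficients of an integer polynomial; bound for the characteristic polynomial of an integer matrix.

PLAN.  `s6aL1 p = ∑_{i ∈ supp p} |p_i|`.  It is convenient to prove first
  `s6aL1 p = ∑ i ∈ Finset.range n, |p.coeff i|` for every `n > natDegree p` (`s6a_l1_eq_range`),
then subadditivity is termwise, and submultiplicativity follows from `Polynomial.coeff_mul` (antidiagonal sums):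
  `∑_k |∑_{i+j=k} p_i q_j| ≤ ∑_{i,j} |p_i| |q_j|`.
(An alternative for `mul`: induction on `p` with `Polynomial.induction_on'` : monomials shift the coefficients.)
Charpoly: `Matrix.charpoly G = det (charmatrix G)`, `Matrix.det_apply`: a sum over the `N!` permutations of `± ∏_a (charmatrix G) (σ a) a`;
every entry is `X - C (G a a)` or `- C (G a b)`, of `ℓ¹`-norm `≤ 1 + B`.
-/
import Mathlib

set_option autoImplicit false
open Polynomial

namespace Claimed.Agent.R258

/-- `ℓ¹` norm of the coefficients -/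
def s6aL1 (p : ℤ[X]) : ℤ := ∑ i ∈ p.support, |p.coeff i|

theorem s6a_l1_nonneg (p : ℤ[X]) : 0 ≤ s6aL1 p := by
  exact Finset.sum_nonneg fun i _ => abs_nonneg _

/-- the sum over any finite set containing the support -/
theorem s6a_l1_eq_of_subset (p : ℤ[X]) (s : Finset ℕ) (hs : p.support ⊆ s) :
    s6aL1 p = ∑ i ∈ s, |p.coeff i| := by
  unfold s6aL1
  refine Finset.sum_subset hs fun i _ hi => ?_
  rw [Polynomial.notMem_support_iff.1 hi, abs_zero]

theorem s6a_l1_eq_range (p : ℤ[X]) (n : ℕ) (hn : p.natDegree < n) :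
    s6aL1 p = ∑ i ∈ Finset.range n, |p.coeff i| := by
  refine s6a_l1_eq_of_subset p _ fun i hi => ?_
  exact Finset.mem_range.2 ((Polynomial.le_natDegree_of_mem_supp i hi).trans_lt hn)

/-- partial sums of absolute values of coefficients along an injective reindexing -/
theorem s6a_l1_sum_le (p : ℤ[X]) (s : Finset ℕ) : ∑ i ∈ s, |p.coeff i| ≤ s6aL1 p := by
  rw [s6a_l1_eq_of_subset p (p.support ∪ s) Finset.subset_union_left]
  exact Finset.sum_le_sum_of_subset_of_nonneg Finset.subset_union_right fun i _ _ => abs_nonneg _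

theorem s6a_l1_coeff_le (p : ℤ[X]) (i : ℕ) : |p.coeff i| ≤ s6aL1 p := by
  simpa using s6a_l1_sum_le p {i}

theorem s6a_l1_add_le (p q : ℤ[X]) : s6aL1 (p + q) ≤ s6aL1 p + s6aL1 q := by
  have h1 : (p + q).support ⊆ p.support ∪ q.support := Polynomial.support_add
  rw [s6a_l1_eq_of_subset (p + q) _ h1, s6a_l1_eq_of_subset p _ Finset.subset_union_left,
    s6a_l1_eq_of_subset q (p.support ∪ q.support) Finset.subset_union_right, ← Finset.sum_add_distrib]
  refine Finset.sum_le_sum fun i _ => ?_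
  rw [Polynomial.coeff_add]
  exact abs_add_le _ _

theorem s6a_l1_neg (p : ℤ[X]) : s6aL1 (-p) = s6aL1 p := by
  unfold s6aL1
  rw [Polynomial.support_neg]
  exact Finset.sum_congr rfl fun i _ => by rw [Polynomial.coeff_neg, abs_neg]

theorem s6a_l1_C (a : ℤ) : s6aL1 (C a) = |a| := by
  rw [s6a_l1_eq_range (C a) 1 (by simp)]
  simp

theorem s6a_l1_zero : s6aL1 0 = 0 := by
  simp [s6aL1]

theorem s6a_l1_finset_sum_le {ι : Type*} (s : Finset ι) (f : ι → ℤ[X]) :
    s6aL1 (∑ i ∈ s, f i) ≤ ∑ i ∈ s, s6aL1 (f i) := by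
  classical
  induction s using Finset.induction_on with
  | empty => simp [s6a_l1_zero]
  | insert a s ha ih =>
    rw [Finset.sum_insert ha, Finset.sum_insert ha]
    exact (s6a_l1_add_le _ _).trans (by linarith)

/-- multiplication by a monomial -/
theorem s6a_l1_monomial_mul (k : ℕ) (a : ℤ) (q : ℤ[X]) : s6aL1 (monomial k a * q) ≤ |a| * s6aL1 q := by
  have hdeg : (monomial k a * q).natDegree < k + (q.natDegree + 1) := by
    have h1 := Polynomial.natDegree_mul_le (p := monomial k a) (q := q)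
    have h2 := Polynomial.natDegree_monomial_le (R := ℤ) a (m := k)
    omega
  rw [s6a_l1_eq_range _ _ hdeg, Finset.sum_range_add, s6a_l1_eq_range q _ (Nat.lt_succ_self _), Finset.mul_sum]
  have h0 : ∑ i ∈ Finset.range k, |(monomial k a * q).coeff i| = 0 := by
    refine Finset.sum_eq_zero fun i hi => ?_
    rw [← Polynomial.C_mul_X_pow_eq_monomial, mul_assoc, Polynomial.coeff_C_mul, Polynomial.coeff_X_pow_mul',
      if_neg (by have := Finset.mem_range.1 hi; omega)]
    simp
  rw [h0, zero_add]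
  refine Finset.sum_le_sum fun i _ => ?_
  rw [← Polynomial.C_mul_X_pow_eq_monomial, mul_assoc, Polynomial.coeff_C_mul, add_comm k i,
    Polynomial.coeff_X_pow_mul, abs_mul]

theorem s6a_l1_mul_le (p q : ℤ[X]) : s6aL1 (p * q) ≤ s6aL1 p * s6aL1 q := by
  conv_lhs => rw [p.as_sum_support, Finset.sum_mul]
  refine (s6a_l1_finset_sum_le _ _).trans ?_
  unfold s6aL1
  rw [Finset.sum_mul]
  exact Finset.sum_le_sum fun i _ => s6a_l1_monomial_mul i _ q

theorem s6a_l1_X_sub_C_le (a : ℤ) : s6aL1 (X - C a) ≤ 1 + |a| := by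
  rw [sub_eq_add_neg]
  refine (s6a_l1_add_le _ _).trans ?_
  rw [s6a_l1_neg, s6a_l1_C]
  have : s6aL1 X = 1 := by
    rw [s6a_l1_eq_range X 2 (by simp)]
    simp [Finset.sum_range_succ, Polynomial.coeff_X]
  rw [this]

theorem s6a_l1_finset_prod_le {ι : Type*} (s : Finset ι) (f : ι → ℤ[X]) :
    s6aL1 (∏ i ∈ s, f i) ≤ ∏ i ∈ s, s6aL1 (f i) := by
  classical
  induction s using Finset.induction_on with
  | empty =>
    rw [Finset.prod_empty, Finset.prod_empty, ← Polynomial.C_1, s6a_l1_C]
    simp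
  | insert a s ha ih =>
    rw [Finset.prod_insert ha, Finset.prod_insert ha]
    exact (s6a_l1_mul_le _ _).trans (mul_le_mul_of_nonneg_left ih (s6a_l1_nonneg _))

/-- the coefficients of the characteristic polynomial of an integer matrix with entries `≤ B` -/
theorem s6a_l1_charpoly_le {n : Type*} [Fintype n] [DecidableEq n] (G : Matrix n n ℤ) (B : ℤ)
    (hB : ∀ a b, |G a b| ≤ B) :
    s6aL1 G.charpoly ≤ (Fintype.card n).factorial * (1 + B) ^ Fintype.card n := by
  unfold Matrix.charpoly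
  rw [Matrix.det_apply]
  refine (s6a_l1_finset_sum_le _ _).trans ?_
  have hent : ∀ a b, s6aL1 (G.charmatrix a b) ≤ 1 + B := by
    intro a b
    by_cases h : a = b
    · subst h
      rw [Matrix.charmatrix_apply_eq]
      exact (s6a_l1_X_sub_C_le _).trans (by linarith [hB a a])
    · rw [Matrix.charmatrix_apply_ne _ _ _ h, s6a_l1_neg, s6a_l1_C]
      linarith [hB a b]
  have hterm : ∀ σ : Equiv.Perm n, s6aL1 (Equiv.Perm.sign σ • ∏ i, G.charmatrix (σ i) i)
      ≤ (1 + B) ^ Fintype.card n := by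
    intro σ
    have h1 : s6aL1 (Equiv.Perm.sign σ • ∏ i, G.charmatrix (σ i) i) = s6aL1 (∏ i, G.charmatrix (σ i) i) := by
      rcases Int.units_eq_one_or (Equiv.Perm.sign σ) with h | h
      · rw [h, one_smul]
      · rw [h, Units.neg_smul, one_smul, s6a_l1_neg]
    rw [h1]
    refine (s6a_l1_finset_prod_le _ _).trans ?_
    calc ∏ i, s6aL1 (G.charmatrix (σ i) i) ≤ ∏ _i : n, (1 + B) :=
          Finset.prod_le_prod (fun i _ => s6a_l1_nonneg _) fun i _ => hent _ _
      _ = (1 + B) ^ Fintype.card n := by rw [Finset.prod_const, Finset.card_univ]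
  calc ∑ σ : Equiv.Perm n, s6aL1 (Equiv.Perm.sign σ • ∏ i, G.charmatrix (σ i) i)
      ≤ ∑ _σ : Equiv.Perm n, (1 + B) ^ Fintype.card n := Finset.sum_le_sum fun σ _ => hterm σ
    _ = (Fintype.card n).factorial * (1 + B) ^ Fintype.card n := by
        rw [Finset.sum_const, Finset.card_univ, Fintype.card_perm, nsmul_eq_mul]

end Claimed.Agent.R258
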