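/-
Row 258 (S0498), block [S6a] (architect helper70).  LEAF P-S6A-HTKER.  ONLY MATHLIB + HtPoly.lean (black box), no paper.

**The kernel projection of a symmetric integer matrix, with denominators and a right inverse.**
It replaces "choose a maximal independent system, Cramer's rule, determinant bounds" in L6.2 (and may replace
`P_s = Sᵀ(SSᵀ)⁻¹S` in Lemma 4.3: take `G = SᵀS`).

PLAN for `s6a_ker_proj_int`.  Let `χ = G.charpoly ∈ ℤ[X]` (monic, so `≠ 0`), `m` = multiplicity of the root `0`: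
  `χ = X^m * g`, `¬ X ∣ g`   (`Polynomial.exists_eq_pow_rootMultiplicity_mul_and_not_dvd χ _ 0`, `X - C 0 = X`),
so `D₀ := g.coeff 0 = g.eval 0 ≠ 0` (`Polynomial.X_dvd_iff`).  Write `g = C D₀ + X * h` (`h = g.divX`, `Polynomial.divX_mul_X_add`).
Put `Z₀ := aeval G g`, `R₀ := - aeval G h`.  All these matrices are polynomials in `G`: they commute with `G` and are symmetric
(`Matrix.transpose` of `aeval G p` is `aeval Gᵀ p`; prove it by `Polynomial.induction_on` or via `Matrix.transpose_pow/ sum`).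
 (1) `D₀ • 1 - Z₀ = R₀ * G`            : from `g = C D₀ + X * h`.
 (2) `G ^ m * Z₀ = 0`                  : Cayley-Hamilton `Matrix.aeval_self_charpoly`.
 (3) `G * Z₀ = 0`                      : if `m = 0` then `Z₀ = 0`.  Otherwise descend: if `G^(k+2) * Z₀ = 0` then
        `(G^(k+1) Z₀)ᵀ (G^(k+1) Z₀) = Z₀ G^k (G^(k+2) Z₀) = 0`, and `MᵀM = 0 → M = 0` for integer matrices
        (diagonal entries are sums of squares; or cast to `ℝ` and use `Matrix.conjTranspose_mul_self_eq_zero`).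
 (4) `Z₀ * Z₀ = D₀ • Z₀`               : `Z₀ = D₀ • 1 - R₀ G`, `G Z₀ = 0`.
 (5) sign: if `D₀ < 0` replace `(D₀, Z₀, R₀)` by their negatives.
 (6) bounds: the coefficients of `g` and `h` are coefficients of `χ` (`g.coeff j = χ.coeff (j + m)`, `h.coeff j = χ.coeff (j + m + 1)`),
     so `|D₀| ≤ s6aL1 χ` and `∑_j |h.coeff j| ≤ s6aL1 χ` (`s6a_l1_sum_le` after reindexing);  `|(G^j) a b| ≤ (N B)^j` (`s6a_pow_entry_le`),
     `natDegree h < N`, `(N B)^j ≤ (N B)^N`;   `aeval G h = ∑_j h.coeff j • G^j` (`Polynomial.aeval_eq_sum_range`).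
`s6a_ker_proj` (rational version) is a corollary: apply the integer version to `G_ℤ = 𝔇 G`, `Q = Z / D`, `R = (𝔇 / D) R_ℤ`.
-/
import Claimed.Agent.R258.S6a.HtPoly

set_option autoImplicit false
open Polynomial
open scoped Matrix

namespace Claimed.Agent.R258

/-- bound for the denominator of the kernel projection -/
def kerD (N : ℕ) (B : ℤ) : ℤ := N.factorial * (1 + B) ^ N

/-- bound for the entries of the right inverse -/
def kerR (N : ℕ) (B : ℤ) : ℤ := N.factorial * (1 + B) ^ N * (N * B) ^ N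

variable {n : Type*} [Fintype n] [DecidableEq n]

theorem s6a_pow_entry_le (G : Matrix n n ℤ) (B : ℤ) (hB : ∀ a b, |G a b| ≤ B) (j : ℕ) (a b : n) :
    |(G ^ j) a b| ≤ ((Fintype.card n : ℤ) * B) ^ j := by
  have hB0 : 0 ≤ B := (abs_nonneg _).trans (hB a b)
  induction j generalizing a b with
  | zero =>
    rw [pow_zero, pow_zero, Matrix.one_apply]
    split_ifs <;> simp
  | succ j ih =>
    rw [pow_succ, Matrix.mul_apply]
    have hNB : 0 ≤ ((Fintype.card n : ℤ) * B) ^ j := by positivity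
    calc |∑ c, (G ^ j) a c * G c b| ≤ ∑ c, |(G ^ j) a c * G c b| := Finset.abs_sum_le_sum_abs _ _
      _ ≤ ∑ _c : n, ((Fintype.card n : ℤ) * B) ^ j * B := by
          refine Finset.sum_le_sum fun c _ => ?_
          rw [abs_mul]
          exact mul_le_mul (ih a c) (hB c b) (abs_nonneg _) hNB
      _ = ((Fintype.card n : ℤ) * B) ^ (j + 1) := by
          rw [Finset.sum_const, Finset.card_univ, nsmul_eq_mul, pow_succ]
          ring

theorem s6a_gram_eq_zero (M : Matrix n n ℤ) (h : Mᵀ * M = 0) : M = 0 := by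
  ext a b
  have h1 : (Mᵀ * M) b b = 0 := by rw [h]; rfl
  rw [Matrix.mul_apply] at h1
  simp only [Matrix.transpose_apply] at h1
  have h2 := (Finset.sum_eq_zero_iff_of_nonneg (fun c _ => mul_self_nonneg (M c b))).1 h1 a (Finset.mem_univ a)
  simpa using h2

theorem s6a_kp_transpose_aeval (G : Matrix n n ℤ) (hG : Gᵀ = G) (p : ℤ[X]) :
    (aeval G p)ᵀ = aeval G p := by
  rw [aeval_eq_sum_range, Matrix.transpose_sum]
  refine Finset.sum_congr rfl fun i _ => ?_
  rw [Matrix.transpose_smul, Matrix.transpose_pow, hG]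

theorem s6a_kp_descend (G Z : Matrix n n ℤ) (hG : Gᵀ = G) (hZ : Zᵀ = Z)
    (k : ℕ) (h : G ^ (k + 1) * Z = 0) : G * Z = 0 := by
  induction k with
  | zero => simpa using h
  | succ k ih =>
    apply ih
    apply s6a_gram_eq_zero
    rw [Matrix.transpose_mul, Matrix.transpose_pow, hG, hZ]
    calc Z * G ^ (k + 1) * (G ^ (k + 1) * Z) = Z * (G ^ (k + 1) * G ^ (k + 1)) * Z := by
          simp only [Matrix.mul_assoc]
      _ = Z * (G ^ k * G ^ (k + 1 + 1)) * Z := by
          rw [← pow_add, ← pow_add]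
          congr 3
          ring
      _ = Z * G ^ k * (G ^ (k + 1 + 1) * Z) := by simp only [Matrix.mul_assoc]
      _ = 0 := by rw [h, Matrix.mul_zero]

/-- the version without the normalisation of the sign -/
theorem s6a_kp_core (G : Matrix n n ℤ) (hG : Gᵀ = G) (B : ℤ) (hB1 : 1 ≤ B) (hB : ∀ a b, |G a b| ≤ B) :
    ∃ (D : ℤ) (Z R : Matrix n n ℤ), D ≠ 0 ∧ |D| ≤ kerD (Fintype.card n) B ∧
      (∀ a b, |R a b| ≤ kerR (Fintype.card n) B) ∧
      Zᵀ = Z ∧ Z * Z = D • Z ∧ G * Z = 0 ∧ D • (1 : Matrix n n ℤ) - Z = R * G := by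
  have hχ0 : G.charpoly ≠ 0 := (Matrix.charpoly_monic G).ne_zero
  obtain ⟨g, hg, hgX⟩ := Polynomial.exists_eq_pow_rootMultiplicity_mul_and_not_dvd G.charpoly hχ0 0
  rw [map_zero, sub_zero] at hg hgX
  obtain ⟨m, hm⟩ : ∃ m, m = rootMultiplicity 0 G.charpoly := ⟨_, rfl⟩
  rw [← hm] at hg
  have hD0 : g.coeff 0 ≠ 0 := fun h => hgX (Polynomial.X_dvd_iff.2 h)
  have hgh : g = C (g.coeff 0) + X * g.divX := by
    conv_lhs => rw [← Polynomial.divX_mul_X_add g]
    ring
  have hL1 := s6a_l1_charpoly_le G B hB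
  have hcg : ∀ j, g.coeff j = G.charpoly.coeff (j + m) := by
    intro j
    rw [hg, Polynomial.coeff_X_pow_mul]
  have hch : ∀ j, g.divX.coeff j = G.charpoly.coeff (j + 1 + m) := by
    intro j
    rw [Polynomial.coeff_divX, hcg]
  have hZt : (aeval G g)ᵀ = aeval G g := s6a_kp_transpose_aeval G hG g
  have h1 : g.coeff 0 • (1 : Matrix n n ℤ) - aeval G g = (- aeval G g.divX) * G := by
    conv_lhs => rw [hgh]
    rw [map_add, map_mul, aeval_X, aeval_C, Algebra.algebraMap_eq_smul_one]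
    have h2 : G * aeval G g.divX = aeval G g.divX * G := by
      have h3 : aeval G (X * g.divX) = aeval G (g.divX * X) := by rw [mul_comm]
      rwa [map_mul, map_mul, aeval_X] at h3
    rw [h2]
    simp
  have h2 : G ^ m * aeval G g = 0 := by
    have h3 : G ^ m = aeval G (X ^ m : ℤ[X]) := by rw [map_pow, aeval_X]
    rw [h3, ← map_mul, ← hg, Matrix.aeval_self_charpoly]
  have h3 : G * aeval G g = 0 := by
    rcases Nat.eq_zero_or_pos m with h0 | h0
    · rw [h0, pow_zero, Matrix.one_mul] at h2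
      rw [h2, Matrix.mul_zero]
    · obtain ⟨k, rfl⟩ : ∃ k, m = k + 1 := ⟨m - 1, by omega⟩
      exact s6a_kp_descend G _ hG hZt k h2
  have h4 : aeval G g * aeval G g = g.coeff 0 • aeval G g := by
    have h5 : aeval G g = g.coeff 0 • (1 : Matrix n n ℤ) - (- aeval G g.divX) * G := by
      rw [← h1]; abel
    conv_lhs => rw [h5]
    rw [Matrix.sub_mul, Matrix.mul_assoc, ← h5, h3, Matrix.mul_zero, sub_zero, Matrix.smul_mul, Matrix.one_mul]
  refine ⟨g.coeff 0, aeval G g, - aeval G g.divX, hD0, ?_, ?_, hZt, h4, h3, h1⟩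
  · rw [hcg]
    exact (s6a_l1_coeff_le _ _).trans hL1
  · intro a b
    have hN : 0 < Fintype.card n := Fintype.card_pos_iff.2 ⟨a⟩
    have hNB : (1 : ℤ) ≤ (Fintype.card n : ℤ) * B := by
      have : (1 : ℤ) ≤ (Fintype.card n : ℤ) := by exact_mod_cast hN
      nlinarith
    have hdeg : g.divX.natDegree ≤ Fintype.card n := by
      have hg0 : g ≠ 0 := by
        rintro rfl
        exact hD0 (by simp)
      have h6 : G.charpoly.natDegree = m + g.natDegree := by
        conv_lhs => rw [hg]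
        rw [Polynomial.natDegree_mul (pow_ne_zero _ Polynomial.X_ne_zero) hg0, Polynomial.natDegree_X_pow]
      rw [Matrix.charpoly_natDegree_eq_dim] at h6
      rw [Polynomial.natDegree_divX_eq_natDegree_tsub_one]
      omega
    rw [Matrix.neg_apply, abs_neg, aeval_eq_sum_range, Matrix.sum_apply]
    calc |∑ j ∈ Finset.range (g.divX.natDegree + 1), (g.divX.coeff j • G ^ j) a b|
        ≤ ∑ j ∈ Finset.range (g.divX.natDegree + 1), |(g.divX.coeff j • G ^ j) a b| :=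
          Finset.abs_sum_le_sum_abs _ _
      _ ≤ ∑ j ∈ Finset.range (g.divX.natDegree + 1),
            |G.charpoly.coeff (j + 1 + m)| * ((Fintype.card n : ℤ) * B) ^ Fintype.card n := by
          refine Finset.sum_le_sum fun j hj => ?_
          rw [Matrix.smul_apply, smul_eq_mul, abs_mul, hch]
          refine mul_le_mul_of_nonneg_left ?_ (abs_nonneg _)
          refine (s6a_pow_entry_le G B hB j a b).trans (pow_le_pow_right₀ hNB ?_)
          have := Finset.mem_range.1 hj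
          omega
      _ = (∑ i ∈ (Finset.range (g.divX.natDegree + 1)).map (addRightEmbedding (1 + m)),
            |G.charpoly.coeff i|) * ((Fintype.card n : ℤ) * B) ^ Fintype.card n := by
          rw [Finset.sum_map, Finset.sum_mul]
          refine Finset.sum_congr rfl fun j _ => ?_
          simp [add_assoc]
      _ ≤ kerR (Fintype.card n) B := by
          unfold kerR
          exact mul_le_mul_of_nonneg_right ((s6a_l1_sum_le _ _).trans hL1) (by positivity)

theorem s6a_ker_proj_int (G : Matrix n n ℤ) (hG : Gᵀ = G) (B : ℤ) (hB1 : 1 ≤ B) (hB : ∀ a b, |G a b| ≤ B) :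
    ∃ (D : ℤ) (Z R : Matrix n n ℤ), 1 ≤ D ∧ D ≤ kerD (Fintype.card n) B ∧
      (∀ a b, |R a b| ≤ kerR (Fintype.card n) B) ∧
      Zᵀ = Z ∧ Z * Z = D • Z ∧ G * Z = 0 ∧ D • (1 : Matrix n n ℤ) - Z = R * G := by
  obtain ⟨D, Z, R, hD0, hD, hR, hZt, hZZ, hGZ, hDZ⟩ := s6a_kp_core G hG B hB1 hB
  rcases lt_or_gt_of_ne hD0 with h | h
  · refine ⟨-D, -Z, -R, by omega, ?_, ?_, ?_, ?_, ?_, ?_⟩
    · rwa [abs_of_neg h] at hD
    · intro a b
      rw [Matrix.neg_apply, abs_neg]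
      exact hR a b
    · rw [Matrix.transpose_neg, hZt]
    · rw [neg_mul_neg, hZZ, neg_smul_neg]
    · rw [Matrix.mul_neg, hGZ, neg_zero]
    · rw [Matrix.neg_mul, ← hDZ, neg_smul]
      abel
  · refine ⟨D, Z, R, by omega, ?_, hR, hZt, hZZ, hGZ, hDZ⟩
    rwa [abs_of_pos h] at hD

/-- **kernel projection**: `Q` is the orthogonal projection onto `ker G`, `D Q` is integral, `1 - Q = R G`. -/
theorem s6a_ker_proj (G : Matrix n n ℚ) (hG : Gᵀ = G) (Dn B : ℤ) (hD : 1 ≤ Dn) (hB1 : 1 ≤ B)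
    (hint : ∀ a b, ∃ z : ℤ, (Dn : ℚ) * G a b = z ∧ |z| ≤ B) :
    ∃ (D : ℤ) (Q R : Matrix n n ℚ), 1 ≤ D ∧ D ≤ kerD (Fintype.card n) B ∧
      (∀ a b, ∃ z : ℤ, (D : ℚ) * Q a b = z) ∧
      (∀ a b, |R a b| ≤ ((Dn * kerR (Fintype.card n) B : ℤ) : ℚ)) ∧
      Qᵀ = Q ∧ Q * Q = Q ∧ G * Q = 0 ∧ 1 - Q = R * G := by
  choose Gz hGz hGzB using hint
  have hDn0 : (Dn : ℚ) ≠ 0 := by
    have : (1 : ℚ) ≤ Dn := by exact_mod_cast hD
    linarith
  have hGzt : (Matrix.of Gz)ᵀ = Matrix.of Gz := by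
    ext a b
    have h1 : ((Gz b a : ℤ) : ℚ) = Gz a b := by
      rw [← hGz, ← hGz]
      congr 1
      exact congrFun (congrFun hG a) b
    simpa using h1
  obtain ⟨D, Z, R, hD1, hDle, hR, hZt, hZZ, hGZ, hDZ⟩ := s6a_ker_proj_int (Matrix.of Gz) hGzt B hB1 hGzB
  have hD0' : (1 : ℚ) ≤ D := by exact_mod_cast hD1
  have hD0 : (D : ℚ) ≠ 0 := by linarith
  obtain ⟨φ, hφ⟩ : ∃ φ : Matrix n n ℤ →+* Matrix n n ℚ, φ = (Int.castRingHom ℚ).mapMatrix := ⟨_, rfl⟩
  have hφa : ∀ (M : Matrix n n ℤ) a b, φ M a b = (M a b : ℚ) := by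
    intro M a b
    rw [hφ]
    rfl
  have hφs : ∀ (c : ℤ) (M : Matrix n n ℤ), φ (c • M) = (c : ℚ) • φ M := by
    intro c M
    ext a b
    rw [hφa, Matrix.smul_apply, Matrix.smul_apply, hφa]
    simp
  have hGφ : G = (Dn : ℚ)⁻¹ • φ (Matrix.of Gz) := by
    ext a b
    rw [Matrix.smul_apply, hφa, Matrix.of_apply, ← hGz, smul_eq_mul, inv_mul_cancel_left₀ hDn0]
  refine ⟨D, (D : ℚ)⁻¹ • φ Z, ((Dn : ℚ) * (D : ℚ)⁻¹) • φ R, hD1, hDle, ?_, ?_, ?_, ?_, ?_, ?_⟩
  · intro a b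
    refine ⟨Z a b, ?_⟩
    rw [Matrix.smul_apply, hφa, smul_eq_mul, mul_inv_cancel_left₀ hD0]
  · intro a b
    rw [Matrix.smul_apply, hφa, smul_eq_mul, abs_mul, abs_mul]
    have h1 : |((R a b : ℤ) : ℚ)| ≤ (kerR (Fintype.card n) B : ℚ) := by exact_mod_cast hR a b
    have h2 : |(D : ℚ)⁻¹| ≤ 1 := by
      rw [abs_inv, abs_of_pos (by linarith)]
      exact inv_le_one_of_one_le₀ hD0'
    have h3 : |(Dn : ℚ)| = Dn := abs_of_pos (by
      have : (1 : ℚ) ≤ Dn := by exact_mod_cast hD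
      linarith)
    have h4 : (0 : ℚ) ≤ Dn := by rw [← h3]; exact abs_nonneg _
    push_cast
    rw [h3]
    calc (Dn : ℚ) * |(D : ℚ)⁻¹| * |((R a b : ℤ) : ℚ)| ≤ (Dn : ℚ) * 1 * (kerR (Fintype.card n) B : ℚ) := by
          refine mul_le_mul (mul_le_mul_of_nonneg_left h2 h4) h1 (abs_nonneg _) (by linarith)
      _ = (Dn : ℚ) * (kerR (Fintype.card n) B : ℚ) := by ring
  · ext a b
    rw [Matrix.transpose_apply, Matrix.smul_apply, Matrix.smul_apply, hφa, hφa]
    have := congrFun (congrFun hZt a) b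
    rw [Matrix.transpose_apply] at this
    rw [this]
  · rw [Matrix.smul_mul, Matrix.mul_smul, ← map_mul, hZZ, hφs, smul_smul, smul_smul]
    congr 1
    field_simp
  · rw [hGφ, Matrix.smul_mul, Matrix.mul_smul, ← map_mul, hGZ, map_zero, smul_zero, smul_zero]
  · rw [hGφ, Matrix.smul_mul, Matrix.mul_smul, ← map_mul, ← hDZ, map_sub, hφs, map_one, smul_smul, smul_sub,
      smul_smul]
    have e1 : (Dn : ℚ) * (D : ℚ)⁻¹ * (Dn : ℚ)⁻¹ * (D : ℚ) = 1 := by field_simp
    have e2 : (Dn : ℚ) * (D : ℚ)⁻¹ * (Dn : ℚ)⁻¹ = (D : ℚ)⁻¹ := by field_simp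
    rw [e1, e2, one_smul]

end Claimed.Agent.R258
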