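/-
Row 258 (S0498), block [S6a] (architect helper70).  LEAF P-S6A-HTMISC.  Mathlib + S6a/Defs.lean (`ratM`, `qHeight`), no paper.

Small facts on rational matrices used by the chain lemma (L6.2): API of `ratM`, entries of symmetric idempotents, heights,
common denominators, sums of Gram matrices, sup-norm bounds for `mulVec` and bilinear forms.

HINTS.
* `ratM M = M.map (Rat.castHom ℝ)` : `Matrix.map_mul`, `Matrix.map_add`, ... (`RingHom.mapMatrix`).
* `s6a_idem_entry_le`: `P a a = ∑_c (P a c)^2` (from `P = P * Pᵀ`), so `(P a a)^2 ≤ P a a`, `P a a ≤ 1`, `(P a b)^2 ≤ P a a ≤ 1`.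
* `s6a_qHeight_le_of_int`: `r.den ∣ D` (`Rat.den_dvd`-type lemmas: from `D * r = z`, `r = z / D`, `Rat.den_div_intCast_dvd`/`Rat.divInt`), hence
  `r.den ≤ D`; `|r.num| = |r| * r.den ≤ r.den`.
* `s6a_common_den`: `𝔇 = ∏_{i ∈ s} (r i).den`.
* `s6a_sum_gram_zero`: `Qᵀ (∑ Π_e) Q = ∑ (Π_e Q)ᵀ (Π_e Q)`; the trace of the right side is a sum of squares of all entries.
-/
import Claimed.Agent.R258.Pack004

set_option autoImplicit false
open scoped Matrix

namespace Claimed.Agent.R258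

variable {n : Type*} [Fintype n] [DecidableEq n]

/-! ### `ratM` -/

theorem s6a_ratM_apply (M : Matrix n n ℚ) (a b : n) : ratM M a b = ((M a b : ℚ) : ℝ) := rfl

theorem s6a_ratM_mul (M M' : Matrix n n ℚ) : ratM (M * M') = ratM M * ratM M' := by
  ext a b
  simp [s6a_ratM_apply, Matrix.mul_apply]

theorem s6a_ratM_add (M M' : Matrix n n ℚ) : ratM (M + M') = ratM M + ratM M' := by
  ext a b
  simp [s6a_ratM_apply]

theorem s6a_ratM_sub (M M' : Matrix n n ℚ) : ratM (M - M') = ratM M - ratM M' := by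
  ext a b
  simp [s6a_ratM_apply]

theorem s6a_ratM_neg (M : Matrix n n ℚ) : ratM (-M) = -ratM M := by
  ext a b
  simp [s6a_ratM_apply]

theorem s6a_ratM_smul (c : ℚ) (M : Matrix n n ℚ) : ratM (c • M) = (c : ℝ) • ratM M := by
  ext a b
  simp [s6a_ratM_apply]

theorem s6a_ratM_zero : ratM (0 : Matrix n n ℚ) = 0 := by
  ext a b
  simp [s6a_ratM_apply]

theorem s6a_ratM_one : ratM (1 : Matrix n n ℚ) = 1 := by
  ext a b
  rw [s6a_ratM_apply, Matrix.one_apply, Matrix.one_apply]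
  split_ifs <;> simp

theorem s6a_ratM_transpose (M : Matrix n n ℚ) : ratM Mᵀ = (ratM M)ᵀ := by
  ext a b
  simp [s6a_ratM_apply]

theorem s6a_ratM_sum {ι : Type*} (s : Finset ι) (f : ι → Matrix n n ℚ) :
    ratM (∑ i ∈ s, f i) = ∑ i ∈ s, ratM (f i) := by
  ext a b
  simp [s6a_ratM_apply, Matrix.sum_apply]

/-! ### heights -/

theorem s6a_hm_abs_num (r : ℚ) : ((r.num.natAbs : ℕ) : ℚ) = |r| * r.den := by
  have hden : (0 : ℚ) < r.den := by exact_mod_cast r.den_pos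
  have h1 : |r| = |(r.num : ℚ)| / r.den := by
    conv_lhs => rw [← Rat.num_div_den r]
    rw [abs_div, abs_of_pos hden]
  rw [h1, div_mul_cancel₀ _ hden.ne', Nat.cast_natAbs, Int.cast_abs]

theorem s6a_abs_le_qHeight (r : ℚ) : |r| ≤ (qHeight r : ℚ) := by
  have hden : (1 : ℚ) ≤ r.den := by exact_mod_cast r.den_pos
  have h1 := s6a_hm_abs_num r
  have h2 : ((r.num.natAbs : ℕ) : ℚ) ≤ (qHeight r : ℚ) := by
    exact_mod_cast le_max_left _ _
  have h3 : |r| ≤ |r| * r.den := le_mul_of_one_le_right (abs_nonneg _) hden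
  linarith

theorem s6a_den_le_qHeight (r : ℚ) : r.den ≤ qHeight r := by
  exact le_max_right _ _

theorem s6a_one_le_qHeight (r : ℚ) : 1 ≤ qHeight r := by
  exact le_trans r.den_pos (le_max_right _ _)

/-- a rational of absolute value `≤ 1` with `D r ∈ ℤ` has height `≤ D` -/
theorem s6a_qHeight_le_of_int (r : ℚ) (D z : ℤ) (hD : 1 ≤ D) (h : (D : ℚ) * r = z) (hr : |r| ≤ 1) :
    (qHeight r : ℤ) ≤ D := by
  have hD0 : (D : ℚ) ≠ 0 := by
    have : (1 : ℚ) ≤ D := by exact_mod_cast hD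
    linarith
  have hr' : r = Rat.divInt z D := by
    rw [Rat.divInt_eq_div, ← h, mul_div_cancel_left₀ _ hD0]
  have hdvd : (r.den : ℤ) ∣ D := by
    rw [hr']
    exact Rat.den_dvd z D
  have hden : (r.den : ℤ) ≤ D := Int.le_of_dvd (by omega) hdvd
  have hnum : r.num.natAbs ≤ r.den := by
    have h1 := s6a_hm_abs_num r
    have hden0 : (0 : ℚ) ≤ r.den := by positivity
    have h2 : ((r.num.natAbs : ℕ) : ℚ) ≤ r.den := by
      rw [h1]
      calc |r| * r.den ≤ 1 * r.den := mul_le_mul_of_nonneg_right hr hden0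
        _ = r.den := one_mul _
    exact_mod_cast h2
  unfold qHeight
  rw [max_eq_right hnum]
  exact hden

/-- a common denominator of a finite family of rationals of height `≤ H` -/
theorem s6a_common_den {ι : Type*} (s : Finset ι) (r : ι → ℚ) (H : ℕ) (h : ∀ i ∈ s, qHeight (r i) ≤ H) :
    ∃ Dn : ℤ, 1 ≤ Dn ∧ Dn ≤ (H : ℤ) ^ s.card ∧ ∀ i ∈ s, ∃ z : ℤ, (Dn : ℚ) * r i = z := by
  classical
  refine ⟨((∏ i ∈ s, (r i).den : ℕ) : ℤ), ?_, ?_, ?_⟩
  · have : 1 ≤ ∏ i ∈ s, (r i).den := Finset.one_le_prod' (fun i _ => (r i).den_pos) |>.trans' le_rfl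
    exact_mod_cast this
  · have : ∏ i ∈ s, (r i).den ≤ H ^ s.card :=
      Finset.prod_le_pow_card _ _ _ fun i hi => (s6a_den_le_qHeight (r i)).trans (h i hi)
    exact_mod_cast this
  · intro i hi
    refine ⟨((∏ j ∈ s.erase i, (r j).den : ℕ) : ℤ) * (r i).num, ?_⟩
    rw [← Finset.mul_prod_erase s _ hi]
    push_cast
    have h1 : ((r i).den : ℚ) * r i = (r i).num := by
      rw [mul_comm]
      exact Rat.mul_den_eq_num (r i)
    calc ((r i).den : ℚ) * (∏ j ∈ s.erase i, ((r j).den : ℚ)) * r i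
        = (∏ j ∈ s.erase i, ((r j).den : ℚ)) * (((r i).den : ℚ) * r i) := by ring
      _ = _ := by rw [h1]

/-! ### symmetric idempotents -/

theorem s6a_idem_entry_le (P : Matrix n n ℚ) (h1 : P * P = P) (h2 : Pᵀ = P) (a b : n) : |P a b| ≤ 1 := by
  have hsym : ∀ c d, P c d = P d c := fun c d => by
    conv_lhs => rw [← h2]
    rfl
  have hdiag : P a a = ∑ c, P a c * P a c := by
    conv_lhs => rw [← h1]
    rw [Matrix.mul_apply]
    exact Finset.sum_congr rfl fun c _ => by rw [hsym c a]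
  have hle : ∀ c, P a c * P a c ≤ P a a := by
    intro c
    rw [hdiag]
    exact Finset.single_le_sum (f := fun c => P a c * P a c) (fun c _ => mul_self_nonneg _) (Finset.mem_univ c)
  have haa : P a a ≤ 1 := by
    have := hle a
    nlinarith
  rw [abs_le_one_iff_mul_self_le_one]
  exact (hle b).trans haa

theorem s6a_gramQ_eq_zero (M : Matrix n n ℚ) (h : Mᵀ * M = 0) : M = 0 := by
  ext a b
  have h1 : (Mᵀ * M) b b = 0 := by rw [h]; rfl
  rw [Matrix.mul_apply] at h1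
  simp only [Matrix.transpose_apply] at h1
  have h2 := (Finset.sum_eq_zero_iff_of_nonneg (fun c _ => mul_self_nonneg (M c b))).1 h1 a (Finset.mem_univ a)
  simpa using h2

/-- if a sum of symmetric idempotents kills `Q`, each of them does -/
theorem s6a_sum_gram_zero {ι : Type*} (s : Finset ι) (Pi : ι → Matrix n n ℚ)
    (h1 : ∀ e ∈ s, Pi e * Pi e = Pi e) (h2 : ∀ e ∈ s, (Pi e)ᵀ = Pi e) (Q : Matrix n n ℚ)
    (h : (∑ e ∈ s, Pi e) * Q = 0) : ∀ e ∈ s, Pi e * Q = 0 := by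
  have hsum : ∑ e ∈ s, (Pi e * Q)ᵀ * (Pi e * Q) = 0 := by
    have h3 : ∀ e ∈ s, (Pi e * Q)ᵀ * (Pi e * Q) = Qᵀ * (Pi e * Q) := by
      intro e he
      rw [Matrix.transpose_mul, h2 e he, Matrix.mul_assoc, ← Matrix.mul_assoc (Pi e) (Pi e) Q, h1 e he]
    rw [Finset.sum_congr rfl h3, ← Matrix.mul_sum, ← Matrix.sum_mul, h, Matrix.mul_zero]
  intro e he
  ext a b
  have h4 : (∑ e ∈ s, (Pi e * Q)ᵀ * (Pi e * Q)) b b = 0 := by rw [hsum]; rfl
  rw [Matrix.sum_apply] at h4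
  have h5 : ∀ e ∈ s, 0 ≤ ((Pi e * Q)ᵀ * (Pi e * Q)) b b := by
    intro e _
    rw [Matrix.mul_apply]
    exact Finset.sum_nonneg fun c _ => by
      rw [Matrix.transpose_apply]
      exact mul_self_nonneg _
  have h6 := (Finset.sum_eq_zero_iff_of_nonneg h5).1 h4 e he
  rw [Matrix.mul_apply] at h6
  simp only [Matrix.transpose_apply] at h6
  have h7 := (Finset.sum_eq_zero_iff_of_nonneg (fun c _ => mul_self_nonneg ((Pi e * Q) c b))).1 h6 a
    (Finset.mem_univ a)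
  simpa using h7

/-! ### sup-norm bounds -/

theorem s6a_mulVec_le (M : Matrix n n ℚ) (x : n → ℝ) (b c : ℝ) (hb : ∀ i j, |((M i j : ℚ) : ℝ)| ≤ b)
    (hc : ∀ j, |x j| ≤ c) (i : n) : |(ratM M *ᵥ x) i| ≤ (Fintype.card n : ℝ) * b * c := by
  have hb0 : 0 ≤ b := (abs_nonneg _).trans (hb i i)
  rw [Matrix.mulVec, dotProduct]
  calc |∑ j, ratM M i j * x j| ≤ ∑ j, |ratM M i j * x j| := Finset.abs_sum_le_sum_abs _ _
    _ ≤ ∑ _j : n, b * c := by
        refine Finset.sum_le_sum fun j _ => ?_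
        rw [abs_mul, s6a_ratM_apply]
        exact mul_le_mul (hb i j) (hc j) (abs_nonneg _) hb0
    _ = (Fintype.card n : ℝ) * b * c := by
        rw [Finset.sum_const, Finset.card_univ, nsmul_eq_mul]
        ring

theorem s6a_bilin_le (M : Matrix n n ℚ) (x y : n → ℝ) (b c c' : ℝ) (hb : ∀ i j, |((M i j : ℚ) : ℝ)| ≤ b)
    (hc : ∀ j, |x j| ≤ c) (hc' : ∀ j, |y j| ≤ c') :
    |x ⬝ᵥ (ratM M *ᵥ y)| ≤ (Fintype.card n : ℝ) ^ 2 * b * c * c' := by
  rw [dotProduct]
  calc |∑ i, x i * (ratM M *ᵥ y) i| ≤ ∑ i, |x i * (ratM M *ᵥ y) i| := Finset.abs_sum_le_sum_abs _ _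
    _ ≤ ∑ _i : n, c * ((Fintype.card n : ℝ) * b * c') := by
        refine Finset.sum_le_sum fun i _ => ?_
        rw [abs_mul]
        exact mul_le_mul (hc i) (s6a_mulVec_le M y b c' hb hc' i) (abs_nonneg _) ((abs_nonneg _).trans (hc i))
    _ = (Fintype.card n : ℝ) ^ 2 * b * c * c' := by
        rw [Finset.sum_const, Finset.card_univ, nsmul_eq_mul]
        ring

/-- a skew matrix has vanishing quadratic form -/
theorem s6a_skew_quad (K : Matrix n n ℚ) (hK : Kᵀ = -K) (x : n → ℝ) : x ⬝ᵥ (ratM K *ᵥ x) = 0 := by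
  have h1 : x ⬝ᵥ (ratM K *ᵥ x) = x ⬝ᵥ ((ratM K)ᵀ *ᵥ x) := by
    rw [Matrix.dotProduct_mulVec, ← Matrix.mulVec_transpose, dotProduct_comm]
  rw [← s6a_ratM_transpose, hK, s6a_ratM_neg, Matrix.neg_mulVec, dotProduct_neg] at h1
  linarith

end Claimed.Agent.R258
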