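/-
Row 258 (S0498), block [S6a] (architect helper70).  LEAF P-S6A-SPLITBASIC.  Mathlib + S6a/Defs.lean + HtMisc.lean, no paper.

Invariances of the splitting (2) (`Split1`) and of the edge relation `locEdge`.

HINTS.
* In every statement the SAME `Pf` (reindexed if necessary) works.
* `s6a_effCurv_eq`: `(Pf V)ᵀ K (V - Pf V) = (Pf V)ᵀ K V` because `K = (C - Cᵀ)/2` is skew (`s6a_skew_quad`).
* `s6a_locEdge_symm`: reindex along `Equiv.sumComm` and use `s6a_split_neg`:
  `locC w v = reindex (-(locC v w))`, `locLam s w v = -locLam s v w`, `locV s w v = locV s v w ∘ Sum.swap`.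
* persistence of edges under refinement is PROVED in Loc/TagSys.lean (`loc_edge_persist`, helper68).
* `s6a_locEdge_self`: `Pf = fromBlocks (½) (½) (½) (½)` (scalar matrices `(1/2 : ℚ) • 1`): symmetric idempotent, entries `0` or `1/2` (height `≤ 2`),
  `Pf (A ⊕ -A) Pf = 0`, `Pf V = V` for `V = (x; x)`, so the slow part is `0` and `effCurv = 0 + ½ (xᵀCx - xᵀCx) + 0 = 0`.
-/
import Claimed.Agent.R258.S6a.HtMisc

set_option autoImplicit false
open scoped Matrix

namespace Claimed.Agent.R258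

section
variable {n m : Type*} [Fintype n] [DecidableEq n] [Fintype m] [DecidableEq m]

theorem s6a_split_mono {H H' : ℝ} (hH : H ≤ H') {V : n → ℝ} {C : Matrix n n ℚ} {Lam : ℝ}
    (h : Split1 H V C Lam) : Split1 H' V C Lam := by
  obtain ⟨Pf, h1, h2, h3, h4, h5, h6⟩ := h
  exact ⟨Pf, h1, h2, fun i j => (h3 i j).trans hH, h4, fun i => (h5 i).trans hH, h6.trans hH⟩

theorem s6a_split_nonneg {H : ℝ} {V : n → ℝ} {C : Matrix n n ℚ} {Lam : ℝ} (h : Split1 H V C Lam) : 0 ≤ H := by
  obtain ⟨Pf, -, -, -, -, -, h6⟩ := h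
  exact (abs_nonneg _).trans h6

/-- the skew correction does not see the fast part of the second argument -/
theorem s6a_effCurv_eq (Pf C : Matrix n n ℚ) (V : n → ℝ) (Lam : ℝ) :
    effCurv Pf C V Lam = Lam + (1 / 2) * (V ⬝ᵥ (ratM C *ᵥ V)) +
      (ratM Pf *ᵥ V) ⬝ᵥ (ratM ((1 / 2 : ℚ) • (C - Cᵀ)) *ᵥ V) := by
  have hK : ((1 / 2 : ℚ) • (C - Cᵀ))ᵀ = -((1 / 2 : ℚ) • (C - Cᵀ)) := by
    rw [Matrix.transpose_smul, Matrix.transpose_sub, Matrix.transpose_transpose, ← smul_neg, neg_sub]
  unfold effCurv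
  rw [Matrix.mulVec_sub, dotProduct_sub, s6a_skew_quad _ hK, sub_zero]

theorem s6a_sb_mulVec (e : n ≃ m) (M : Matrix n n ℚ) (x : n → ℝ) :
    ratM (Matrix.reindex e e M) *ᵥ (x ∘ e.symm) = (ratM M *ᵥ x) ∘ e.symm := by
  funext i
  simp only [Matrix.mulVec, dotProduct, Function.comp_apply, s6a_ratM_apply, Matrix.reindex_apply,
    Matrix.submatrix_apply]
  exact Equiv.sum_comp e.symm (fun j => ((M (e.symm i) j : ℚ) : ℝ) * x j)

theorem s6a_sb_dot (e : n ≃ m) (x y : n → ℝ) : (x ∘ e.symm) ⬝ᵥ (y ∘ e.symm) = x ⬝ᵥ y := by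
  simp only [dotProduct, Function.comp_apply]
  exact Equiv.sum_comp e.symm (fun j => x j * y j)

theorem s6a_sb_reindex_fwd (e : n ≃ m) (H : ℝ) (V : n → ℝ) (C : Matrix n n ℚ) (Lam : ℝ)
    (h : Split1 H V C Lam) : Split1 H (V ∘ e.symm) (Matrix.reindex e e C) Lam := by
  obtain ⟨Pf, h1, h2, h3, h4, h5, h6⟩ := h
  have hsk : Matrix.reindex e e C - (Matrix.reindex e e C)ᵀ = Matrix.reindex e e (C - Cᵀ) := by
    ext i j
    simp
  refine ⟨Matrix.reindex e e Pf, ?_, ?_, ?_, ?_, ?_, ?_⟩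
  · simp only [Matrix.reindex_apply]
    rw [Matrix.submatrix_mul_equiv, h1]
  · simp only [Matrix.reindex_apply]
    rw [Matrix.transpose_submatrix, h2]
  · intro i j
    exact h3 _ _
  · rw [hsk]
    simp only [Matrix.reindex_apply]
    rw [Matrix.submatrix_mul_equiv, Matrix.submatrix_mul_equiv, h4]
    rfl
  · intro i
    rw [s6a_sb_mulVec]
    exact h5 (e.symm i)
  · have hK : (1 / 2 : ℚ) • (Matrix.reindex e e C - (Matrix.reindex e e C)ᵀ)
        = Matrix.reindex e e ((1 / 2 : ℚ) • (C - Cᵀ)) := by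
      rw [hsk]
      rfl
    have : effCurv (Matrix.reindex e e Pf) (Matrix.reindex e e C) (V ∘ e.symm) Lam = effCurv Pf C V Lam := by
      rw [s6a_effCurv_eq, s6a_effCurv_eq, hK, s6a_sb_mulVec, s6a_sb_mulVec, s6a_sb_mulVec, s6a_sb_dot, s6a_sb_dot]
    rw [this]
    exact h6

theorem s6a_split_reindex (e : n ≃ m) (H : ℝ) (V : n → ℝ) (C : Matrix n n ℚ) (Lam : ℝ) :
    Split1 H V C Lam ↔ Split1 H (V ∘ e.symm) (Matrix.reindex e e C) Lam := by
  refine ⟨s6a_sb_reindex_fwd e H V C Lam, fun h => ?_⟩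
  have h1 := s6a_sb_reindex_fwd e.symm H _ _ Lam h
  have h2 : (V ∘ e.symm) ∘ e.symm.symm = V := by
    funext i
    simp
  have h3 : Matrix.reindex e.symm e.symm (Matrix.reindex e e C) = C := by
    ext i j
    simp
  rwa [h2, h3] at h1

theorem s6a_split_neg {H : ℝ} {V : n → ℝ} {C : Matrix n n ℚ} {Lam : ℝ} (h : Split1 H V C Lam) :
    Split1 H V (-C) (-Lam) := by
  obtain ⟨Pf, h1, h2, h3, h4, h5, h6⟩ := h
  have hsk : -C - (-C)ᵀ = -(C - Cᵀ) := by
    rw [Matrix.transpose_neg]
    abel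
  refine ⟨Pf, h1, h2, h3, ?_, h5, ?_⟩
  · rw [hsk, Matrix.mul_neg, Matrix.neg_mul, h4, neg_zero]
  · have : effCurv Pf (-C) V (-Lam) = -effCurv Pf C V Lam := by
      rw [s6a_effCurv_eq, s6a_effCurv_eq, hsk, smul_neg, s6a_ratM_neg, s6a_ratM_neg, Matrix.neg_mulVec,
        Matrix.neg_mulVec, dotProduct_neg, dotProduct_neg]
      ring
    rw [this, abs_neg]
    exact h6

end

/-! ### edges -/

theorem s6a_locEdge_mono {H H' : ℝ} (hH : H ≤ H') {s : ℤ} {v w : LocTag} (h : locEdge H s v w) :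
    locEdge H' s v w := s6a_split_mono hH h

theorem s6a_locEdge_symm {H : ℝ} {s : ℤ} {v w : LocTag} (h : locEdge H s v w) : locEdge H s w v := by
  unfold locEdge at h ⊢
  have h1 := (s6a_split_reindex (Equiv.sumComm (Fin v.dim) (Fin w.dim)) H _ _ _).1 (s6a_split_neg h)
  have h2 : locV s v w ∘ (Equiv.sumComm (Fin v.dim) (Fin w.dim)).symm = locV s w v := by
    funext i
    rcases i with i | i <;> simp [locV]
  have h3 : Matrix.reindex (Equiv.sumComm (Fin v.dim) (Fin w.dim)) (Equiv.sumComm (Fin v.dim) (Fin w.dim))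
      (-locC v w) = locC w v := by
    ext i j
    rcases i with i | i <;> rcases j with j | j <;> simp [locC]
  have h4 : -locLam s v w = locLam s w v := by
    unfold locLam
    ring
  rwa [h2, h3, h4] at h1

theorem s6a_locEdge_self (s : ℤ) (v : LocTag) : locEdge 2 s v v := by
  unfold locEdge
  obtain ⟨h, hh⟩ : ∃ h : Matrix (Fin v.dim) (Fin v.dim) ℚ, h = (1 / 2 : ℚ) • 1 := ⟨_, rfl⟩
  have hhh : h * h + h * h = h := by
    rw [hh, Matrix.smul_mul, Matrix.one_mul, smul_smul, ← add_smul]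
    norm_num
  have hht : hᵀ = h := by
    rw [hh, Matrix.transpose_smul, Matrix.transpose_one]
  have hPV : ratM (Matrix.fromBlocks h h h h) *ᵥ locV s v v = locV s v v := by
    funext i
    have key : ∀ a : Fin v.dim, ∑ x : Fin v.dim, ((h a x : ℚ) : ℝ) * ((2 : ℝ) ^ (-s) * v.th x)
        = (1 / 2) * ((2 : ℝ) ^ (-s) * v.th a) := by
      intro a
      rw [Finset.sum_eq_single a]
      · rw [hh]
        simp
      · intro b _ hb
        rw [hh]
        simp [Matrix.one_apply_ne' hb]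
      · intro hx
        exact absurd (Finset.mem_univ a) hx
    rcases i with a | a
    · simp only [Matrix.mulVec, dotProduct, Fintype.sum_sum_type, s6a_ratM_apply, Matrix.fromBlocks_apply₁₁,
        Matrix.fromBlocks_apply₁₂, locV, Sum.elim_inl, Sum.elim_inr]
      rw [key]
      ring
    · simp only [Matrix.mulVec, dotProduct, Fintype.sum_sum_type, s6a_ratM_apply, Matrix.fromBlocks_apply₂₁,
        Matrix.fromBlocks_apply₂₂, locV, Sum.elim_inl, Sum.elim_inr]
      rw [key]
      ring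
  refine ⟨Matrix.fromBlocks h h h h, ?_, ?_, ?_, ?_, ?_, ?_⟩
  · rw [Matrix.fromBlocks_multiply, hhh]
  · rw [Matrix.fromBlocks_transpose, hht]
  · have hent : ∀ a b, (qHeight (h a b) : ℝ) ≤ 2 := by
      intro a b
      rw [hh, Matrix.smul_apply, Matrix.one_apply]
      split_ifs
      · have : qHeight ((1 / 2 : ℚ) • (1 : ℚ)) = 2 := by
          rw [smul_eq_mul, mul_one]
          unfold qHeight
          norm_num
        rw [this]
        norm_num
      · have : qHeight ((1 / 2 : ℚ) • (0 : ℚ)) = 1 := by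
          rw [smul_zero]
          unfold qHeight
          simp
        rw [this]
        norm_num
    intro i j
    rcases i with i | i <;> rcases j with j | j <;> exact hent _ _
  · unfold locC
    rw [Matrix.fromBlocks_transpose, sub_eq_add_neg, Matrix.fromBlocks_neg, Matrix.fromBlocks_add,
      Matrix.fromBlocks_multiply, Matrix.fromBlocks_multiply]
    simp only [Matrix.transpose_zero, neg_zero, Matrix.mul_zero, add_zero, zero_add, Matrix.transpose_neg]
    have e1 : h * (-v.C + - -v.Cᵀ) = -(h * (v.C + -v.Cᵀ)) := by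
      rw [← Matrix.mul_neg]
      congr 1
      abel
    rw [e1, Matrix.neg_mul, add_neg_cancel]
    exact Matrix.fromBlocks_zero
  · intro i
    rw [hPV, sub_self, abs_zero]
    norm_num
  · unfold effCurv
    rw [hPV, sub_self, Matrix.mulVec_zero, dotProduct_zero, add_zero]
    have h1 : locLam s v v = 0 := by
      unfold locLam
      ring
    have h2 : locV s v v ⬝ᵥ (ratM (locC v v) *ᵥ locV s v v) = 0 := by
      simp only [Matrix.mulVec, dotProduct, Fintype.sum_sum_type, s6a_ratM_apply, locC, locV,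
        Matrix.fromBlocks_apply₁₁, Matrix.fromBlocks_apply₁₂, Matrix.fromBlocks_apply₂₁, Matrix.fromBlocks_apply₂₂,
        Sum.elim_inl, Sum.elim_inr, Matrix.zero_apply, Matrix.neg_apply, Rat.cast_zero, Rat.cast_neg, zero_mul,
        Finset.sum_const_zero, add_zero, zero_add, neg_mul, Finset.sum_neg_distrib, mul_neg]
      ring
    rw [h1, h2]
    norm_num

end Claimed.Agent.R258
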