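/-
Row 258 (S0498), block [S6a] (architect helper70).  LEAF P-S6A-CHAINEMB.  Mathlib + S6a/{Defs,HtMisc,SplitBasic,ChainDefs}.lean, no paper.

The joint space of the tags `t 0, …, t L` and the dictionary  `JSplit` (joint space)  ⟷  `locEdge` (endpoint coordinates).

PLAN for `s6a_jsplit_iff`.  Fix `i ≠ j`, `i, j ≤ L`, `n := Fin (t i).dim ⊕ Fin (t j).dim`, and the injection
  `f : n → JIdx t L`, `f (inl a) = ⟨⟨i, _⟩, a⟩`, `f (inr b) = ⟨⟨j, _⟩, b⟩`.
Let `F : Matrix (JIdx t L) n ℚ`, `F x c = if x = f c then 1 else 0` (a partial isometry).  Facts (entrywise):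
  (F1) `Fᵀ * F = 1`;                       (F2) `F * Fᵀ = blkE (jBlk t L) i j`;
  (F3) `blkK (jBlk t L) (jK t L) i j = F * ((1/2 : ℚ) • (locC (t i) (t j) - (locC (t i) (t j))ᵀ)) * Fᵀ`;
  (F4) `(ratM Fᵀ) *ᵥ jV t L s = locV s (t i) (t j)`  (i.e. `jV t L s (f c) = locV s (t i) (t j) c`);
  (F5) `jq t s i - jq t s j = locLam s (t i) (t j) + ½ locVᵀ locC locV`   (`Matrix.fromBlocks_mulVec`, `Sum.elim`, `Fintype.sum_sum_type`).
(⟸) given `Pf'` on `n` put `Pf = F * Pf' * Fᵀ`;   (⟹) given `Pf` on the joint space put `Pf' = Fᵀ * Pf * F`; then `Pf = F Pf' Fᵀ` by `supp` (+ its transpose).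
The entries of `F Pf' Fᵀ` are entries of `Pf'` or `0` (`qHeight 0 = 1 ≤` any height bound that occurs; if `n` is empty use `0 ≤ H`... see NOTE).
Use `s6a_effCurv_eq` for the curvature.
NOTE on heights of zero entries: `qHeight 0 = 1`.  This is why the statement assumes `1 ≤ H`.
-/
import Claimed.Agent.R258.S6a.SplitBasic
import Claimed.Agent.R258.Pack022

set_option autoImplicit false
open scoped Matrix

namespace Claimed.Agent.R258

/-- joint index type of the tags `t 0, …, t L` -/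
abbrev JIdx (t : ℕ → LocTag) (L : ℕ) : Type := Σ i : Fin (L + 1), Fin (t i).dim

/-- the number of the tag owning a joint coordinate -/
def jBlk (t : ℕ → LocTag) (L : ℕ) : JIdx t L → ℕ := fun x => (x.1 : ℕ)

/-- `⊕_i (C_i - C_iᵀ)/2` -/
def jK (t : ℕ → LocTag) (L : ℕ) : Matrix (JIdx t L) (JIdx t L) ℚ :=
  Matrix.blockDiagonal' fun i : Fin (L + 1) => (1 / 2 : ℚ) • ((t i).C - (t i).Cᵀ)

/-- the concatenation of the `r θ_i` -/
noncomputable def jV (t : ℕ → LocTag) (L : ℕ) (s : ℤ) : JIdx t L → ℝ :=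
  fun x => (2 : ℝ) ^ (-s) * (t x.1).th x.2

/-- `q_i = r² λ_i + ½ V_iᵀ C_i V_i` -/
noncomputable def jq (t : ℕ → LocTag) (s : ℤ) : ℕ → ℝ := fun i =>
  ((2 : ℝ) ^ (-s)) ^ 2 * (t i).lam +
    (1 / 2) * ((fun a => (2 : ℝ) ^ (-s) * (t i).th a) ⬝ᵥ (ratM (t i).C *ᵥ fun a => (2 : ℝ) ^ (-s) * (t i).th a))

theorem s6a_jK_skew (t : ℕ → LocTag) (L : ℕ) : (jK t L)ᵀ = -jK t L := by
  unfold jK
  rw [Matrix.blockDiagonal'_transpose, ← Matrix.blockDiagonal'_neg]
  congr 1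
  funext i
  rw [Matrix.transpose_smul, Matrix.transpose_sub, Matrix.transpose_transpose, Pi.neg_apply, ← smul_neg, neg_sub]

theorem s6a_jK_block (t : ℕ → LocTag) (L : ℕ) (a b : JIdx t L) (h : jBlk t L a ≠ jBlk t L b) : jK t L a b = 0 := by
  obtain ⟨i, a⟩ := a
  obtain ⟨j, b⟩ := b
  unfold jK
  exact Matrix.blockDiagonal'_apply_ne _ _ _ (fun hij => h (congrArg Fin.val hij))

theorem s6a_jK_entry_le (t : ℕ → LocTag) (L Hb : ℕ) (hC : ∀ i ≤ L, ∀ a b, qHeight ((t i).C a b) ≤ Hb)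
    (a b : JIdx t L) : |jK t L a b| ≤ (Hb : ℚ) := by
  obtain ⟨i, a⟩ := a
  obtain ⟨j, b⟩ := b
  by_cases hij : i = j
  · subst hij
    unfold jK
    rw [Matrix.blockDiagonal'_apply_eq, Matrix.smul_apply, Matrix.sub_apply, Matrix.transpose_apply, smul_eq_mul]
    have hi : (i : ℕ) ≤ L := Nat.lt_succ_iff.1 i.2
    have h1 : |(t i).C a b| ≤ (Hb : ℚ) :=
      (s6a_abs_le_qHeight _).trans (by exact_mod_cast hC i hi a b)
    have h2 : |(t i).C b a| ≤ (Hb : ℚ) :=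
      (s6a_abs_le_qHeight _).trans (by exact_mod_cast hC i hi b a)
    rw [abs_mul]
    have h3 := abs_sub ((t i).C a b) ((t i).C b a)
    have h4 : |(1 / 2 : ℚ)| = 1 / 2 := abs_of_pos (by norm_num)
    rw [h4]
    linarith
  · unfold jK
    rw [Matrix.blockDiagonal'_apply_ne _ _ _ hij, abs_zero]
    positivity

theorem s6a_card_JIdx_le (t : ℕ → LocTag) (L dmax : ℕ) (hd : ∀ i ≤ L, (t i).dim ≤ dmax) :
    Fintype.card (JIdx t L) ≤ (L + 1) * dmax := by
  rw [Fintype.card_sigma]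
  simp only [Fintype.card_fin]
  calc ∑ i : Fin (L + 1), (t i).dim ≤ ∑ _i : Fin (L + 1), dmax :=
        Finset.sum_le_sum fun i _ => hd i (Nat.lt_succ_iff.1 i.2)
    _ = (L + 1) * dmax := by simp

/-! ### the partial isometry of an injection -/

section emb
variable {N n : Type*} [Fintype N] [DecidableEq N] [Fintype n] [DecidableEq n]

/-- the `0/1` matrix of a map `f : n → N` -/
def emF (f : n → N) : Matrix N n ℚ := fun x c => if x = f c then 1 else 0

theorem s6a_em_ratM_mul {a b c : Type*} [Fintype b] (A : Matrix a b ℚ) (B : Matrix b c ℚ) :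
    ratM (A * B) = ratM A * ratM B := by
  ext i j
  simp [ratM, Matrix.mul_apply]

theorem s6a_em_FtF (f : n → N) (hf : Function.Injective f) : (emF f)ᵀ * emF f = 1 := by
  ext c d
  rw [Matrix.mul_apply, Matrix.one_apply]
  simp only [Matrix.transpose_apply, emF]
  rw [Finset.sum_eq_single (f c)]
  · by_cases h : c = d
    · simp [h]
    · have : f c ≠ f d := fun h' => h (hf h')
      simp [h, this]
  · intro x _ hx
    simp [hx]
  · intro h
    exact absurd (Finset.mem_univ _) h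

theorem s6a_em_F_mulVec (f : n → N) (hf : Function.Injective f) (w : n → ℝ) (c : n) :
    (ratM (emF f) *ᵥ w) (f c) = w c := by
  rw [Matrix.mulVec, dotProduct, Finset.sum_eq_single c]
  · simp [ratM, emF]
  · intro d _ hd
    have : f c ≠ f d := fun h' => hd (hf h').symm
    simp [ratM, emF, this]
  · intro h
    exact absurd (Finset.mem_univ _) h

theorem s6a_em_F_mulVec_off (f : n → N) (w : n → ℝ) (x : N) (hx : ∀ c, x ≠ f c) :
    (ratM (emF f) *ᵥ w) x = 0 := by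
  rw [Matrix.mulVec, dotProduct]
  exact Finset.sum_eq_zero fun d _ => by simp [ratM, emF, hx d]

theorem s6a_em_Ft_mulVec (f : n → N) (V : N → ℝ) : ratM (emF f)ᵀ *ᵥ V = V ∘ f := by
  funext c
  rw [Matrix.mulVec, dotProduct, Finset.sum_eq_single (f c)]
  · simp [ratM, emF]
  · intro x _ hx
    simp [ratM, emF, hx]
  · intro h
    exact absurd (Finset.mem_univ _) h

theorem s6a_em_F_mul (f : n → N) (hf : Function.Injective f) {k : Type*} (M : Matrix n k ℚ) (c : n) (y : k) :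
    (emF f * M) (f c) y = M c y := by
  rw [Matrix.mul_apply, Finset.sum_eq_single c]
  · simp [emF]
  · intro d _ hd
    have : f c ≠ f d := fun h' => hd (hf h').symm
    simp [emF, this]
  · intro h
    exact absurd (Finset.mem_univ _) h

theorem s6a_em_F_mul_off (f : n → N) {k : Type*} (M : Matrix n k ℚ) (x : N) (hx : ∀ c, x ≠ f c) (y : k) :
    (emF f * M) x y = 0 := by
  rw [Matrix.mul_apply]
  exact Finset.sum_eq_zero fun d _ => by simp [emF, hx d]

theorem s6a_em_mul_Ft (f : n → N) (hf : Function.Injective f) {k : Type*} (M : Matrix k n ℚ) (x : k) (d : n) :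
    (M * (emF f)ᵀ) x (f d) = M x d := by
  rw [Matrix.mul_apply, Finset.sum_eq_single d]
  · simp [emF]
  · intro c _ hc
    have : f d ≠ f c := fun h' => hc (hf h').symm
    simp [emF, this]
  · intro h
    exact absurd (Finset.mem_univ _) h

theorem s6a_em_mul_Ft_off (f : n → N) {k : Type*} (M : Matrix k n ℚ) (x : k) (y : N) (hy : ∀ c, y ≠ f c) :
    (M * (emF f)ᵀ) x y = 0 := by
  rw [Matrix.mul_apply]
  exact Finset.sum_eq_zero fun d _ => by simp [emF, hy d]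

/-- a matrix on `N` is `F M Fᵀ` iff it has the entries of `M` on the range of `f` and vanishes elsewhere -/
theorem s6a_em_eq_conj (f : n → N) (hf : Function.Injective f) (A : Matrix N N ℚ) (M : Matrix n n ℚ)
    (h1 : ∀ c d, A (f c) (f d) = M c d) (h2 : ∀ x y, (∀ c, x ≠ f c) → A x y = 0)
    (h3 : ∀ x y, (∀ c, y ≠ f c) → A x y = 0) : A = emF f * M * (emF f)ᵀ := by
  ext x y
  by_cases hy : ∃ d, y = f d
  · obtain ⟨d, rfl⟩ := hy
    rw [s6a_em_mul_Ft f hf]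
    by_cases hx : ∃ c, x = f c
    · obtain ⟨c, rfl⟩ := hx
      rw [s6a_em_F_mul f hf, h1]
    · push Not at hx
      rw [s6a_em_F_mul_off f _ _ hx, h2 _ _ hx]
  · push Not at hy
    rw [s6a_em_mul_Ft_off f _ _ _ hy, h3 _ _ hy]

theorem s6a_em_conj_apply (f : n → N) (hf : Function.Injective f) (M : Matrix n n ℚ) (c d : n) :
    (emF f * M * (emF f)ᵀ) (f c) (f d) = M c d := by
  rw [s6a_em_mul_Ft f hf, s6a_em_F_mul f hf]

theorem s6a_em_conj_height (f : n → N) (hf : Function.Injective f) (M : Matrix n n ℚ) (H : ℝ) (hH : 1 ≤ H)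
    (hM : ∀ c d, (qHeight (M c d) : ℝ) ≤ H) (x y : N) : (qHeight ((emF f * M * (emF f)ᵀ) x y) : ℝ) ≤ H := by
  have h0 : (qHeight (0 : ℚ) : ℝ) ≤ H := by
    have : qHeight (0 : ℚ) = 1 := by
      unfold qHeight
      simp
    rw [this]
    simpa using hH
  by_cases hy : ∃ d, y = f d
  · obtain ⟨d, rfl⟩ := hy
    rw [s6a_em_mul_Ft f hf]
    by_cases hx : ∃ c, x = f c
    · obtain ⟨c, rfl⟩ := hx
      rw [s6a_em_F_mul f hf]
      exact hM c d
    · push Not at hx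
      rw [s6a_em_F_mul_off f _ _ hx]
      exact h0
  · push Not at hy
    rw [s6a_em_mul_Ft_off f _ _ _ hy]
    exact h0

theorem s6a_em_Ft_conj_apply (f : n → N) (A : Matrix N N ℚ) (c d : n) :
    ((emF f)ᵀ * A * emF f) c d = A (f c) (f d) := by
  rw [Matrix.mul_apply, Finset.sum_eq_single (f d)]
  · rw [Matrix.mul_apply, Finset.sum_eq_single (f c)]
    · simp [emF]
    · intro x _ hx
      simp [emF, hx]
    · intro h
      exact absurd (Finset.mem_univ _) h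
  · intro y _ hy
    simp [emF, hy]
  · intro h
    exact absurd (Finset.mem_univ _) h

/-- slow part and curvature of a conjugated projection -/
theorem s6a_em_slow (f : n → N) (M : Matrix n n ℚ) (V : N → ℝ) :
    ratM (emF f * (emF f)ᵀ - emF f * M * (emF f)ᵀ) *ᵥ V
      = ratM (emF f) *ᵥ (V ∘ f - ratM M *ᵥ (V ∘ f)) := by
  have h1 : emF f * (emF f)ᵀ - emF f * M * (emF f)ᵀ = emF f * ((1 - M) * (emF f)ᵀ) := by
    rw [Matrix.sub_mul, Matrix.one_mul, Matrix.mul_sub, Matrix.mul_assoc]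
  rw [h1, s6a_em_ratM_mul, s6a_em_ratM_mul, ← Matrix.mulVec_mulVec, ← Matrix.mulVec_mulVec, s6a_em_Ft_mulVec,
    s6a_ratM_sub, s6a_ratM_one, Matrix.sub_mulVec, Matrix.one_mulVec]

theorem s6a_em_curv (f : n → N) (hf : Function.Injective f) (M K₀ : Matrix n n ℚ) (V : N → ℝ) :
    (ratM (emF f * M * (emF f)ᵀ) *ᵥ V) ⬝ᵥ (ratM (emF f * K₀ * (emF f)ᵀ) *ᵥ V)
      = (ratM M *ᵥ (V ∘ f)) ⬝ᵥ (ratM K₀ *ᵥ (V ∘ f)) := by
  have h1 : ∀ A : Matrix n n ℚ, ratM (emF f * A * (emF f)ᵀ) *ᵥ V = ratM (emF f) *ᵥ (ratM A *ᵥ (V ∘ f)) := by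
    intro A
    rw [Matrix.mul_assoc, s6a_em_ratM_mul, s6a_em_ratM_mul, ← Matrix.mulVec_mulVec, ← Matrix.mulVec_mulVec,
      s6a_em_Ft_mulVec]
  have h2 : ∀ a b : n → ℝ, (ratM (emF f) *ᵥ a) ⬝ᵥ (ratM (emF f) *ᵥ b) = a ⬝ᵥ b := by
    intro a b
    have h3 : (ratM (emF f))ᵀ * ratM (emF f) = 1 := by
      have h4 : (ratM (emF f))ᵀ = ratM (emF f)ᵀ := rfl
      rw [h4, ← s6a_em_ratM_mul, s6a_em_FtF f hf, s6a_ratM_one]
    rw [← Matrix.vecMul_transpose, ← Matrix.dotProduct_mulVec, Matrix.mulVec_mulVec, h3, Matrix.one_mulVec]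
  rw [h1, h1, h2]

theorem s6a_em_cancel (f : n → N) (hf : Function.Injective f) {k : Type*} (X : Matrix n k ℚ) :
    (emF f)ᵀ * (emF f * X) = X := by
  rw [← Matrix.mul_assoc, s6a_em_FtF f hf, Matrix.one_mul]

/-- the abstract dictionary -/
theorem s6a_em_iff (f : n → N) (hf : Function.Injective f) (K₀ : Matrix n n ℚ) (V : N → ℝ) (Q₀ H : ℝ)
    (hH : 1 ≤ H) :
    (∃ Pf : Matrix N N ℚ, Pf * Pf = Pf ∧ Pfᵀ = Pf ∧ (emF f * (emF f)ᵀ) * Pf = Pf ∧
      (∀ a b, (qHeight (Pf a b) : ℝ) ≤ H) ∧ Pf * (emF f * K₀ * (emF f)ᵀ) * Pf = 0 ∧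
      (∀ a, |(ratM (emF f * (emF f)ᵀ - Pf) *ᵥ V) a| ≤ H) ∧
      |Q₀ + (ratM Pf *ᵥ V) ⬝ᵥ (ratM (emF f * K₀ * (emF f)ᵀ) *ᵥ V)| ≤ H)
    ↔ (∃ Pf' : Matrix n n ℚ, Pf' * Pf' = Pf' ∧ Pf'ᵀ = Pf' ∧ (∀ c d, (qHeight (Pf' c d) : ℝ) ≤ H) ∧
      Pf' * K₀ * Pf' = 0 ∧ (∀ c, |(V ∘ f) c - (ratM Pf' *ᵥ (V ∘ f)) c| ≤ H) ∧
      |Q₀ + (ratM Pf' *ᵥ (V ∘ f)) ⬝ᵥ (ratM K₀ *ᵥ (V ∘ f))| ≤ H) := by
  constructor
  · rintro ⟨Pf, h1, h2, h3, h4, h5, h6, h7⟩
    have h3' : Pf * (emF f * (emF f)ᵀ) = Pf := by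
      have := congrArg Matrix.transpose h3
      rwa [Matrix.transpose_mul, Matrix.transpose_mul, Matrix.transpose_transpose, h2] at this
    have hconj : Pf = emF f * ((emF f)ᵀ * Pf * emF f) * (emF f)ᵀ := by
      calc Pf = (emF f * (emF f)ᵀ) * (Pf * (emF f * (emF f)ᵀ)) := by rw [h3', h3]
        _ = _ := by simp only [Matrix.mul_assoc]
    refine ⟨(emF f)ᵀ * Pf * emF f, ?_, ?_, ?_, ?_, ?_, ?_⟩
    · calc (emF f)ᵀ * Pf * emF f * ((emF f)ᵀ * Pf * emF f)
          = (emF f)ᵀ * (Pf * ((emF f * (emF f)ᵀ) * Pf)) * emF f := by simp only [Matrix.mul_assoc]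
        _ = (emF f)ᵀ * Pf * emF f := by rw [h3, h1]
    · rw [Matrix.transpose_mul, Matrix.transpose_mul, Matrix.transpose_transpose, h2, Matrix.mul_assoc]
    · intro c d
      rw [s6a_em_Ft_conj_apply]
      exact h4 _ _
    · calc (emF f)ᵀ * Pf * emF f * K₀ * ((emF f)ᵀ * Pf * emF f)
          = (emF f)ᵀ * (Pf * (emF f * K₀ * (emF f)ᵀ) * Pf) * emF f := by simp only [Matrix.mul_assoc]
        _ = 0 := by rw [h5, Matrix.mul_zero, Matrix.zero_mul]
    · intro c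
      have h8 := h6 (f c)
      rw [hconj, s6a_em_slow, s6a_em_F_mulVec f hf] at h8
      exact h8
    · rw [hconj, s6a_em_curv f hf] at h7
      exact h7
  · rintro ⟨Pf', h1, h2, h3, h4, h5, h6⟩
    refine ⟨emF f * Pf' * (emF f)ᵀ, ?_, ?_, ?_, ?_, ?_, ?_, ?_⟩
    · calc emF f * Pf' * (emF f)ᵀ * (emF f * Pf' * (emF f)ᵀ)
          = emF f * (Pf' * ((emF f)ᵀ * (emF f * (Pf' * (emF f)ᵀ)))) := by simp only [Matrix.mul_assoc]
        _ = emF f * (Pf' * Pf') * (emF f)ᵀ := by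
            rw [s6a_em_cancel f hf]
            simp only [Matrix.mul_assoc]
        _ = _ := by rw [h1]
    · rw [Matrix.transpose_mul, Matrix.transpose_mul, Matrix.transpose_transpose, h2, Matrix.mul_assoc]
    · calc emF f * (emF f)ᵀ * (emF f * Pf' * (emF f)ᵀ)
          = emF f * ((emF f)ᵀ * (emF f * (Pf' * (emF f)ᵀ))) := by simp only [Matrix.mul_assoc]
        _ = _ := by rw [s6a_em_cancel f hf, Matrix.mul_assoc]
    · exact s6a_em_conj_height f hf Pf' H hH h3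
    · calc emF f * Pf' * (emF f)ᵀ * (emF f * K₀ * (emF f)ᵀ) * (emF f * Pf' * (emF f)ᵀ)
          = emF f * (Pf' * ((emF f)ᵀ * (emF f * (K₀ * ((emF f)ᵀ * (emF f * (Pf' * (emF f)ᵀ))))))) := by
            simp only [Matrix.mul_assoc]
        _ = emF f * (Pf' * K₀ * Pf') * (emF f)ᵀ := by
            rw [s6a_em_cancel f hf, s6a_em_cancel f hf]
            simp only [Matrix.mul_assoc]
        _ = 0 := by rw [h4, Matrix.mul_zero, Matrix.zero_mul]
    · intro x
      rw [s6a_em_slow]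
      by_cases hx : ∃ c, x = f c
      · obtain ⟨c, rfl⟩ := hx
        rw [s6a_em_F_mulVec f hf]
        exact h5 c
      · push Not at hx
        rw [s6a_em_F_mulVec_off f _ _ hx, abs_zero]
        linarith
    · rw [s6a_em_curv f hf]
      exact h6

end emb

/-! ### the embedding of the endpoint coordinates -/

/-- the embedding of the endpoint coordinates into the joint space -/
def jEmb (t : ℕ → LocTag) (L i j : ℕ) (hi : i ≤ L) (hj : j ≤ L) : Fin (t i).dim ⊕ Fin (t j).dim → JIdx t L :=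
  Sum.elim (fun a => ⟨⟨i, Nat.lt_succ_of_le hi⟩, a⟩) (fun b => ⟨⟨j, Nat.lt_succ_of_le hj⟩, b⟩)

theorem s6a_em_jBlk_inl (t : ℕ → LocTag) (L i j : ℕ) (hi : i ≤ L) (hj : j ≤ L) (a : Fin (t i).dim) :
    jBlk t L (jEmb t L i j hi hj (Sum.inl a)) = i := rfl

theorem s6a_em_jBlk_inr (t : ℕ → LocTag) (L i j : ℕ) (hi : i ≤ L) (hj : j ≤ L) (b : Fin (t j).dim) :
    jBlk t L (jEmb t L i j hi hj (Sum.inr b)) = j := rfl

theorem s6a_em_jEmb_inj (t : ℕ → LocTag) (L i j : ℕ) (hi : i ≤ L) (hj : j ≤ L) (hij : i ≠ j) :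
    Function.Injective (jEmb t L i j hi hj) := by
  intro c d h
  rcases c with a | a <;> rcases d with b | b
  · simp only [jEmb, Sum.elim_inl, Sigma.mk.injEq, heq_eq_eq, true_and] at h
    rw [h]
  · exact absurd (congrArg (jBlk t L) h) hij
  · exact absurd (congrArg (jBlk t L) h).symm hij
  · simp only [jEmb, Sum.elim_inr, Sigma.mk.injEq, heq_eq_eq, true_and] at h
    rw [h]

theorem s6a_em_off (t : ℕ → LocTag) (L i j : ℕ) (hi : i ≤ L) (hj : j ≤ L) (x : JIdx t L)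
    (hx : ∀ c, x ≠ jEmb t L i j hi hj c) : jBlk t L x ≠ i ∧ jBlk t L x ≠ j := by
  obtain ⟨⟨k, hk⟩, a⟩ := x
  constructor
  · intro h
    have h' : k = i := h
    subst h'
    exact hx (Sum.inl a) rfl
  · intro h
    have h' : k = j := h
    subst h'
    exact hx (Sum.inr a) rfl

theorem s6a_em_blkE (t : ℕ → LocTag) (L i j : ℕ) (hi : i ≤ L) (hj : j ≤ L) (hij : i ≠ j) :
    blkE (jBlk t L) i j = emF (jEmb t L i j hi hj) * (emF (jEmb t L i j hi hj))ᵀ := by
  have hf := s6a_em_jEmb_inj t L i j hi hj hij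
  have h := s6a_em_eq_conj (jEmb t L i j hi hj) hf (blkE (jBlk t L) i j) 1 ?_ ?_ ?_
  · rwa [Matrix.mul_one] at h
  · intro c d
    unfold blkE
    rw [Matrix.diagonal_apply, Matrix.one_apply]
    have hb : jBlk t L (jEmb t L i j hi hj c) = i ∨ jBlk t L (jEmb t L i j hi hj c) = j := by
      rcases c with a | a
      · exact Or.inl rfl
      · exact Or.inr rfl
    rw [if_pos hb]
    by_cases hcd : c = d
    · rw [if_pos hcd, if_pos (congrArg _ hcd)]
    · rw [if_neg hcd, if_neg fun h' => hcd (hf h')]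
  · intro x y hx
    obtain ⟨h1, h2⟩ := s6a_em_off t L i j hi hj x hx
    unfold blkE
    rw [Matrix.diagonal_apply]
    split_ifs with h3 h4
    · rcases h4 with h4 | h4
      · exact absurd h4 h1
      · exact absurd h4 h2
    · rfl
    · rfl
  · intro x y hy
    obtain ⟨h1, h2⟩ := s6a_em_off t L i j hi hj y hy
    unfold blkE
    rw [Matrix.diagonal_apply]
    split_ifs with h3 h4
    · subst h3
      rcases h4 with h4 | h4
      · exact absurd h4 h1
      · exact absurd h4 h2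
    · rfl
    · rfl

theorem s6a_em_blkK (t : ℕ → LocTag) (L i j : ℕ) (hi : i ≤ L) (hj : j ≤ L) (hij : i ≠ j) :
    blkK (jBlk t L) (jK t L) i j = emF (jEmb t L i j hi hj)
      * ((1 / 2 : ℚ) • (locC (t i) (t j) - (locC (t i) (t j))ᵀ)) * (emF (jEmb t L i j hi hj))ᵀ := by
  have hf := s6a_em_jEmb_inj t L i j hi hj hij
  refine s6a_em_eq_conj (jEmb t L i j hi hj) hf _ _ ?_ ?_ ?_
  · intro c d
    unfold blkK
    rcases c with a | a <;> rcases d with b | b
    · rw [if_pos (s6a_em_jBlk_inl t L i j hi hj a)]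
      simp only [jEmb, Sum.elim_inl, jK, Matrix.blockDiagonal'_apply_eq, locC, Matrix.smul_apply, Matrix.sub_apply,
        Matrix.transpose_apply, Matrix.fromBlocks_apply₁₁]
    · rw [if_pos (s6a_em_jBlk_inl t L i j hi hj a), s6a_jK_block t L _ _ (by
        rw [s6a_em_jBlk_inl, s6a_em_jBlk_inr]; exact hij)]
      simp [locC]
    · rw [if_neg (by rw [s6a_em_jBlk_inr]; exact hij.symm), if_pos (s6a_em_jBlk_inr t L i j hi hj a),
        s6a_jK_block t L _ _ (by rw [s6a_em_jBlk_inl, s6a_em_jBlk_inr]; exact hij.symm)]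
      simp [locC]
    · rw [if_neg (by rw [s6a_em_jBlk_inr]; exact hij.symm), if_pos (s6a_em_jBlk_inr t L i j hi hj a)]
      simp only [jEmb, Sum.elim_inr, jK, Matrix.blockDiagonal'_apply_eq, locC, Matrix.smul_apply, Matrix.sub_apply,
        Matrix.transpose_apply, Matrix.fromBlocks_apply₂₂, Matrix.neg_apply, smul_eq_mul]
      ring
  · intro x y hx
    obtain ⟨h1, h2⟩ := s6a_em_off t L i j hi hj x hx
    unfold blkK
    rw [if_neg h1, if_neg h2]
  · intro x y hy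
    obtain ⟨h1, h2⟩ := s6a_em_off t L i j hi hj y hy
    unfold blkK
    split_ifs with h3 h4
    · exact s6a_jK_block t L x y (by rw [h3]; exact fun h => h1 h.symm)
    · rw [s6a_jK_block t L x y (by rw [h4]; exact fun h => h2 h.symm), neg_zero]
    · rfl

theorem s6a_em_jV (t : ℕ → LocTag) (L : ℕ) (s : ℤ) (i j : ℕ) (hi : i ≤ L) (hj : j ≤ L) :
    jV t L s ∘ jEmb t L i j hi hj = locV s (t i) (t j) := by
  funext c
  rcases c with a | a <;> rfl

theorem s6a_em_jq (t : ℕ → LocTag) (s : ℤ) (i j : ℕ) :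
    jq t s i - jq t s j = locLam s (t i) (t j)
      + (1 / 2) * (locV s (t i) (t j) ⬝ᵥ (ratM (locC (t i) (t j)) *ᵥ locV s (t i) (t j))) := by
  have h : locV s (t i) (t j) ⬝ᵥ (ratM (locC (t i) (t j)) *ᵥ locV s (t i) (t j))
      = ((fun a => (2 : ℝ) ^ (-s) * (t i).th a) ⬝ᵥ (ratM (t i).C *ᵥ fun a => (2 : ℝ) ^ (-s) * (t i).th a))
        - ((fun a => (2 : ℝ) ^ (-s) * (t j).th a) ⬝ᵥ (ratM (t j).C *ᵥ fun a => (2 : ℝ) ^ (-s) * (t j).th a)) := by
    simp only [Matrix.mulVec, dotProduct, Fintype.sum_sum_type, s6a_ratM_apply, locC, locV,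
      Matrix.fromBlocks_apply₁₁, Matrix.fromBlocks_apply₁₂, Matrix.fromBlocks_apply₂₁, Matrix.fromBlocks_apply₂₂,
      Sum.elim_inl, Sum.elim_inr, Matrix.zero_apply, Matrix.neg_apply, Rat.cast_zero, Rat.cast_neg, zero_mul,
      Finset.sum_const_zero, add_zero, zero_add, neg_mul, Finset.sum_neg_distrib, mul_neg]
    ring
  rw [h]
  unfold jq locLam
  ring

/-- the dictionary between the joint space and the endpoint coordinates -/
theorem s6a_jsplit_iff (t : ℕ → LocTag) (L : ℕ) (s : ℤ) (i j : ℕ) (hi : i ≤ L) (hj : j ≤ L) (hij : i ≠ j)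
    (H : ℝ) (hH : 1 ≤ H) :
    JSplit (jBlk t L) (jK t L) (jV t L s) (jq t s) i j H ↔ locEdge H s (t i) (t j) := by
  have hf := s6a_em_jEmb_inj t L i j hi hj hij
  have hmain := s6a_em_iff (jEmb t L i j hi hj) hf ((1 / 2 : ℚ) • (locC (t i) (t j) - (locC (t i) (t j))ᵀ))
    (jV t L s) (jq t s i - jq t s j) H hH
  rw [← s6a_em_blkE t L i j hi hj hij, ← s6a_em_blkK t L i j hi hj hij, s6a_em_jV, s6a_em_jq] at hmain
  have hiso : ∀ Pf' : Matrix (Fin (t i).dim ⊕ Fin (t j).dim) (Fin (t i).dim ⊕ Fin (t j).dim) ℚ,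
      Pf' * ((1 / 2 : ℚ) • (locC (t i) (t j) - (locC (t i) (t j))ᵀ)) * Pf' = 0
        ↔ Pf' * (locC (t i) (t j) - (locC (t i) (t j))ᵀ) * Pf' = 0 := by
    intro Pf'
    rw [Matrix.mul_smul, Matrix.smul_mul, smul_eq_zero]
    constructor
    · rintro (h | h)
      · norm_num at h
      · exact h
    · exact Or.inr
  constructor
  · rintro ⟨Pf, h⟩
    obtain ⟨Pf', h1, h2, h3, h4, h5, h6⟩ := hmain.1
      ⟨Pf, h.idem, h.symm, h.supp, h.height, h.iso, h.slow, by rw [← s6a_em_jq]; exact h.curv⟩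
    refine ⟨Pf', h1, h2, h3, (hiso Pf').1 h4, h5, ?_⟩
    rw [s6a_effCurv_eq]
    exact h6
  · rintro ⟨Pf', h1, h2, h3, h4, h5, h6⟩
    rw [s6a_effCurv_eq] at h6
    obtain ⟨Pf, g1, g2, g3, g4, g5, g6, g7⟩ := hmain.2 ⟨Pf', h1, h2, h3, (hiso Pf').2 h4, h5, h6⟩
    exact ⟨Pf, g1, g2, g3, g4, g5, g6, by rw [s6a_em_jq]; exact g7⟩

end Claimed.Agent.R258
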