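/-
Row 258 (S0498), block [S6a] (architect helper70).  LEAF P-S6A-CHAINALG.  No paper needed: pure matrix algebra over `ℚ`.
Black boxes: `s6a_ker_proj` (HtKer.lean), everything of HtMisc.lean.

NOTATION.  `E_e = blkE blk e (e+1)`, `Π_e = E_e - Pf e`, `K_e = blkK blk K e (e+1)`, `E' = blkE blk 0 L`, `K' = blkK blk K 0 L`.

`s6a_blk_*`: elementary facts (entrywise, `Matrix.diagonal_mul`, `Matrix.mul_diagonal`, `ext a b; simp [blkE, blkK, …]; split_ifs`).

`s6a_chain_Q` (the joint fast projection).  `Π_e` is a symmetric idempotent (`E_e Pf_e = Pf_e = Pf_e E_e`).  Let `G = ∑_{e<L} Π_e`.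
 Common denominator: `s6a_common_den` for the family `(e,a,b) ↦ Pf e a b` on `range L ×ˢ univ ×ˢ univ` (card `= L * (N * N)`), height `≤ H`;
 the entries of `E_e` are `0/1`, so `Dn * G a b ∈ ℤ`, and `|G a b| ≤ L` (`s6a_idem_entry_le`), hence `|Dn * G a b| ≤ cD0 * L = cB1`.
 `s6a_ker_proj G` gives `D, Q, R` : `G Q = 0`, so `Π_e Q = 0` (`s6a_sum_gram_zero`);  `V - Q V = R (G V) = R ∑_e Π_e V`, `|(∑_e Π_e V) a| ≤ L H`,
 `|R a b| ≤ Dn * kerR N cB1 ≤ cD0 * kerR N cB1` (`kerR ≥ 0`), and `s6a_mulVec_le`.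

`s6a_chain_iso`.  `K' = ∑_{e<L} K_e` (`s6a_blkK_telescope`), `K_e = E_e K_e E_e`, `E_e Q = Pf_e Q`, so `Qᵀ K_e Q = Qᵀ Pf_e K_e Pf_e Q = 0`.

`s6a_chain_P` (the endpoint fast projection).  `G₂ = E' Q E'` is symmetric, `D G₂` is integral, `|G₂ a b| ≤ 1` (entries of `Q`).
 `s6a_ker_proj G₂` (with `Dn := D`, bound `B`) gives `D₂, Q', R'`.  Put `P = 1 - Q' = R' G₂`.  By symmetry `P = G₂ R'ᵀ = (E' Q)(E' R'ᵀ)`: `W = E' R'ᵀ`.
 `E' P = P`.  `G₂ Q' = 0 ⟹ (Q E' Q')ᵀ (Q E' Q') = Q'ᵀ G₂ Q' = 0 ⟹ Q E' Q' = 0 ⟹ Q' E' Q = 0 ⟹ P (E' Q) = E' Q`.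
 Heights: `D₂ P` integral, `|P a b| ≤ 1`: `s6a_qHeight_le_of_int`.
-/
import Claimed.Agent.R258.Pack022

set_option autoImplicit false
open scoped Matrix

namespace Claimed.Agent.R258

variable {N : Type*} [Fintype N] [DecidableEq N]

/-! ### elementary facts on `blkE`, `blkK` -/

theorem s6a_blkE_idem (blk : N → ℕ) (i j : ℕ) : blkE blk i j * blkE blk i j = blkE blk i j := by
  unfold blkE
  rw [Matrix.diagonal_mul_diagonal]
  congr 1
  funext a
  split_ifs <;> simp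

theorem s6a_blkE_symm (blk : N → ℕ) (i j : ℕ) : (blkE blk i j)ᵀ = blkE blk i j := by
  unfold blkE
  exact Matrix.diagonal_transpose _

theorem s6a_blkE_int (blk : N → ℕ) (i j : ℕ) (a b : N) : ∃ z : ℤ, blkE blk i j a b = z ∧ |z| ≤ 1 := by
  unfold blkE
  rw [Matrix.diagonal_apply]
  by_cases h : a = b
  · rw [if_pos h]
    by_cases h' : blk a = i ∨ blk a = j
    · rw [if_pos h']
      exact ⟨1, by simp, by simp⟩
    · rw [if_neg h']
      exact ⟨0, by simp, by simp⟩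
  · rw [if_neg h]
    exact ⟨0, by simp, by simp⟩

theorem s6a_blkE_mul_blkK (blk : N → ℕ) (K : Matrix N N ℚ) (i j : ℕ) :
    blkE blk i j * blkK blk K i j = blkK blk K i j := by
  ext a b
  unfold blkE
  rw [Matrix.diagonal_mul]
  unfold blkK
  by_cases h1 : blk a = i
  · simp [h1]
  · by_cases h2 : blk a = j
    · simp [h2]
    · simp [h1, h2]

theorem s6a_blkK_mul_blkE (blk : N → ℕ) (K : Matrix N N ℚ) (hKb : ∀ a b, blk a ≠ blk b → K a b = 0) (i j : ℕ) :
    blkK blk K i j * blkE blk i j = blkK blk K i j := by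
  ext a b
  unfold blkE
  rw [Matrix.mul_diagonal]
  unfold blkK
  by_cases hb : blk b = i ∨ blk b = j
  · rw [if_pos hb, mul_one]
  · rw [if_neg hb, mul_zero]
    push Not at hb
    by_cases h1 : blk a = i
    · rw [if_pos h1, hKb a b (by rw [h1]; exact fun h => hb.1 h.symm)]
    · rw [if_neg h1]
      by_cases h2 : blk a = j
      · rw [if_pos h2, hKb a b (by rw [h2]; exact fun h => hb.2 h.symm), neg_zero]
      · rw [if_neg h2]

theorem s6a_blkK_skew (blk : N → ℕ) (K : Matrix N N ℚ) (hKs : Kᵀ = -K)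
    (hKb : ∀ a b, blk a ≠ blk b → K a b = 0) (i j : ℕ) : (blkK blk K i j)ᵀ = -blkK blk K i j := by
  ext a b
  rw [Matrix.transpose_apply, Matrix.neg_apply]
  have hs : K b a = -K a b := by
    have := congrFun (congrFun hKs a) b
    simpa using this
  unfold blkK
  by_cases hab : blk a = blk b
  · rw [hab, hs]
    split_ifs <;> simp
  · rw [hs, hKb a b hab]
    split_ifs <;> simp

theorem s6a_blkK_entry_le (blk : N → ℕ) (K : Matrix N N ℚ) (Hb : ℚ) (hK : ∀ a b, |K a b| ≤ Hb) (i j : ℕ) (a b : N) :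
    |blkK blk K i j a b| ≤ Hb := by
  unfold blkK
  split_ifs
  · exact hK a b
  · rw [abs_neg]; exact hK a b
  · rw [abs_zero]; exact (abs_nonneg _).trans (hK a b)

theorem s6a_ca_blkK_add (blk : N → ℕ) (K : Matrix N N ℚ) (L : ℕ) (hL : 1 ≤ L) :
    blkK blk K 0 (L + 1) = blkK blk K 0 L + blkK blk K L (L + 1) := by
  ext a b
  rw [Matrix.add_apply]
  unfold blkK
  by_cases h0 : blk a = 0
  · have h1 : ¬ blk a = L := by omega
    have h2 : ¬ blk a = L + 1 := by omega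
    simp [h0, show ¬ (0 = L) by omega]
  · by_cases h1 : blk a = L
    · have h2 : ¬ blk a = L + 1 := by omega
      simp only [if_neg h0, if_pos h1, if_neg h2]
      ring
    · by_cases h2 : blk a = L + 1
      · simp only [if_neg h0, if_neg h1, if_pos h2]
        ring
      · simp only [if_neg h0, if_neg h1, if_neg h2]
        ring

theorem s6a_blkK_telescope (blk : N → ℕ) (K : Matrix N N ℚ) (L : ℕ) (hL : 1 ≤ L) :
    blkK blk K 0 L = ∑ e ∈ Finset.range L, blkK blk K e (e + 1) := by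
  induction L, hL using Nat.le_induction with
  | base => simp
  | succ L hL ih => rw [Finset.sum_range_succ, ← ih, s6a_ca_blkK_add blk K L hL]

theorem s6a_ca_mul_blkE (blk : N → ℕ) (i j : ℕ) (Pf : Matrix N N ℚ) (h2 : Pfᵀ = Pf)
    (h3 : blkE blk i j * Pf = Pf) : Pf * blkE blk i j = Pf := by
  have h4 := congrArg Matrix.transpose h3
  rwa [Matrix.transpose_mul, h2, s6a_blkE_symm] at h4

/-- the slow projection of an edge is a symmetric idempotent -/
theorem s6a_slow_idem (blk : N → ℕ) (i j : ℕ) (Pf : Matrix N N ℚ) (h1 : Pf * Pf = Pf) (h2 : Pfᵀ = Pf)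
    (h3 : blkE blk i j * Pf = Pf) :
    (blkE blk i j - Pf) * (blkE blk i j - Pf) = blkE blk i j - Pf ∧ (blkE blk i j - Pf)ᵀ = blkE blk i j - Pf := by
  constructor
  · rw [Matrix.sub_mul, Matrix.mul_sub, Matrix.mul_sub, s6a_blkE_idem, h3, h1, s6a_ca_mul_blkE blk i j Pf h2 h3]
    abel
  · rw [Matrix.transpose_sub, s6a_blkE_symm, h2]

/-! ### the three constructions -/

theorem s6a_ca_kerR_nonneg (n : ℕ) (B : ℤ) (hB : 0 ≤ B) : 0 ≤ kerR n B := by
  unfold kerR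
  positivity

/-- the joint fast projection -/
theorem s6a_chain_Q (blk : N → ℕ) (K : Matrix N N ℚ) (V : N → ℝ) (q : ℕ → ℝ) (L H : ℕ) (hL : 1 ≤ L) (hH : 1 ≤ H)
    (Pf : ℕ → Matrix N N ℚ) (hE : ∀ e < L, JSplitW blk K V q e (e + 1) H (Pf e)) :
    ∃ (Q : Matrix N N ℚ) (D : ℤ), Qᵀ = Q ∧ Q * Q = Q ∧ (∀ e < L, (blkE blk e (e + 1) - Pf e) * Q = 0) ∧
      1 ≤ D ∧ D ≤ cB2 (Fintype.card N) L H ∧ (∀ a b, ∃ z : ℤ, (D : ℚ) * Q a b = z) ∧
      ∀ a, |V a - (ratM Q *ᵥ V) a| ≤ ((cH1 (Fintype.card N) L H : ℤ) : ℝ) := by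
  have hidem : ∀ e ∈ Finset.range L, (blkE blk e (e + 1) - Pf e) * (blkE blk e (e + 1) - Pf e)
      = blkE blk e (e + 1) - Pf e := fun e he =>
    (s6a_slow_idem blk e (e + 1) (Pf e) (hE e (Finset.mem_range.1 he)).idem (hE e (Finset.mem_range.1 he)).symm
      (hE e (Finset.mem_range.1 he)).supp).1
  have hsymm : ∀ e ∈ Finset.range L, (blkE blk e (e + 1) - Pf e)ᵀ = blkE blk e (e + 1) - Pf e := fun e he =>
    (s6a_slow_idem blk e (e + 1) (Pf e) (hE e (Finset.mem_range.1 he)).idem (hE e (Finset.mem_range.1 he)).symm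
      (hE e (Finset.mem_range.1 he)).supp).2
  obtain ⟨G, hGdef⟩ : ∃ G : Matrix N N ℚ, G = ∑ e ∈ Finset.range L, (blkE blk e (e + 1) - Pf e) := ⟨_, rfl⟩
  have hGs : Gᵀ = G := by
    rw [hGdef, Matrix.transpose_sum]
    exact Finset.sum_congr rfl hsymm
  -- common denominator
  obtain ⟨Dn, hDn1, hDnle, hDnint⟩ := s6a_common_den
    (Finset.range L ×ˢ ((Finset.univ : Finset N) ×ˢ (Finset.univ : Finset N)))
    (fun p => Pf p.1 p.2.1 p.2.2) H (by
      intro p hp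
      have he : p.1 < L := Finset.mem_range.1 (Finset.mem_product.1 hp).1
      have := (hE p.1 he).height p.2.1 p.2.2
      exact_mod_cast this)
  have hcard : (Finset.range L ×ˢ ((Finset.univ : Finset N) ×ˢ (Finset.univ : Finset N))).card
      = L * (Fintype.card N * Fintype.card N) := by
    rw [Finset.card_product, Finset.card_product, Finset.card_range, Finset.card_univ]
  rw [hcard] at hDnle
  have hDnle' : Dn ≤ cD0 (Fintype.card N) L H := hDnle
  have hcD0 : 1 ≤ cD0 (Fintype.card N) L H := hDn1.trans hDnle'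
  have hLz : (1 : ℤ) ≤ (L : ℤ) := by exact_mod_cast hL
  have hB1 : 1 ≤ cB1 (Fintype.card N) L H := by
    unfold cB1
    nlinarith
  have hGabs : ∀ a b, |G a b| ≤ (L : ℚ) := by
    intro a b
    rw [hGdef, Matrix.sum_apply]
    calc |∑ e ∈ Finset.range L, (blkE blk e (e + 1) - Pf e) a b|
        ≤ ∑ e ∈ Finset.range L, |(blkE blk e (e + 1) - Pf e) a b| := Finset.abs_sum_le_sum_abs _ _
      _ ≤ ∑ _e ∈ Finset.range L, (1 : ℚ) :=
          Finset.sum_le_sum fun e he => s6a_idem_entry_le _ (hidem e he) (hsymm e he) a b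
      _ = (L : ℚ) := by simp
  have hint : ∀ a b, ∃ z : ℤ, (Dn : ℚ) * G a b = z ∧ |z| ≤ cB1 (Fintype.card N) L H := by
    intro a b
    have hex : ∀ e ∈ Finset.range L, ∃ z : ℤ, (Dn : ℚ) * (blkE blk e (e + 1) - Pf e) a b = z := by
      intro e he
      obtain ⟨z1, hz1, -⟩ := s6a_blkE_int blk e (e + 1) a b
      obtain ⟨z2, hz2⟩ := hDnint (e, (a, b))
        (Finset.mem_product.2 ⟨he, Finset.mem_product.2 ⟨Finset.mem_univ _, Finset.mem_univ _⟩⟩)
      refine ⟨Dn * z1 - z2, ?_⟩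
      simp only at hz2
      rw [Matrix.sub_apply, mul_sub, hz1, hz2]
      push_cast
      ring
    choose! zf hzf using hex
    have hz : (Dn : ℚ) * G a b = ((∑ e ∈ Finset.range L, zf e : ℤ) : ℚ) := by
      rw [hGdef, Matrix.sum_apply, Finset.mul_sum, Int.cast_sum]
      exact Finset.sum_congr rfl hzf
    refine ⟨_, hz, ?_⟩
    have h1 : |((∑ e ∈ Finset.range L, zf e : ℤ) : ℚ)| ≤ ((cB1 (Fintype.card N) L H : ℤ) : ℚ) := by
      rw [← hz, abs_mul]
      have h2 : |(Dn : ℚ)| ≤ ((cD0 (Fintype.card N) L H : ℤ) : ℚ) := by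
        rw [abs_of_nonneg (by exact_mod_cast (by omega : (0 : ℤ) ≤ Dn))]
        exact_mod_cast hDnle'
      unfold cB1
      push_cast
      exact mul_le_mul h2 (hGabs a b) (abs_nonneg _) ((abs_nonneg _).trans h2)
    exact_mod_cast h1
  obtain ⟨D, Q, R, hD1, hDle, hDQ, hR, hQt, hQQ, hGQ, hQR⟩ :=
    s6a_ker_proj G hGs Dn (cB1 (Fintype.card N) L H) hDn1 hB1 hint
  refine ⟨Q, D, hQt, hQQ, ?_, hD1, hDle, hDQ, ?_⟩
  · intro e he
    exact s6a_sum_gram_zero (Finset.range L) (fun e => blkE blk e (e + 1) - Pf e) hidem hsymm Q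
      (by rw [← hGdef]; exact hGQ) e (Finset.mem_range.2 he)
  · intro a
    have h1 : V - ratM Q *ᵥ V = ratM R *ᵥ (ratM G *ᵥ V) := by
      rw [Matrix.mulVec_mulVec, ← s6a_ratM_mul, ← hQR, s6a_ratM_sub, s6a_ratM_one, Matrix.sub_mulVec,
        Matrix.one_mulVec]
    have h2 : V a - (ratM Q *ᵥ V) a = (ratM R *ᵥ (ratM G *ᵥ V)) a := by
      rw [← h1]; rfl
    rw [h2]
    have hx : ∀ c, |(ratM G *ᵥ V) c| ≤ (L : ℝ) * H := by
      intro c
      rw [hGdef, s6a_ratM_sum, Matrix.sum_mulVec, Finset.sum_apply]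
      calc |∑ e ∈ Finset.range L, (ratM (blkE blk e (e + 1) - Pf e) *ᵥ V) c|
          ≤ ∑ e ∈ Finset.range L, |(ratM (blkE blk e (e + 1) - Pf e) *ᵥ V) c| := Finset.abs_sum_le_sum_abs _ _
        _ ≤ ∑ _e ∈ Finset.range L, (H : ℝ) :=
            Finset.sum_le_sum fun e he => (hE e (Finset.mem_range.1 he)).slow c
        _ = (L : ℝ) * H := by simp
    have hkR : 0 ≤ kerR (Fintype.card N) (cB1 (Fintype.card N) L H) := s6a_ca_kerR_nonneg _ _ (by omega)
    have hRb : ∀ c d, |((R c d : ℚ) : ℝ)|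
        ≤ ((cD0 (Fintype.card N) L H * kerR (Fintype.card N) (cB1 (Fintype.card N) L H) : ℤ) : ℝ) := by
      intro c d
      have h3 : |R c d| ≤ ((cD0 (Fintype.card N) L H * kerR (Fintype.card N) (cB1 (Fintype.card N) L H) : ℤ) : ℚ) := by
        refine (hR c d).trans ?_
        exact_mod_cast mul_le_mul_of_nonneg_right hDnle' hkR
      have h4 : ((|R c d| : ℚ) : ℝ)
          ≤ (((cD0 (Fintype.card N) L H * kerR (Fintype.card N) (cB1 (Fintype.card N) L H) : ℤ) : ℚ) : ℝ) := by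
        exact_mod_cast h3
      rw [Rat.cast_abs] at h4
      simpa using h4
    refine (s6a_mulVec_le R _ _ _ hRb hx a).trans (le_of_eq ?_)
    unfold cH1
    push_cast
    ring

/-- the joint fast space is isotropic for the endpoint skew form -/
theorem s6a_chain_iso (blk : N → ℕ) (K : Matrix N N ℚ) (V : N → ℝ) (q : ℕ → ℝ)
    (hKb : ∀ a b, blk a ≠ blk b → K a b = 0) (L : ℕ) (hL : 1 ≤ L) (H : ℝ)
    (Pf : ℕ → Matrix N N ℚ) (hE : ∀ e < L, JSplitW blk K V q e (e + 1) H (Pf e))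
    (Q : Matrix N N ℚ) (hQ : ∀ e < L, (blkE blk e (e + 1) - Pf e) * Q = 0) :
    Qᵀ * blkK blk K 0 L * Q = 0 := by
  rw [s6a_blkK_telescope blk K L hL, Matrix.mul_sum, Matrix.sum_mul]
  refine Finset.sum_eq_zero fun e he => ?_
  have he' := Finset.mem_range.1 he
  have h1 : blkE blk e (e + 1) * Q = Pf e * Q := by
    have := hQ e he'
    rwa [Matrix.sub_mul, sub_eq_zero] at this
  have h2 : Qᵀ * blkE blk e (e + 1) = Qᵀ * Pf e := by
    have := congrArg Matrix.transpose h1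
    rwa [Matrix.transpose_mul, Matrix.transpose_mul, s6a_blkE_symm, (hE e he').symm] at this
  calc Qᵀ * blkK blk K e (e + 1) * Q
      = Qᵀ * (blkE blk e (e + 1) * (blkK blk K e (e + 1) * blkE blk e (e + 1))) * Q := by
        rw [s6a_blkK_mul_blkE blk K hKb, s6a_blkE_mul_blkK]
    _ = (Qᵀ * blkE blk e (e + 1)) * blkK blk K e (e + 1) * (blkE blk e (e + 1) * Q) := by
        simp only [Matrix.mul_assoc]
    _ = Qᵀ * (Pf e * blkK blk K e (e + 1) * Pf e) * Q := by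
        rw [h1, h2]
        simp only [Matrix.mul_assoc]
    _ = 0 := by rw [(hE e he').iso, Matrix.mul_zero, Matrix.zero_mul]

/-- the endpoint fast projection -/
theorem s6a_chain_P (blk : N → ℕ) (i j : ℕ) (Q : Matrix N N ℚ) (hQ1 : Q * Q = Q) (hQ2 : Qᵀ = Q) (D B : ℤ)
    (hD : 1 ≤ D) (hDB : D ≤ B) (hint : ∀ a b, ∃ z : ℤ, (D : ℚ) * Q a b = z) :
    ∃ P W : Matrix N N ℚ, P * P = P ∧ Pᵀ = P ∧ blkE blk i j * P = P ∧
      P * (blkE blk i j * Q) = blkE blk i j * Q ∧ P = blkE blk i j * Q * W ∧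
      ∀ a b, (qHeight (P a b) : ℤ) ≤ kerD (Fintype.card N) B := by
  obtain ⟨E, hEdef⟩ : ∃ E : Matrix N N ℚ, E = blkE blk i j := ⟨_, rfl⟩
  have hEE : E * E = E := by rw [hEdef]; exact s6a_blkE_idem blk i j
  have hEt : Eᵀ = E := by rw [hEdef]; exact s6a_blkE_symm blk i j
  rw [← hEdef]
  have hGs : (E * Q * E)ᵀ = E * Q * E := by
    rw [Matrix.transpose_mul, Matrix.transpose_mul, hEt, hQ2, Matrix.mul_assoc]
  have hentry : ∀ a b, (E * Q * E) a b = E a a * Q a b * E b b := by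
    intro a b
    rw [hEdef]
    unfold blkE
    rw [Matrix.mul_diagonal, Matrix.diagonal_mul, Matrix.diagonal_apply_eq, Matrix.diagonal_apply_eq]
  have hint2 : ∀ a b, ∃ z : ℤ, (D : ℚ) * (E * Q * E) a b = z ∧ |z| ≤ B := by
    intro a b
    obtain ⟨z1, hz1, hz1'⟩ := s6a_blkE_int blk i j a a
    obtain ⟨z2, hz2, hz2'⟩ := s6a_blkE_int blk i j b b
    obtain ⟨z, hz⟩ := hint a b
    rw [← hEdef] at hz1 hz2
    have hzz : (D : ℚ) * (E * Q * E) a b = ((z1 * z * z2 : ℤ) : ℚ) := by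
      rw [hentry, hz1, hz2]
      push_cast
      rw [← hz]
      ring
    refine ⟨z1 * z * z2, hzz, ?_⟩
    have hzD : |z| ≤ D := by
      have h1 : |(z : ℚ)| ≤ (D : ℚ) := by
        rw [← hz, abs_mul, abs_of_nonneg (by exact_mod_cast (by omega : (0 : ℤ) ≤ D))]
        have := s6a_idem_entry_le Q hQ1 hQ2 a b
        have hD0 : (0 : ℚ) ≤ D := by exact_mod_cast (by omega : (0 : ℤ) ≤ D)
        nlinarith
      exact_mod_cast h1
    rw [abs_mul, abs_mul]
    have h0 := abs_nonneg z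
    have h1 := abs_nonneg z1
    have h2 := abs_nonneg z2
    calc |z1| * |z| * |z2| ≤ 1 * |z| * 1 := by
          refine mul_le_mul (mul_le_mul_of_nonneg_right hz1' h0) hz2' h2 (by positivity)
      _ = |z| := by ring
      _ ≤ B := hzD.trans hDB
  obtain ⟨D₂, Q', R', hD₂1, hD₂le, hD₂Q, -, hQ't, hQ'Q', hGQ', hQR⟩ :=
    s6a_ker_proj (E * Q * E) hGs D B hD (hD.trans hDB) hint2
  have hPP : (1 - Q') * (1 - Q') = 1 - Q' := by
    rw [Matrix.sub_mul, Matrix.one_mul, Matrix.mul_sub, Matrix.mul_one, hQ'Q']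
    abel
  have hPt : (1 - Q')ᵀ = 1 - Q' := by
    rw [Matrix.transpose_sub, Matrix.transpose_one, hQ't]
  have hPW : 1 - Q' = E * Q * (E * R'ᵀ) := by
    have h1 := congrArg Matrix.transpose hQR
    rw [hPt, Matrix.transpose_mul, hGs] at h1
    rw [h1]
    simp only [Matrix.mul_assoc]
  have hM : Q * E * Q' = 0 := by
    apply s6a_gramQ_eq_zero
    rw [Matrix.transpose_mul, Matrix.transpose_mul, hQ't, hEt, hQ2]
    calc Q' * (E * Q) * (Q * E * Q') = Q' * (E * (Q * Q) * E * Q') := by simp only [Matrix.mul_assoc]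
      _ = Q' * (E * Q * E * Q') := by rw [hQ1]
      _ = 0 := by rw [hGQ', Matrix.mul_zero]
  have hM' : Q' * (E * Q) = 0 := by
    have h1 := congrArg Matrix.transpose hM
    rwa [Matrix.transpose_mul, Matrix.transpose_mul, hQ't, hEt, hQ2, Matrix.transpose_zero] at h1
  refine ⟨1 - Q', E * R'ᵀ, hPP, hPt, ?_, ?_, hPW, ?_⟩
  · conv_lhs => rw [hPW]
    rw [← Matrix.mul_assoc, ← Matrix.mul_assoc E E Q, hEE, ← hPW]
  · rw [Matrix.sub_mul, Matrix.one_mul, hM', sub_zero]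
  · intro a b
    obtain ⟨z, hz⟩ := hD₂Q a b
    have h1 : (D₂ : ℚ) * (1 - Q') a b = ((D₂ * (if a = b then 1 else 0) - z : ℤ) : ℚ) := by
      rw [Matrix.sub_apply, mul_sub, hz, Matrix.one_apply]
      push_cast
      split_ifs <;> simp
    exact (s6a_qHeight_le_of_int _ D₂ _ hD₂1 h1 (s6a_idem_entry_le _ hPP hPt a b)).trans hD₂le

end Claimed.Agent.R258
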