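/-
Row 258 (S0498), block [S6a] (architect helper70).  LEAF P-S6A-CHAINEST.  No paper needed: real matrix/vector algebra + triangle inequalities.
Black boxes: HtMisc.lean, the `s6a_blk*` lemmas of ChainAlg.lean.

NOTATION.  `E_e = blkE blk e (e+1)`, `Π_e = E_e - Pf e`, `K_e = blkK blk K e (e+1)`, `E' = blkE blk 0 L`, `K' = blkK blk K 0 L`;
matrices act on real vectors through `ratM`.  `n = card N`.  Put `F = Q V`, `V' = E' V`, `F' = E' F`.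

SLOW PART.  `P V = P V'` (`P = P E'`), `P F' = F'`, so `(E' - P) V = (1 - P)(V' - F')`; `1 - P` is a symmetric idempotent (entries `≤ 1`),
 `|(V' - F') a| ≤ H1`:  `|((E' - P) V) a| ≤ n H1`.

CURVATURE.  `P V = F' + Δ'`, `Δ' = P (V' - F')`, `|Δ' a| ≤ n H1`.
 (a) `Δ'ᵀ K' V = Δ'ᵀ K' V' = Δ'ᵀ K' (P V') + Δ'ᵀ K' (V' - P V')`; the first term is `(V'-F')ᵀ (P K' P) V' = 0`; the second is
     `≤ n² Hb (n H1)(n H1)` (`s6a_bilin_le`, slow part).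
 (b) `F'ᵀ K' V = Fᵀ K' V = ∑_e Fᵀ K_e V` (`E' K' = K'`, `s6a_blkK_telescope`).
 (c) `Fᵀ K_e V = (E_e F)ᵀ K_e (E_e V)`, `E_e F = Pf_e F` (`hQ`), `Pf_e F = Pf_e V - Δ_e`, `Δ_e = Pf_e (V - F)`, `|Δ_e a| ≤ n H1`;
     `(Pf_e V)ᵀ K_e (E_e V) = (Pf_e V)ᵀ K_e V`;   `Δ_eᵀ K_e (E_e V) = Δ_eᵀ K_e (Pf_e V) + Δ_eᵀ K_e (Π_e V)`, the first term is
     `(V-F)ᵀ (Pf_e K_e Pf_e) V = 0`, the second is `≤ n² Hb (n H1) H`.
 (d) `q 0 - q L = ∑_e (q e - q (e+1))` (`Finset.sum_range_sub'`).  Hence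
     `q 0 - q L + (P V)ᵀ K' V = ∑_e [q e - q (e+1) + (Pf_e V)ᵀ K_e V] - ∑_e Δ_eᵀ K_e Π_e V + Δ'ᵀ K' (V' - P V')`.
ADVICE: first prove the vector identities as equalities of `ratM`-matrix products applied to `V` (`Matrix.mulVec_mulVec`, `Matrix.dotProduct_mulVec`,
`Matrix.vecMul_transpose`), transporting the rational matrix identities with `s6a_ratM_mul` etc.
-/
import Claimed.Agent.R258.S6a.ChainAlg

set_option autoImplicit false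
open scoped Matrix

namespace Claimed.Agent.R258

variable {N : Type*} [Fintype N] [DecidableEq N]

theorem s6a_ce_adj (A B : Matrix N N ℚ) (x y : N → ℝ) :
    (ratM A *ᵥ x) ⬝ᵥ (ratM B *ᵥ y) = x ⬝ᵥ (ratM (Aᵀ * B) *ᵥ y) := by
  rw [s6a_ratM_mul, s6a_ratM_transpose, ← Matrix.mulVec_mulVec, Matrix.dotProduct_mulVec x,
    Matrix.vecMul_transpose]

theorem s6a_ce_blkE_mulVec (blk : N → ℕ) (i j : ℕ) (x : N → ℝ) (a : N) :
    |(ratM (blkE blk i j) *ᵥ x) a| ≤ |x a| := by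
  have h1 : (ratM (blkE blk i j) *ᵥ x) a = (if blk a = i ∨ blk a = j then 1 else 0) * x a := by
    rw [Matrix.mulVec, dotProduct, Finset.sum_eq_single a]
    · rw [s6a_ratM_apply]
      unfold blkE
      rw [Matrix.diagonal_apply_eq]
      split_ifs <;> simp
    · intro b _ hb
      rw [s6a_ratM_apply]
      unfold blkE
      rw [Matrix.diagonal_apply_ne' _ hb]
      simp
    · intro h
      exact absurd (Finset.mem_univ a) h
  rw [h1]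
  split_ifs
  · rw [one_mul]
  · rw [zero_mul, abs_zero]
    exact abs_nonneg _

theorem s6a_ce_sub_mulVec (Q : Matrix N N ℚ) (V : N → ℝ) :
    ratM (1 - Q) *ᵥ V = V - ratM Q *ᵥ V := by
  rw [s6a_ratM_sub, s6a_ratM_one, Matrix.sub_mulVec, Matrix.one_mulVec]

theorem s6a_ce_idem_mulVec (P : Matrix N N ℚ) (hP1 : P * P = P) (hP2 : Pᵀ = P) (x : N → ℝ) (c : ℝ)
    (hx : ∀ a, |x a| ≤ c) (a : N) : |(ratM P *ᵥ x) a| ≤ (Fintype.card N : ℝ) * c := by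
  have h := s6a_mulVec_le P x 1 c (fun i j => by
    have := s6a_idem_entry_le P hP1 hP2 i j
    have h2 : ((|P i j| : ℚ) : ℝ) ≤ ((1 : ℚ) : ℝ) := by exact_mod_cast this
    rw [Rat.cast_abs] at h2
    simpa using h2) hx a
  rwa [mul_one] at h

/-- slow part of the endpoint splitting -/
theorem s6a_chain_slow (blk : N → ℕ) (V : N → ℝ) (L : ℕ) (H1 : ℝ)
    (Q : Matrix N N ℚ) (hV : ∀ a, |V a - (ratM Q *ᵥ V) a| ≤ H1)
    (P : Matrix N N ℚ) (hP1 : P * P = P) (hP2 : Pᵀ = P) (hP3 : blkE blk 0 L * P = P)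
    (hP4 : P * (blkE blk 0 L * Q) = blkE blk 0 L * Q) (a : N) :
    |(ratM (blkE blk 0 L - P) *ᵥ V) a| ≤ (Fintype.card N : ℝ) * H1 := by
  have hPE : P * blkE blk 0 L = P := s6a_ca_mul_blkE blk 0 L P hP2 hP3
  have hid : blkE blk 0 L - P = (1 - P) * (blkE blk 0 L * (1 - Q)) := by
    rw [Matrix.mul_sub, Matrix.mul_one, Matrix.sub_mul, Matrix.one_mul, Matrix.mul_sub, hPE, hP4]
    abel
  have h1 : (1 - P) * (1 - P) = 1 - P := by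
    rw [Matrix.sub_mul, Matrix.one_mul, Matrix.mul_sub, Matrix.mul_one, hP1]
    abel
  have h2 : (1 - P)ᵀ = 1 - P := by
    rw [Matrix.transpose_sub, Matrix.transpose_one, hP2]
  rw [hid, s6a_ratM_mul, s6a_ratM_mul, ← Matrix.mulVec_mulVec, ← Matrix.mulVec_mulVec, s6a_ce_sub_mulVec Q V]
  refine s6a_ce_idem_mulVec _ h1 h2 _ H1 (fun b => ?_) a
  exact (s6a_ce_blkE_mulVec blk 0 L _ b).trans (hV b)

/-- the algebraic identity behind (a) and (c) -/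
theorem s6a_ce_key (P E Kk Q : Matrix N N ℚ) (hP2 : Pᵀ = P) (hEt : Eᵀ = E) (hKE : Kk * E = Kk) (hEK : E * Kk = Kk)
    (hiso : P * Kk * P = 0) (hPQ : P * Q = E * Q) :
    (P * (1 - Q))ᵀ * (Kk * (E - P)) = P * Kk - Qᵀ * Kk := by
  have h1 : Qᵀ * P = Qᵀ * E := by
    have := congrArg Matrix.transpose hPQ
    rwa [Matrix.transpose_mul, Matrix.transpose_mul, hP2, hEt] at this
  rw [Matrix.transpose_mul, hP2, Matrix.transpose_sub, Matrix.transpose_one, Matrix.mul_sub, hKE,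
    Matrix.mul_assoc, Matrix.mul_sub, ← Matrix.mul_assoc P Kk P, hiso, sub_zero, Matrix.sub_mul, Matrix.one_mul,
    ← Matrix.mul_assoc, h1, Matrix.mul_assoc, hEK]

theorem s6a_ce_blkK_entry (blk : N → ℕ) (K : Matrix N N ℚ) (Hb : ℝ) (hK : ∀ a b, |((K a b : ℚ) : ℝ)| ≤ Hb)
    (i j : ℕ) (a b : N) : |((blkK blk K i j a b : ℚ) : ℝ)| ≤ Hb := by
  unfold blkK
  split_ifs
  · exact hK a b
  · rw [Rat.cast_neg, abs_neg]; exact hK a b
  · rw [Rat.cast_zero, abs_zero]; exact (abs_nonneg _).trans (hK a b)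

/-- effective curvature of the endpoint splitting -/
theorem s6a_chain_curv (blk : N → ℕ) (K : Matrix N N ℚ) (V : N → ℝ) (q : ℕ → ℝ) (hKs : Kᵀ = -K)
    (hKb : ∀ a b, blk a ≠ blk b → K a b = 0) (Hb : ℝ) (hK : ∀ a b, |((K a b : ℚ) : ℝ)| ≤ Hb)
    (L : ℕ) (hL : 1 ≤ L) (H H1 : ℝ) (hH : 0 ≤ H) (hH1 : 0 ≤ H1)
    (Pf : ℕ → Matrix N N ℚ) (hE : ∀ e < L, JSplitW blk K V q e (e + 1) H (Pf e))
    (Q : Matrix N N ℚ) (hQ : ∀ e < L, (blkE blk e (e + 1) - Pf e) * Q = 0)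
    (hV : ∀ a, |V a - (ratM Q *ᵥ V) a| ≤ H1)
    (P : Matrix N N ℚ) (hP1 : P * P = P) (hP2 : Pᵀ = P) (hP3 : blkE blk 0 L * P = P)
    (hP4 : P * (blkE blk 0 L * Q) = blkE blk 0 L * Q) (hP5 : P * blkK blk K 0 L * P = 0) :
    |q 0 - q L + (ratM P *ᵥ V) ⬝ᵥ (ratM (blkK blk K 0 L) *ᵥ V)| ≤
      L * H + L * ((Fintype.card N : ℝ) ^ 2 * Hb * ((Fintype.card N : ℝ) * H1) * H) +
        (Fintype.card N : ℝ) ^ 2 * Hb * ((Fintype.card N : ℝ) * H1) * ((Fintype.card N : ℝ) * H1) := by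
  have hPE : P * blkE blk 0 L = P := s6a_ca_mul_blkE blk 0 L P hP2 hP3
  have hPQ : P * Q = blkE blk 0 L * Q := by
    conv_lhs => rw [← hPE]
    rw [Matrix.mul_assoc, hP4]
  have hk3 := s6a_ce_key P (blkE blk 0 L) (blkK blk K 0 L) Q hP2 (s6a_blkE_symm blk 0 L)
    (s6a_blkK_mul_blkE blk K hKb 0 L) (s6a_blkE_mul_blkK blk K 0 L) hP5 hPQ
  have hke : ∀ e ∈ Finset.range L, (Pf e * (1 - Q))ᵀ * (blkK blk K e (e + 1) * (blkE blk e (e + 1) - Pf e))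
      = Pf e * blkK blk K e (e + 1) - Qᵀ * blkK blk K e (e + 1) := by
    intro e he
    have he' := Finset.mem_range.1 he
    refine s6a_ce_key (Pf e) (blkE blk e (e + 1)) (blkK blk K e (e + 1)) Q (hE e he').symm
      (s6a_blkE_symm blk e (e + 1)) (s6a_blkK_mul_blkE blk K hKb e (e + 1)) (s6a_blkE_mul_blkK blk K e (e + 1))
      (hE e he').iso ?_
    have := hQ e he'
    rw [Matrix.sub_mul, sub_eq_zero] at this
    exact this.symm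
  have hid : Pᵀ * blkK blk K 0 L
      = ∑ e ∈ Finset.range L, ((Pf e)ᵀ * blkK blk K e (e + 1)
          - (Pf e * (1 - Q))ᵀ * (blkK blk K e (e + 1) * (blkE blk e (e + 1) - Pf e)))
        + (P * (1 - Q))ᵀ * (blkK blk K 0 L * (blkE blk 0 L - P)) := by
    have h1 : ∀ e ∈ Finset.range L, ((Pf e)ᵀ * blkK blk K e (e + 1)
          - (Pf e * (1 - Q))ᵀ * (blkK blk K e (e + 1) * (blkE blk e (e + 1) - Pf e)))
        = Qᵀ * blkK blk K e (e + 1) := by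
      intro e he
      rw [hke e he, (hE e (Finset.mem_range.1 he)).symm]
      abel
    rw [Finset.sum_congr rfl h1, ← Matrix.mul_sum, ← s6a_blkK_telescope blk K L hL, hk3, hP2]
    abel
  obtain ⟨U, hU⟩ : ∃ U : N → ℝ, U = V - ratM Q *ᵥ V := ⟨_, rfl⟩
  have hUb : ∀ a, |U a| ≤ H1 := fun a => by rw [hU]; exact hV a
  have hmain : (ratM P *ᵥ V) ⬝ᵥ (ratM (blkK blk K 0 L) *ᵥ V)
      = ∑ e ∈ Finset.range L, ((ratM (Pf e) *ᵥ V) ⬝ᵥ (ratM (blkK blk K e (e + 1)) *ᵥ V)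
          - (ratM (Pf e) *ᵥ U) ⬝ᵥ (ratM (blkK blk K e (e + 1)) *ᵥ (ratM (blkE blk e (e + 1) - Pf e) *ᵥ V)))
        + (ratM P *ᵥ U) ⬝ᵥ (ratM (blkK blk K 0 L) *ᵥ (ratM (blkE blk 0 L - P) *ᵥ V)) := by
    have hconv : ∀ A B C : Matrix N N ℚ, (ratM A *ᵥ U) ⬝ᵥ (ratM B *ᵥ (ratM C *ᵥ V))
        = V ⬝ᵥ (ratM ((A * (1 - Q))ᵀ * (B * C)) *ᵥ V) := by
      intro A B C
      rw [← s6a_ce_adj, s6a_ratM_mul A, s6a_ratM_mul B, ← Matrix.mulVec_mulVec, ← Matrix.mulVec_mulVec,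
        s6a_ce_sub_mulVec, hU]
    rw [s6a_ce_adj, hid, s6a_ratM_add, s6a_ratM_sum, Matrix.add_mulVec, Matrix.sum_mulVec, dotProduct_add,
      dotProduct_sum, hconv]
    congr 1
    refine Finset.sum_congr rfl fun e _ => ?_
    rw [s6a_ratM_sub, Matrix.sub_mulVec, dotProduct_sub, hconv, s6a_ce_adj]
  have hb : ∀ e ∈ Finset.range L,
      |(ratM (Pf e) *ᵥ U) ⬝ᵥ (ratM (blkK blk K e (e + 1)) *ᵥ (ratM (blkE blk e (e + 1) - Pf e) *ᵥ V))|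
        ≤ (Fintype.card N : ℝ) ^ 2 * Hb * ((Fintype.card N : ℝ) * H1) * H := by
    intro e he
    have he' := Finset.mem_range.1 he
    exact s6a_bilin_le _ _ _ Hb _ _ (s6a_ce_blkK_entry blk K Hb hK e (e + 1))
      (s6a_ce_idem_mulVec (Pf e) (hE e he').idem (hE e he').symm U H1 hUb) (hE e he').slow
  have hc : |(ratM P *ᵥ U) ⬝ᵥ (ratM (blkK blk K 0 L) *ᵥ (ratM (blkE blk 0 L - P) *ᵥ V))|
      ≤ (Fintype.card N : ℝ) ^ 2 * Hb * ((Fintype.card N : ℝ) * H1) * ((Fintype.card N : ℝ) * H1) :=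
    s6a_bilin_le _ _ _ Hb _ _ (s6a_ce_blkK_entry blk K Hb hK 0 L)
      (s6a_ce_idem_mulVec P hP1 hP2 U H1 hUb) (s6a_chain_slow blk V L H1 Q hV P hP1 hP2 hP3 hP4)
  have hq : q 0 - q L = ∑ e ∈ Finset.range L, (q e - q (e + 1)) := (Finset.sum_range_sub' q L).symm
  rw [Finset.sum_sub_distrib] at hmain
  rw [hmain, hq]
  have e1 : ∑ e ∈ Finset.range L, (q e - q (e + 1))
      + (∑ e ∈ Finset.range L, (ratM (Pf e) *ᵥ V) ⬝ᵥ (ratM (blkK blk K e (e + 1)) *ᵥ V)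
        - ∑ e ∈ Finset.range L,
          (ratM (Pf e) *ᵥ U) ⬝ᵥ (ratM (blkK blk K e (e + 1)) *ᵥ (ratM (blkE blk e (e + 1) - Pf e) *ᵥ V))
        + (ratM P *ᵥ U) ⬝ᵥ (ratM (blkK blk K 0 L) *ᵥ (ratM (blkE blk 0 L - P) *ᵥ V)))
      = ∑ e ∈ Finset.range L, (q e - q (e + 1) + (ratM (Pf e) *ᵥ V) ⬝ᵥ (ratM (blkK blk K e (e + 1)) *ᵥ V))
        - ∑ e ∈ Finset.range L,
          (ratM (Pf e) *ᵥ U) ⬝ᵥ (ratM (blkK blk K e (e + 1)) *ᵥ (ratM (blkE blk e (e + 1) - Pf e) *ᵥ V))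
        + (ratM P *ᵥ U) ⬝ᵥ (ratM (blkK blk K 0 L) *ᵥ (ratM (blkE blk 0 L - P) *ᵥ V)) := by
    rw [Finset.sum_add_distrib]
    ring
  rw [e1]
  have s1 : |∑ e ∈ Finset.range L, (q e - q (e + 1) + (ratM (Pf e) *ᵥ V) ⬝ᵥ (ratM (blkK blk K e (e + 1)) *ᵥ V))|
      ≤ L * H := by
    calc _ ≤ ∑ e ∈ Finset.range L, |q e - q (e + 1) + (ratM (Pf e) *ᵥ V) ⬝ᵥ (ratM (blkK blk K e (e + 1)) *ᵥ V)| :=
          Finset.abs_sum_le_sum_abs _ _
      _ ≤ ∑ _e ∈ Finset.range L, H := Finset.sum_le_sum fun e he => (hE e (Finset.mem_range.1 he)).curv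
      _ = L * H := by simp
  have s2 : |∑ e ∈ Finset.range L,
      (ratM (Pf e) *ᵥ U) ⬝ᵥ (ratM (blkK blk K e (e + 1)) *ᵥ (ratM (blkE blk e (e + 1) - Pf e) *ᵥ V))|
      ≤ L * ((Fintype.card N : ℝ) ^ 2 * Hb * ((Fintype.card N : ℝ) * H1) * H) := by
    calc _ ≤ ∑ e ∈ Finset.range L,
          |(ratM (Pf e) *ᵥ U) ⬝ᵥ (ratM (blkK blk K e (e + 1)) *ᵥ (ratM (blkE blk e (e + 1) - Pf e) *ᵥ V))| :=
          Finset.abs_sum_le_sum_abs _ _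
      _ ≤ ∑ _e ∈ Finset.range L, ((Fintype.card N : ℝ) ^ 2 * Hb * ((Fintype.card N : ℝ) * H1) * H) :=
          Finset.sum_le_sum hb
      _ = _ := by simp
  refine (abs_add_le _ _).trans (add_le_add ((abs_sub _ _).trans (add_le_add s1 s2)) hc)

end Claimed.Agent.R258
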