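/-
Row 258 (S0498), block [S6a] (architect helper70).  LEAF P-S6A-PATHARITH.  Only arithmetic (integers, logarithms), no paper.

Monotonicity of the explicit budget `chainH` in the joint dimension, and `log pathH ≤ poly`.

PLAN for `s6a_pathH_log`.  `X := (L+1)(dmax+1) ≥ 1`, `N := (L+1) dmax ≤ X`, `L ≤ X`, `ℓ := 1 + log H + log Hb ≥ 1`; use `log n ≤ n`, `n! ≤ n^n`.
  log cD0 = L N² log H ≤ X³ ℓ;                 log (1 + cB1) ≤ X³ ℓ + X + 1;
  log kerD N cB1 (= log cB2) ≤ N log N + N log (1 + cB1) ≤ 4 X⁴ ℓ;          log kerR N cB1 ≤ 7 X⁴ ℓ;       log cH1 ≤ 11 X⁴ ℓ;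
  log kerD N cB2 ≤ X² + X (4 X⁴ ℓ + 1) ≤ 6 X⁵ ℓ;      every one of the five summands of chainH is ≤ exp (27 X⁵ ℓ);   chainH ≤ 5 exp (27 X⁵ ℓ).
It is convenient to prove upper bounds of the form `(x : ℝ) ≤ Real.exp (…)` for the casts of `cD0, cB1, kerD, kerR, cH1, cB2` one after the other
(no logarithm of a possibly vanishing quantity), and to take the logarithm only at the end (`pathH ≥ 2 > 0`).
-/
import Claimed.Agent.R258.Pack022

set_option autoImplicit false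

namespace Claimed.Agent.R258

/-- the budget of Lemma 6.2: path of length `L`, tags of dimension `≤ dmax` and height `≤ Hb`, edges of budget `H` -/
noncomputable def pathH (L dmax H Hb : ℕ) : ℝ := max 2 ((chainH ((L + 1) * dmax) L H Hb : ℤ) : ℝ)

theorem s6a_kerD_mono {N N' : ℕ} {B B' : ℤ} (hN : N ≤ N') (hB0 : 0 ≤ B) (hB : B ≤ B') : kerD N B ≤ kerD N' B' := by
  unfold kerD
  have h1 : (N.factorial : ℤ) ≤ N'.factorial := by exact_mod_cast Nat.factorial_le hN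
  have h2 : (1 + B) ^ N ≤ (1 + B') ^ N' :=
    (pow_le_pow_left₀ (by omega) (by omega) N).trans (pow_le_pow_right₀ (by omega) hN)
  exact mul_le_mul h1 h2 (by positivity) (by positivity)

theorem s6a_pa_kerD_nonneg (N : ℕ) {B : ℤ} (hB0 : 0 ≤ B) : 1 ≤ kerD N B := by
  unfold kerD
  have h1 : (1 : ℤ) ≤ N.factorial := by exact_mod_cast Nat.factorial_pos N
  have h2 : (1 : ℤ) ≤ (1 + B) ^ N := one_le_pow₀ (by omega)
  nlinarith

theorem s6a_kerR_mono {N N' : ℕ} {B B' : ℤ} (hN : N ≤ N') (hB0 : 1 ≤ B) (hB : B ≤ B') : kerR N B ≤ kerR N' B' := by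
  have h0 := s6a_kerD_mono hN (by omega : (0 : ℤ) ≤ B) hB
  unfold kerD at h0
  unfold kerR
  have hNN : (N : ℤ) ≤ N' := by exact_mod_cast hN
  have hB'0 : 0 ≤ B' := by omega
  have h3 : ((N : ℤ) * B) ^ N ≤ ((N' : ℤ) * B') ^ N' := by
    have h4 : ((N : ℤ) * B) ^ N ≤ ((N' : ℤ) * B') ^ N :=
      pow_le_pow_left₀ (by positivity) (mul_le_mul hNN hB (by omega) (by positivity)) N
    rcases Nat.eq_zero_or_pos N' with h5 | h5
    · have : N = 0 := by omega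
      subst this
      subst h5
      simp
    · have h6 : (1 : ℤ) ≤ (N' : ℤ) * B' := by
        have : (1 : ℤ) ≤ N' := by exact_mod_cast h5
        nlinarith
      exact h4.trans (pow_le_pow_right₀ h6 hN)
  exact mul_le_mul h0 h3 (by positivity) (by positivity)

theorem s6a_pa_cD0_mono {N N' : ℕ} (hN : N ≤ N') (L H : ℕ) (hH : 1 ≤ H) : cD0 N L H ≤ cD0 N' L H := by
  unfold cD0
  exact pow_le_pow_right₀ (by exact_mod_cast hH) (Nat.mul_le_mul_left _ (Nat.mul_le_mul hN hN))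

theorem s6a_pa_cD0_pos (N L H : ℕ) (hH : 1 ≤ H) : 1 ≤ cD0 N L H := by
  unfold cD0
  exact one_le_pow₀ (by exact_mod_cast hH)

theorem s6a_pa_cB1_mono {N N' : ℕ} (hN : N ≤ N') (L H : ℕ) (hH : 1 ≤ H) : cB1 N L H ≤ cB1 N' L H := by
  unfold cB1
  exact mul_le_mul_of_nonneg_right (s6a_pa_cD0_mono hN L H hH) (by positivity)

theorem s6a_pa_cB1_pos (N L H : ℕ) (hL : 1 ≤ L) (hH : 1 ≤ H) : 1 ≤ cB1 N L H := by
  unfold cB1
  have h1 := s6a_pa_cD0_pos N L H hH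
  have h2 : (1 : ℤ) ≤ L := by exact_mod_cast hL
  nlinarith

theorem s6a_pa_kerR_nonneg (n : ℕ) (B : ℤ) (hB : 0 ≤ B) : 0 ≤ kerR n B := by
  unfold kerR
  positivity

theorem s6a_pa_cH1_nonneg (N L H : ℕ) (hL : 1 ≤ L) (hH : 1 ≤ H) : 0 ≤ cH1 N L H := by
  unfold cH1
  have h1 := s6a_pa_cD0_pos N L H hH
  have h2 := s6a_pa_kerR_nonneg N (cB1 N L H) (by have := s6a_pa_cB1_pos N L H hL hH; omega)
  have h3 : 0 ≤ cD0 N L H := by omega
  positivity

theorem s6a_pa_cH1_mono {N N' : ℕ} (hN : N ≤ N') (L H : ℕ) (hL : 1 ≤ L) (hH : 1 ≤ H) :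
    cH1 N L H ≤ cH1 N' L H := by
  unfold cH1
  have hNN : (N : ℤ) ≤ N' := by exact_mod_cast hN
  have h1 := s6a_pa_cD0_mono hN L H hH
  have h2 := s6a_kerR_mono hN (s6a_pa_cB1_pos N L H hL hH) (s6a_pa_cB1_mono hN L H hH)
  have h3 := s6a_pa_kerR_nonneg N (cB1 N L H) (by have := s6a_pa_cB1_pos N L H hL hH; omega)
  have h4 : 0 ≤ cD0 N' L H := by have := s6a_pa_cD0_pos N' L H hH; omega
  have h5 : 0 ≤ cD0 N L H := by have := s6a_pa_cD0_pos N L H hH; omega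
  have h6 := s6a_pa_kerR_nonneg N' (cB1 N' L H) (by have := s6a_pa_cB1_pos N' L H hL hH; omega)
  refine mul_le_mul_of_nonneg_right ?_ (by positivity)
  exact mul_le_mul hNN (mul_le_mul h1 h2 h3 h4) (by positivity) (by positivity)

theorem s6a_chainH_mono {N N' : ℕ} (hN : N ≤ N') (L H Hb : ℕ) (hL : 1 ≤ L) (hH : 1 ≤ H) :
    chainH N L H Hb ≤ chainH N' L H Hb := by
  unfold chainH
  have hNN : (N : ℤ) ≤ N' := by exact_mod_cast hN
  have hN0 : (0 : ℤ) ≤ N := by positivity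
  have hc := s6a_pa_cH1_mono hN L H hL hH
  have hc0 := s6a_pa_cH1_nonneg N L H hL hH
  have hc0' := s6a_pa_cH1_nonneg N' L H hL hH
  have h1 : kerD N (cB2 N L H) ≤ kerD N' (cB2 N' L H) := by
    have hb0 : 0 ≤ cB1 N L H := by have := s6a_pa_cB1_pos N L H hL hH; omega
    refine s6a_kerD_mono hN ?_ ?_
    · unfold cB2
      have := s6a_pa_kerD_nonneg N hb0
      omega
    · unfold cB2
      exact s6a_kerD_mono hN hb0 (s6a_pa_cB1_mono hN L H hH)
  have h2 : (N : ℤ) * cH1 N L H ≤ N' * cH1 N' L H := mul_le_mul hNN hc hc0 (by positivity)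
  have h20 : 0 ≤ (N : ℤ) * cH1 N L H := by positivity
  have h20' : 0 ≤ (N' : ℤ) * cH1 N' L H := by positivity
  have h3 : (N : ℤ) ^ 2 * Hb ≤ (N' : ℤ) ^ 2 * Hb :=
    mul_le_mul_of_nonneg_right (pow_le_pow_left₀ hN0 hNN 2) (by positivity)
  have h4 : (N : ℤ) ^ 2 * Hb * (N * cH1 N L H) ≤ (N' : ℤ) ^ 2 * Hb * (N' * cH1 N' L H) :=
    mul_le_mul h3 h2 h20 (by positivity)
  have h5 : (L : ℤ) * ((N : ℤ) ^ 2 * Hb * (N * cH1 N L H) * H) ≤ L * ((N' : ℤ) ^ 2 * Hb * (N' * cH1 N' L H) * H) :=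
    mul_le_mul_of_nonneg_left (mul_le_mul_of_nonneg_right h4 (by positivity)) (by positivity)
  have h6 : (N : ℤ) ^ 2 * Hb * (N * cH1 N L H) * (N * cH1 N L H)
      ≤ (N' : ℤ) ^ 2 * Hb * (N' * cH1 N' L H) * (N' * cH1 N' L H) :=
    mul_le_mul h4 h2 h20 (by positivity)
  linarith

/-! ### exponential bounds -/

theorem s6a_pa_mul {x y a b : ℝ} (hy0 : 0 ≤ y) (hx : x ≤ Real.exp a) (hy : y ≤ Real.exp b) :
    x * y ≤ Real.exp (a + b) := by
  rw [Real.exp_add]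
  exact mul_le_mul hx hy hy0 (Real.exp_pos _).le

theorem s6a_pa_pow {x a : ℝ} (hx0 : 0 ≤ x) (hx : x ≤ Real.exp a) (n : ℕ) : x ^ n ≤ Real.exp (n * a) := by
  rw [Real.exp_nat_mul]
  exact pow_le_pow_left₀ hx0 hx n

theorem s6a_pa_nat (n : ℕ) : (n : ℝ) ≤ Real.exp n := by
  have := Real.add_one_le_exp (n : ℝ)
  linarith

theorem s6a_pa_fact (n : ℕ) : (n.factorial : ℝ) ≤ Real.exp (n * n) := by
  have h1 : (n.factorial : ℝ) ≤ (n : ℝ) ^ n := by exact_mod_cast Nat.factorial_le_pow n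
  exact h1.trans (s6a_pa_pow (by positivity) (s6a_pa_nat n) n)

theorem s6a_pa_kerD_le (N : ℕ) (B : ℤ) (hB : 0 ≤ B) (b : ℝ) (hb : 1 + (B : ℝ) ≤ Real.exp b) :
    ((kerD N B : ℤ) : ℝ) ≤ Real.exp (N * N + N * b) := by
  unfold kerD
  push_cast
  have hB' : (0 : ℝ) ≤ B := by exact_mod_cast hB
  exact s6a_pa_mul (by positivity) (s6a_pa_fact N) (s6a_pa_pow (by positivity) hb N)

theorem s6a_pa_kerR_le (N : ℕ) (B : ℤ) (hB : 0 ≤ B) (b : ℝ) (hb : 1 + (B : ℝ) ≤ Real.exp b) :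
    ((kerR N B : ℤ) : ℝ) ≤ Real.exp (N * N + N * b + N * (N + b)) := by
  have h1 := s6a_pa_kerD_le N B hB b hb
  unfold kerD at h1
  unfold kerR
  push_cast at h1 ⊢
  have hB' : (0 : ℝ) ≤ B := by exact_mod_cast hB
  refine s6a_pa_mul (by positivity) h1 (s6a_pa_pow (by positivity) ?_ N)
  exact s6a_pa_mul hB' (s6a_pa_nat N) (by linarith)


/-- `log H' ≤ poly (L, dmax, log H, log Hb)` -/
theorem s6a_pathH_log (L dmax H Hb : ℕ) (hH : 1 ≤ H) (hHb : 1 ≤ Hb) :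
    Real.log (pathH L dmax H Hb) ≤
      100 * (((L : ℝ) + 1) * ((dmax : ℝ) + 1)) ^ 6 * (1 + Real.log H + Real.log Hb) := by
  obtain ⟨N, hNdef⟩ : ∃ N : ℕ, N = (L + 1) * dmax := ⟨_, rfl⟩
  obtain ⟨X, hXdef⟩ : ∃ X : ℝ, X = ((L : ℝ) + 1) * ((dmax : ℝ) + 1) := ⟨_, rfl⟩
  obtain ⟨l, hldef⟩ : ∃ l : ℝ, l = 1 + Real.log H + Real.log Hb := ⟨_, rfl⟩
  have hHr : (1 : ℝ) ≤ H := by exact_mod_cast hH
  have hHbr : (1 : ℝ) ≤ Hb := by exact_mod_cast hHb
  have hlH : 0 ≤ Real.log H := Real.log_nonneg hHr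
  have hlHb : 0 ≤ Real.log Hb := Real.log_nonneg hHbr
  have hl1 : 1 ≤ l := by rw [hldef]; linarith
  have hL0 : (0 : ℝ) ≤ L := by positivity
  have hd0 : (0 : ℝ) ≤ dmax := by positivity
  have hX1 : 1 ≤ X := by
    rw [hXdef]
    exact one_le_mul_of_one_le_of_one_le (by linarith) (by linarith)
  have hNX : (N : ℝ) ≤ X := by
    rw [hXdef, hNdef]
    push_cast
    exact mul_le_mul_of_nonneg_left (by linarith) (by linarith)
  have hLX : (L : ℝ) ≤ X := by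
    rw [hXdef]
    calc (L : ℝ) ≤ ((L : ℝ) + 1) * 1 := by linarith
      _ ≤ ((L : ℝ) + 1) * ((dmax : ℝ) + 1) := mul_le_mul_of_nonneg_left (by linarith) (by linarith)
  have hN0 : (0 : ℝ) ≤ N := by positivity
  obtain ⟨A, hAdef⟩ : ∃ A : ℝ, A = X ^ 3 * l := ⟨_, rfl⟩
  have hX0 : 0 ≤ X := by linarith
  have hXX : X ≤ X * X := le_mul_of_one_le_left hX0 hX1
  have hX3 : X * X ≤ X ^ 3 := by
    have : X ^ 3 = X * (X * X) := by ring
    rw [this]
    exact le_mul_of_one_le_left (by positivity) hX1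
  have hXA : X * X ≤ A := by
    rw [hAdef]
    exact hX3.trans (le_mul_of_one_le_right (by positivity) hl1)
  have hXA' : X ≤ A := hXX.trans hXA
  have hlA : l ≤ A := by
    rw [hAdef]
    exact le_mul_of_one_le_left (by linarith) (one_le_pow₀ hX1)
  have hA1 : 1 ≤ A := hl1.trans hlA
  have hA0 : 0 ≤ A := by linarith
  have hAB : A ≤ X * A := le_mul_of_one_le_left hA0 hX1
  have hBC : X * A ≤ X * (X * A) := le_mul_of_one_le_left (by positivity) hX1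
  have hXXB : X * X ≤ X * A := mul_le_mul_of_nonneg_left hXA' hX0
  -- exponentials of the data
  have hHe : (H : ℝ) = Real.exp (Real.log H) := (Real.exp_log (by linarith)).symm
  have hHbe : (Hb : ℝ) = Real.exp (Real.log Hb) := (Real.exp_log (by linarith)).symm
  have hNe : (N : ℝ) ≤ Real.exp X := (s6a_pa_nat N).trans (Real.exp_le_exp.2 hNX)
  have hLe : (L : ℝ) ≤ Real.exp X := (s6a_pa_nat L).trans (Real.exp_le_exp.2 hLX)
  -- cD0
  have hD0pos : (1 : ℝ) ≤ ((cD0 N L H : ℤ) : ℝ) := by exact_mod_cast s6a_pa_cD0_pos N L H hH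
  have hD0 : ((cD0 N L H : ℤ) : ℝ) ≤ Real.exp A := by
    unfold cD0
    push_cast
    refine (s6a_pa_pow (by linarith) hHe.le _).trans (Real.exp_le_exp.2 ?_)
    push_cast
    have h1 : (L : ℝ) * ((N : ℝ) * N) ≤ X ^ 3 := by
      have h2 : (N : ℝ) * N ≤ X * X := mul_le_mul hNX hNX hN0 hX0
      calc (L : ℝ) * ((N : ℝ) * N) ≤ X * (X * X) := mul_le_mul hLX h2 (by positivity) hX0
        _ = X ^ 3 := by ring
    have h3 : Real.log H ≤ l := by rw [hldef]; linarith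
    rw [hAdef]
    exact mul_le_mul h1 h3 hlH (by positivity)
  -- cB1
  have hB1nn : 0 ≤ cB1 N L H := by
    unfold cB1
    have := s6a_pa_cD0_pos N L H hH
    positivity
  have hB1 : 1 + ((cB1 N L H : ℤ) : ℝ) ≤ Real.exp (2 * A) := by
    unfold cB1
    push_cast
    have h1 : 1 + ((cD0 N L H : ℤ) : ℝ) * L ≤ ((cD0 N L H : ℤ) : ℝ) * (L + 1) := by
      have : ((cD0 N L H : ℤ) : ℝ) * (L + 1) = ((cD0 N L H : ℤ) : ℝ) * L + ((cD0 N L H : ℤ) : ℝ) := by ring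
      linarith
    have h2 : (L : ℝ) + 1 ≤ Real.exp X := (Real.add_one_le_exp _).trans (Real.exp_le_exp.2 hLX)
    refine h1.trans ((s6a_pa_mul (by positivity) hD0 h2).trans (Real.exp_le_exp.2 ?_))
    linarith
  -- cB2
  have hNmul : ∀ y : ℝ, 0 ≤ y → (N : ℝ) * y ≤ X * y := fun y hy => mul_le_mul_of_nonneg_right hNX hy
  have hNN : (N : ℝ) * N ≤ X * A := by
    have h2 : (N : ℝ) * N ≤ X * X := mul_le_mul hNX hNX hN0 hX0
    linarith
  have hB2nn : 0 ≤ cB2 N L H := by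
    unfold cB2
    have := s6a_pa_kerD_nonneg N hB1nn
    omega
  have hB2 : ((cB2 N L H : ℤ) : ℝ) ≤ Real.exp (3 * (X * A)) := by
    unfold cB2
    refine (s6a_pa_kerD_le N _ hB1nn _ hB1).trans (Real.exp_le_exp.2 ?_)
    have := hNmul (2 * A) (by linarith)
    have e1 : X * (2 * A) = 2 * (X * A) := by ring
    linarith
  have hkR : ((kerR N (cB1 N L H) : ℤ) : ℝ) ≤ Real.exp (6 * (X * A)) := by
    refine (s6a_pa_kerR_le N _ hB1nn _ hB1).trans (Real.exp_le_exp.2 ?_)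
    have h1 := hNmul (2 * A) (by linarith)
    have h2 := hNmul ((N : ℝ) + 2 * A) (by linarith)
    have h3 : X * ((N : ℝ) + 2 * A) ≤ X * (X + 2 * A) := mul_le_mul_of_nonneg_left (by linarith) hX0
    have e1 : X * (2 * A) = 2 * (X * A) := by ring
    have e2 : X * (X + 2 * A) = X * X + 2 * (X * A) := by ring
    linarith
  have hkRnn : (0 : ℝ) ≤ ((kerR N (cB1 N L H) : ℤ) : ℝ) := by
    exact_mod_cast s6a_pa_kerR_nonneg N _ hB1nn
  -- cH1
  have hH1nn : (0 : ℝ) ≤ ((cH1 N L H : ℤ) : ℝ) := by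
    unfold cH1
    push_cast
    have : (0 : ℝ) ≤ ((cD0 N L H : ℤ) : ℝ) := by linarith
    positivity
  have hLH : (L : ℝ) * H ≤ Real.exp (X + Real.log H) := s6a_pa_mul (by linarith) hLe hHe.le
  have hH1 : ((cH1 N L H : ℤ) : ℝ) ≤ Real.exp (10 * (X * A)) := by
    unfold cH1
    push_cast
    have h1 : ((cD0 N L H : ℤ) : ℝ) * ((kerR N (cB1 N L H) : ℤ) : ℝ) ≤ Real.exp (A + 6 * (X * A)) :=
      s6a_pa_mul hkRnn hD0 hkR
    have h2 : (N : ℝ) * (((cD0 N L H : ℤ) : ℝ) * ((kerR N (cB1 N L H) : ℤ) : ℝ))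
        ≤ Real.exp (X + (A + 6 * (X * A))) :=
      s6a_pa_mul (mul_nonneg (by linarith) hkRnn) hNe h1
    refine (s6a_pa_mul (by positivity) h2 hLH).trans (Real.exp_le_exp.2 ?_)
    have : Real.log H ≤ l := by rw [hldef]; linarith
    linarith
  have hNH1 : (N : ℝ) * ((cH1 N L H : ℤ) : ℝ) ≤ Real.exp (11 * (X * A)) :=
    (s6a_pa_mul hH1nn hNe hH1).trans (Real.exp_le_exp.2 (by linarith))
  have hNH1nn : 0 ≤ (N : ℝ) * ((cH1 N L H : ℤ) : ℝ) := by positivity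
  -- the five summands
  obtain ⟨T, hTdef⟩ : ∃ T : ℝ, T = 25 * (X * (X * A)) := ⟨_, rfl⟩
  have t1 : ((kerD N (cB2 N L H) : ℤ) : ℝ) ≤ Real.exp T := by
    have h1 : 1 + ((cB2 N L H : ℤ) : ℝ) ≤ Real.exp (3 * (X * A) + 1) := by
      have h2 : (1 : ℝ) ≤ Real.exp (3 * (X * A)) := Real.one_le_exp (by positivity)
      have h3 : Real.exp (3 * (X * A) + 1) = Real.exp (3 * (X * A)) * Real.exp 1 := Real.exp_add _ _
      have h4 : (2 : ℝ) ≤ Real.exp 1 := by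
        have := Real.add_one_le_exp (1 : ℝ)
        linarith
      rw [h3]
      calc 1 + ((cB2 N L H : ℤ) : ℝ) ≤ Real.exp (3 * (X * A)) * 2 := by linarith
        _ ≤ Real.exp (3 * (X * A)) * Real.exp 1 := mul_le_mul_of_nonneg_left h4 (Real.exp_pos _).le
    refine (s6a_pa_kerD_le N _ hB2nn _ h1).trans (Real.exp_le_exp.2 ?_)
    have h5 := hNmul (3 * (X * A) + 1) (by positivity)
    have e1 : X * (3 * (X * A) + 1) = 3 * (X * (X * A)) + X := by ring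
    rw [hTdef]
    linarith
  have t2 : (N : ℝ) * ((cH1 N L H : ℤ) : ℝ) ≤ Real.exp T :=
    hNH1.trans (Real.exp_le_exp.2 (by rw [hTdef]; linarith))
  have t3 : (L : ℝ) * H ≤ Real.exp T := by
    refine hLH.trans (Real.exp_le_exp.2 ?_)
    have : Real.log H ≤ l := by rw [hldef]; linarith
    rw [hTdef]
    linarith
  have hN2 : (N : ℝ) ^ 2 * Hb ≤ Real.exp (2 * X + Real.log Hb) := by
    refine s6a_pa_mul (by linarith) ?_ hHbe.le
    have := s6a_pa_pow hN0 hNe 2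
    simpa using this
  have hN2H : (N : ℝ) ^ 2 * Hb * ((N : ℝ) * ((cH1 N L H : ℤ) : ℝ))
      ≤ Real.exp (2 * X + Real.log Hb + 11 * (X * A)) := s6a_pa_mul hNH1nn hN2 hNH1
  have t4 : (L : ℝ) * ((N : ℝ) ^ 2 * Hb * ((N : ℝ) * ((cH1 N L H : ℤ) : ℝ)) * H) ≤ Real.exp T := by
    have h1 := s6a_pa_mul (by linarith : (0 : ℝ) ≤ H) hN2H hHe.le
    have h2 := s6a_pa_mul (by positivity) hLe h1
    refine h2.trans (Real.exp_le_exp.2 ?_)
    have : Real.log H + Real.log Hb ≤ l := by rw [hldef]; linarith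
    rw [hTdef]
    linarith
  have t5 : (N : ℝ) ^ 2 * Hb * ((N : ℝ) * ((cH1 N L H : ℤ) : ℝ)) * ((N : ℝ) * ((cH1 N L H : ℤ) : ℝ)) ≤ Real.exp T := by
    refine (s6a_pa_mul hNH1nn hN2H hNH1).trans (Real.exp_le_exp.2 ?_)
    have : Real.log Hb ≤ l := by rw [hldef]; linarith
    rw [hTdef]
    linarith
  have hsum : ((chainH N L H Hb : ℤ) : ℝ) ≤ 5 * Real.exp T := by
    unfold chainH
    push_cast
    linarith
  have h5 : (5 : ℝ) ≤ Real.exp 2 := by
    have h1 : Real.exp 2 = Real.exp 1 * Real.exp 1 := by rw [← Real.exp_add]; norm_num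
    have h2 : (2.7 : ℝ) ≤ Real.exp 1 := by
      have := Real.exp_one_gt_d9
      linarith
    rw [h1]
    calc (5 : ℝ) ≤ 2.7 * 2.7 := by norm_num
      _ ≤ Real.exp 1 * Real.exp 1 := mul_le_mul h2 h2 (by norm_num) (Real.exp_pos _).le
  have hT0 : 0 ≤ T := by rw [hTdef]; positivity
  have hfin : pathH L dmax H Hb ≤ Real.exp (T + 2) := by
    unfold pathH
    rw [← hNdef]
    have h6 : Real.exp (T + 2) = Real.exp T * Real.exp 2 := Real.exp_add _ _
    have h7 : (1 : ℝ) ≤ Real.exp T := Real.one_le_exp hT0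
    refine max_le ?_ ?_
    · rw [h6]
      calc (2 : ℝ) ≤ 1 * 5 := by norm_num
        _ ≤ Real.exp T * Real.exp 2 := mul_le_mul h7 h5 (by norm_num) (Real.exp_pos _).le
    · refine hsum.trans ?_
      rw [h6, mul_comm]
      exact mul_le_mul_of_nonneg_left h5 (Real.exp_pos T).le
  have hpos : 0 < pathH L dmax H Hb := by
    unfold pathH
    exact lt_of_lt_of_le (by norm_num) (le_max_left _ _)
  rw [← hXdef, ← hldef]
  calc Real.log (pathH L dmax H Hb) ≤ T + 2 := by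
        rw [Real.log_le_iff_le_exp hpos]
        exact hfin
    _ ≤ 100 * X ^ 6 * l := by
        have h8 : X * (X * A) = X ^ 5 * l := by rw [hAdef]; ring
        have h9 : X ^ 5 * l ≤ X ^ 6 * l := by
          have : X ^ 5 ≤ X ^ 6 := pow_le_pow_right₀ hX1 (by norm_num)
          exact mul_le_mul_of_nonneg_right this (by linarith)
        have h10 : 1 ≤ X ^ 5 * l := by
          have : (1 : ℝ) ≤ X ^ 5 := one_le_pow₀ hX1
          exact one_le_mul_of_one_le_of_one_le this hl1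
        rw [hTdef, h8]
        linarith

end Claimed.Agent.R258
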