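/-
Row 258 (S0498), block [S6a] (architect helper70).  LEAF P-S6A-COV.  Mathlib + R258/Defs.lean + S6a/Defs.lean + S2/Form.lean (`s2_adm_bound`, `s2_adm_supp`).

THE FORM IN THE COORDINATES `(u, v) = (y_a, y_b)` OF TWO SLOTS, facts on the kernel `kerUV a b w`, arithmetic of the slots.

PLAN.
 * `s6a_lin_cov`: `L (x,t) = (x + a t, x + b t)` is the linear map `Matrix.toLin (Basis.finTwoProd ℝ) (Basis.finTwoProd ℝ) !![1, a; 1, b]`, `det = b - a ≠ 0`
   (`LinearMap.det_toLin`, `Matrix.det_fin_two_of`); `Measure.map_linearMap_addHaar_eq_smul_addHaar` gives `map L vol = |b - a|⁻¹ vol`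
   (`volume` on `ℝ × ℝ` is an additive Haar measure); `L` is a homeomorphism/measurable embedding (`LinearEquiv.ofIsUnitDet`, or give the inverse explicitly and use
   `Homeomorph`/`MeasurableEquiv`), so `∫ F ∘ L = ∫ F d(map L vol)` holds for EVERY `F` (`MeasurableEmbedding.integral_map`), `integral_smul_measure`.
 * `s6a_form_cov`: apply `s6a_lin_cov` to `F p = kerUV a b w p * ∏ l, z l (ξ_l p.1 + ζ_l p.2)`; check `F (x + a t, x + b t) = w (x,t) ∏ z l (x + l t)`:
   `ξ_l (x + a t) + ζ_l (x + b t) = x + l t` (`field_simp; ring`, `b - a ≠ 0`), `((x + b t) - (x + a t))/(b - a) = t`.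
 * kernel: `kerUV a b w (u,v) = w (x, t)` with `x + a t = u`, `x + b t = v`: support by `s2_adm_supp`, bound by `s2_adm_bound`, continuity from `Admissible.smooth`.
   Lipschitz: `w` is `C¹` with `‖fderiv w‖ ≤ len⁻¹ (3 C0)^(3 C0)` (`Admissible.deriv 1`, `norm_iteratedFDeriv_one`), the two points differ by
   `(ξ_0 s, - s/(b-a))` of sup norm `≤ 3 |s|` (`|ξ_0| = |b/(b-a)| ≤ 3`): `Convex.norm_image_sub_le_of_norm_fderiv_le` on `univ`.
 * slots: all statements by `fin_cases` on the four slots (or `decide`-style: `revert`, `decide` for the finset statements), `norm_num [slotXi, slotZe, slotC]`.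
-/
import Claimed.Agent.R258.Pack004
import Claimed.Agent.R258.Pack005

set_option autoImplicit false
open MeasureTheory

namespace Claimed.Agent.R258

/-- sup bound of an admissible kernel -/
noncomputable def admB (C0 : ℝ) : ℝ := (C0 * 2) ^ (C0 * 2)
/-- Lipschitz bound (times `|I|`) of an admissible kernel in the coordinates of two slots -/
noncomputable def admL (C0 : ℝ) : ℝ := 3 * (C0 * 3) ^ (C0 * 3)

/-- linear change of variables, no hypothesis on `F` -/
theorem s6a_lin_cov (a b : ℝ) (hab : a ≠ b) (F : ℝ × ℝ → ℂ) :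
    ∫ p : ℝ × ℝ, F (p.1 + a * p.2, p.1 + b * p.2) = ((|b - a|⁻¹ : ℝ) : ℂ) * ∫ p : ℝ × ℝ, F p := by
  set L : ℝ × ℝ →ₗ[ℝ] ℝ × ℝ :=
    Matrix.toLin (Module.Basis.finTwoProd ℝ) (Module.Basis.finTwoProd ℝ) !![1, a; 1, b] with hL
  have hLa : ∀ p, L p = (p.1 + a * p.2, p.1 + b * p.2) := by
    intro p
    rw [hL, Matrix.toLin_finTwoProd_apply]
    simp
  have hdet : LinearMap.det L = b - a := by
    rw [hL, LinearMap.det_toLin, Matrix.det_fin_two_of]
    ring
  have hdet0 : LinearMap.det L ≠ 0 := by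
    rw [hdet]
    exact sub_ne_zero.2 hab.symm
  have hmap := Measure.map_linearMap_addHaar_eq_smul_addHaar (volume : Measure (ℝ × ℝ)) hdet0
  have hemb : MeasurableEmbedding L :=
    (LinearMap.equivOfDetNeZero L hdet0).toContinuousLinearEquiv.toHomeomorph.measurableEmbedding
  calc ∫ p : ℝ × ℝ, F (p.1 + a * p.2, p.1 + b * p.2) = ∫ p, F (L p) := by simp only [hLa]
    _ = ∫ q, F q ∂(Measure.map L volume) := (hemb.integral_map F).symm
    _ = ((|b - a|⁻¹ : ℝ) : ℂ) * ∫ p : ℝ × ℝ, F p := by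
      rw [hmap, integral_smul_measure, hdet, ENNReal.toReal_ofReal (abs_nonneg _), abs_inv,
        Complex.real_smul]

theorem s6a_slot_diff (a b : Fin 4) (hab : a ≠ b) : 1 ≤ |((b : ℕ) : ℝ) - ((a : ℕ) : ℝ)| := by
  fin_cases a <;> fin_cases b <;> first | exact absurd rfl hab | norm_num

theorem s6a_slot_cast_ne (a b : Fin 4) (hab : a ≠ b) : ((b : ℕ) : ℝ) - ((a : ℕ) : ℝ) ≠ 0 := by
  intro h
  have := s6a_slot_diff a b hab
  rw [h] at this
  norm_num at this

theorem s6a_slot_lin (a b l : Fin 4) (hab : a ≠ b) (x t : ℝ) :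
    slotXi a b l * (x + ((a : ℕ) : ℝ) * t) + slotZe a b l * (x + ((b : ℕ) : ℝ) * t) = x + ((l : ℕ) : ℝ) * t := by
  have h := s6a_slot_cast_ne a b hab
  unfold slotXi slotZe
  field_simp
  ring

theorem s6a_ker_lin (a b : Fin 4) (hab : a ≠ b) (w : ℝ × ℝ → ℂ) (x t : ℝ) :
    kerUV a b w (x + ((a : ℕ) : ℝ) * t, x + ((b : ℕ) : ℝ) * t) = w (x, t) := by
  have h := s6a_slot_cast_ne a b hab
  unfold kerUV
  simp only
  rw [s6a_slot_lin a b 0 hab]
  congr 1
  ext
  · simp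
  · simp only
    field_simp
    ring

theorem s6a_form_cov (I : Cell) (w : ℝ × ℝ → ℂ) (a b : Fin 4) (hab : a ≠ b) (z : Fin 4 → ℝ → ℂ) :
    form I w z = (((I.len ^ 2)⁻¹ * |((b : ℕ) : ℝ) - ((a : ℕ) : ℝ)|⁻¹ : ℝ) : ℂ) *
      ∫ p : ℝ × ℝ, kerUV a b w p * ∏ l, z l (slotXi a b l * p.1 + slotZe a b l * p.2) := by
  have hne : ((a : ℕ) : ℝ) ≠ ((b : ℕ) : ℝ) := fun h => s6a_slot_cast_ne a b hab (by rw [h]; ring)
  have h := s6a_lin_cov ((a : ℕ) : ℝ) ((b : ℕ) : ℝ) hne
    (fun p => kerUV a b w p * ∏ l, z l (slotXi a b l * p.1 + slotZe a b l * p.2))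
  simp only [s6a_ker_lin a b hab, s6a_slot_lin a b _ hab] at h
  unfold form
  rw [h]
  push_cast
  ring

section kernel
variable {c0 C0 : ℝ} {I : Cell} {w : ℝ × ℝ → ℂ}

theorem s6a_ker_bound (hw : Admissible c0 C0 I w) (a b : Fin 4) (p : ℝ × ℝ) : ‖kerUV a b w p‖ ≤ admB C0 :=
  s2_adm_bound hw _

theorem s6a_ker_supp (hw : Admissible c0 C0 I w) (hc0 : 0 < c0) (a b : Fin 4) (hab : a ≠ b) (p : ℝ × ℝ)
    (hp : kerUV a b w p ≠ 0) : ∀ l : Fin 4, slotXi a b l * p.1 + slotZe a b l * p.2 ∈ I.set := by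
  intro l
  have h := (s2_adm_supp hw hc0 hp).1 l
  have hne := s6a_slot_cast_ne a b hab
  convert h using 1
  unfold slotXi slotZe
  simp only [Fin.val_zero, Nat.cast_zero]
  field_simp
  ring

theorem s6a_ker_continuous (hw : Admissible c0 C0 I w) (a b : Fin 4) : Continuous (kerUV a b w) := by
  unfold kerUV
  exact hw.smooth.continuous.comp (by fun_prop)

theorem s6a_slot_xi (a b l : Fin 4) (hab : a ≠ b) : (∃ z : ℤ, 6 * slotXi a b l = z) ∧ |slotXi a b l| ≤ 3 := by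
  refine ⟨⟨(6 * (((b : ℕ) : ℤ) - ((l : ℕ) : ℤ))) / (((b : ℕ) : ℤ) - ((a : ℕ) : ℤ)), ?_⟩, ?_⟩
  · fin_cases a <;> fin_cases b <;> first | exact absurd rfl hab | skip
    all_goals (fin_cases l <;> norm_num [slotXi])
  · fin_cases a <;> fin_cases b <;> first | exact absurd rfl hab | skip
    all_goals (fin_cases l <;> norm_num [slotXi, abs_le])

theorem s6a_ker_lip (hw : Admissible c0 C0 I w) (a b : Fin 4) (hab : a ≠ b) (u v s : ℝ) :
    ‖kerUV a b w (u + s, v) - kerUV a b w (u, v)‖ ≤ admL C0 * (|s| / I.len) := by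
  have hlen := cell_len_pos I
  have hd : ∀ x ∈ (Set.univ : Set (ℝ × ℝ)), DifferentiableAt ℝ w x := fun x _ =>
    (hw.smooth.differentiable (by simp)).differentiableAt
  have hb : ∀ x ∈ (Set.univ : Set (ℝ × ℝ)), ‖fderiv ℝ w x‖ ≤ I.len⁻¹ * (C0 * 3) ^ (C0 * 3) := fun x _ => by
    have := hw.deriv 1 x
    rw [norm_iteratedFDeriv_one] at this
    norm_num at this
    exact this
  have hK : 0 ≤ I.len⁻¹ * (C0 * 3) ^ (C0 * 3) := (norm_nonneg _).trans (hb (0, 0) (Set.mem_univ _))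
  have key := Convex.norm_image_sub_le_of_norm_fderiv_le hd hb convex_univ
    (Set.mem_univ (slotXi a b 0 * u + slotZe a b 0 * v, (v - u) / (((b : ℕ) : ℝ) - ((a : ℕ) : ℝ))))
    (Set.mem_univ (slotXi a b 0 * (u + s) + slotZe a b 0 * v, (v - (u + s)) / (((b : ℕ) : ℝ) - ((a : ℕ) : ℝ))))
  unfold kerUV
  simp only
  refine key.trans ?_
  have hn : ‖((slotXi a b 0 * (u + s) + slotZe a b 0 * v, (v - (u + s)) / (((b : ℕ) : ℝ) - ((a : ℕ) : ℝ))) : ℝ × ℝ)
      - (slotXi a b 0 * u + slotZe a b 0 * v, (v - u) / (((b : ℕ) : ℝ) - ((a : ℕ) : ℝ)))‖ ≤ 3 * |s| := by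
    rw [Prod.mk_sub_mk, Prod.norm_mk, Real.norm_eq_abs, Real.norm_eq_abs]
    apply max_le
    · have : slotXi a b 0 * (u + s) + slotZe a b 0 * v - (slotXi a b 0 * u + slotZe a b 0 * v) = slotXi a b 0 * s := by
        ring
      rw [this, abs_mul]
      exact mul_le_mul_of_nonneg_right (s6a_slot_xi a b 0 hab).2 (abs_nonneg s)
    · have h1 := s6a_slot_diff a b hab
      have : (v - (u + s)) / (((b : ℕ) : ℝ) - ((a : ℕ) : ℝ)) - (v - u) / (((b : ℕ) : ℝ) - ((a : ℕ) : ℝ))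
          = - s / (((b : ℕ) : ℝ) - ((a : ℕ) : ℝ)) := by ring
      rw [this, abs_div, abs_neg]
      calc |s| / |((b : ℕ) : ℝ) - ((a : ℕ) : ℝ)| ≤ |s| := div_le_self (abs_nonneg s) h1
        _ ≤ 3 * |s| := by linarith [abs_nonneg s]
  calc I.len⁻¹ * (C0 * 3) ^ (C0 * 3) * _ ≤ I.len⁻¹ * (C0 * 3) ^ (C0 * 3) * (3 * |s|) :=
        mul_le_mul_of_nonneg_left hn hK
    _ = admL C0 * (|s| / I.len) := by
        unfold admL
        rw [div_eq_mul_inv]
        ring

end kernel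

/-! ### arithmetic of the slots -/

theorem s6a_slot_exists (i j : Fin 4) (hij : i ≠ j) : ∃ a b : Fin 4, slot4 i j a b := by
  unfold slot4
  revert i j
  decide

theorem s6a_slot_erase {i j a b : Fin 4} (h : slot4 i j a b) : (Finset.univ.erase i).erase j = {a, b} := by
  unfold slot4 at h
  revert i j a b
  decide

theorem s6a_slot_prod {M : Type*} [CommMonoid M] {i j a b : Fin 4} (h : slot4 i j a b) (F : Fin 4 → M) :
    ∏ l, F l = F i * F j * (F a * F b) := by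
  have h1 := s6a_slot_erase h
  obtain ⟨hij, hia, hib, hja, hjb, hab⟩ := h
  rw [← Finset.mul_prod_erase Finset.univ F (Finset.mem_univ i),
    ← Finset.mul_prod_erase (Finset.univ.erase i) F (Finset.mem_erase.2 ⟨hij.symm, Finset.mem_univ j⟩), h1,
    Finset.prod_pair hab, mul_assoc]

theorem s6a_slot_prod_erase {M : Type*} [CommMonoid M] {i j a b : Fin 4} (h : slot4 i j a b) (F : Fin 4 → M) :
    ∏ l ∈ Finset.univ.erase i, F l = F j * (F a * F b) := by
  have h1 := s6a_slot_erase h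
  obtain ⟨hij, hia, hib, hja, hjb, hab⟩ := h
  rw [← Finset.mul_prod_erase (Finset.univ.erase i) F (Finset.mem_erase.2 ⟨hij.symm, Finset.mem_univ j⟩), h1,
    Finset.prod_pair hab]

/-- the four points `ξ_l u + ζ_l v` form the progression `x + l t` (`field_simp; ring`) -/
theorem s6a_slot_prog (a b l : Fin 4) (hab : a ≠ b) (u v : ℝ) :
    slotXi a b l * u + slotZe a b l * v =
      (slotXi a b 0 * u + slotZe a b 0 * v) + ((l : ℕ) : ℝ) * ((v - u) / (((b : ℕ) : ℝ) - ((a : ℕ) : ℝ))) := by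
  have h := s6a_slot_cast_ne a b hab
  unfold slotXi slotZe
  simp only [Fin.val_zero, Nat.cast_zero]
  field_simp
  ring

theorem s6a_slot_self (a b : Fin 4) (hab : a ≠ b) :
    slotXi a b a = 1 ∧ slotZe a b a = 0 ∧ slotXi a b b = 0 ∧ slotZe a b b = 1 := by
  have h := s6a_slot_cast_ne a b hab
  unfold slotXi slotZe
  refine ⟨div_self h, by simp, by simp, div_self h⟩

/-- `c_i ξ_i ζ_i = - c_j ξ_j ζ_j =: κ`, `|κ| ≥ 1/2` -/
theorem s6a_slot_kappa {i j a b : Fin 4} (h : slot4 i j a b) :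
    ((slotC i : ℚ) : ℝ) * slotXi a b i * slotZe a b i = -(((slotC j : ℚ) : ℝ) * slotXi a b j * slotZe a b j) ∧
      1 / 2 ≤ |((slotC i : ℚ) : ℝ) * slotXi a b i * slotZe a b i| := by
  obtain ⟨hij, hia, hib, hja, hjb, hab⟩ := h
  fin_cases i <;> fin_cases j <;> first | exact absurd rfl hij | skip
  all_goals (fin_cases a <;> first | exact absurd rfl hia | exact absurd rfl hja | skip)
  all_goals (fin_cases b <;> first | exact absurd rfl hib | exact absurd rfl hjb | exact absurd rfl hab | skip)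
  all_goals (norm_num [slotC, slotXi, slotZe, le_abs])

theorem s6a_slotC_ne (i : Fin 4) : ((slotC i : ℚ) : ℝ) ≠ 0 ∧ 1 ≤ |((slotC i : ℚ) : ℝ)| ∧ ∃ z : ℤ, 6 / (slotC i : ℚ) = z := by
  fin_cases i
  · exact ⟨by norm_num [slotC], by norm_num [slotC], -6, by norm_num [slotC]⟩
  · exact ⟨by norm_num [slotC], by norm_num [slotC], 2, by norm_num [slotC]⟩
  · exact ⟨by norm_num [slotC], by norm_num [slotC], -2, by norm_num [slotC]⟩
  · exact ⟨by norm_num [slotC], by norm_num [slotC], 6, by norm_num [slotC]⟩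

end Claimed.Agent.R258
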