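/-
Row 258 (S0498), block [S6a] (architect helper70).  LEAF P-S6A-RET.  No paper needed.
Uses: S6a/Defs.lean (`retOm`, `ClearsDen`, `locV`, `locC`, `locLam`, `Chart.tag`, `slotC`), the STATEMENTS of S4a/Br.lean (black boxes).

THE RETURN FORMULA FOR ONE ATOM (global in `y`; no recentering, no rescaling).
Let `a` be a chart of complexity `≤ H`, `P C` integral, `m ∈ P ℤ^d`, `d_h := θ h - m`, `|d_h|_∞ ≤ δ ≤ 1`.  Then
   `a.eval (y + h) = u e(Ω y) a.eval y + O(retD H · δ)`,  `Ω = retOm θ C λ h m = (2λ + θᵀCθ) h - θᵀ(C - Cᵀ) m`,  `|u| = 1`.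

PLAN for `s6a_ret`.
 * `a.eval y = unit * ee (lam y² + bet y) * s4a_br C chi (θ y)` (`s4a_eval_eq`, rfl).
 * write `m i = P * m₀ i`; `θ (y+h) = θ y + (P m₀ + d_h)`; `s4a_br_offset` with `u = θ y`, `a₀ = d_h` gives
   `br C chi (θ(y+h)) = ee (bil C (θy) d_h + bil C m (θy) + bil C m d_h) * br C chi' (θ y)`, `chi' w = chi (w + d_h) * ee (bil C d_h (w + d_h))`.
 * `bil C (θy) d_h + bil C m (θy) = y (bil C θ θ h - bil C θ m + bil C m θ)`; `lam (y+h)² + bet (y+h) = lam y² + bet y + 2 lam h y + (lam h² + bet h)`.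
   So `u := ee (lam h² + bet h + bil C m d_h)` and the exact identity
   `a.eval (y+h) = u * ee (Ω y) * (unit * ee (lam y² + bet y) * br C chi' (θ y))`.
 * `br C chi' u - br C chi u = br C (chi' - chi) u` (`tsum_sub`, `s4a_br_summable` with `K = H + 1`), and by `s4a_br_norm_le` (`K = H + 1`)
   `‖br C (chi' - chi) u‖ ≤ (2H + 3)^d X`, where `‖chi' w - chi w‖ ≤ ‖chi (w + d_h) - chi w‖ + ‖chi (w + d_h)‖ ‖ee (bil C d_h (w + d_h)) - 1‖
      ≤ 2^20 H^20 δ + H^10 · 2π d² H δ H =: X`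
   (mean value inequality with `‖fderiv chi‖ = ‖iteratedFDeriv 1 chi‖ ≤ H^20 2^20` (`Cplx.deriv 1`; `norm_iteratedFDeriv_one`,
   `Convex.norm_image_sub_le_of_norm_fderiv_le`), the sup norm of `d_h` in `Fin d → ℝ` is `≤ δ` (`pi_norm_le_iff_of_nonneg`);
   `‖chi‖ ≤ H^10` (`Cplx.deriv 0`); `s4a_ee_sub_le`, `s4a_bil_abs_le`; on the support of `chi (· + d_h)` one has `|w + d_h| ≤ H`).
 * arithmetic: with `L = log H ≥ 2`, `d ≤ L`: `(2H+3)^d ≤ (H²)^L = exp (2L²)`, `2^20 H^20 + 2π L² H^12 ≤ H^28 = exp (28 L) ≤ exp (14 L²)`.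
-/
import Claimed.Agent.R258.Pack004
import Claimed.Agent.R258.S4a.Br

set_option autoImplicit false
open MeasureTheory
open scoped Matrix

namespace Claimed.Agent.R258

/-- quasipolynomial bound for the error of a return -/
noncomputable def retD (H : ℝ) : ℝ := Real.exp (16 * (Real.log H) ^ 2)

section
variable {ι : Type} [Fintype ι] [DecidableEq ι]

theorem s6a_dot_eq_bil (C : Matrix ι ι ℚ) (u w : ι → ℝ) : u ⬝ᵥ (ratM C *ᵥ w) = s4a_bil C u w := by
  unfold s4a_bil ratM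
  simp only [dotProduct, Matrix.mulVec, Matrix.map_apply, Finset.mul_sum]
  exact Finset.sum_congr rfl fun i _ => Finset.sum_congr rfl fun j _ => by ring

omit [DecidableEq ι] in
theorem s6a_rt_bil_sub (C D : Matrix ι ι ℚ) (u w : ι → ℝ) :
    s4a_bil (C - D) u w = s4a_bil C u w - s4a_bil D u w := by
  unfold s4a_bil
  simp only [← Finset.sum_sub_distrib]
  refine Finset.sum_congr rfl fun i _ => Finset.sum_congr rfl fun j _ => ?_
  rw [Matrix.sub_apply]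
  push_cast
  ring

theorem s6a_retOm_eq (V : ι → ℝ) (C : Matrix ι ι ℚ) (Lam h : ℝ) (m : ι → ℤ) :
    retOm V C Lam h m = (2 * Lam + s4a_bil C V V) * h -
      (s4a_bil C V (fun i => (m i : ℝ)) - s4a_bil C (fun i => (m i : ℝ)) V) := by
  unfold retOm
  rw [s6a_dot_eq_bil, s6a_dot_eq_bil, s6a_rt_bil_sub, s4a_bil_transpose]

/-- `Ω` is linear in the return -/
theorem s6a_retOm_smul (V : ι → ℝ) (C : Matrix ι ι ℚ) (Lam c h : ℝ) (m m' : ι → ℤ)
    (hm : ∀ i, (m' i : ℝ) = c * (m i : ℝ)) : retOm V C Lam (c * h) m' = c * retOm V C Lam h m := by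
  have e : (fun i => (m' i : ℝ)) = fun i => c * (m i : ℝ) := funext hm
  rw [s6a_retOm_eq, s6a_retOm_eq, e, s4a_bil_smul_left, s4a_bil_smul_right]
  ring

end

theorem s6a_rt_bil_blocks {ι κ : Type} [Fintype ι] [Fintype κ] (C₁ : Matrix ι ι ℚ) (C₂ : Matrix κ κ ℚ)
    (u w : ι ⊕ κ → ℝ) :
    s4a_bil (Matrix.fromBlocks C₁ 0 0 C₂) u w =
      s4a_bil C₁ (fun x => u (Sum.inl x)) (fun x => w (Sum.inl x)) +
        s4a_bil C₂ (fun x => u (Sum.inr x)) (fun x => w (Sum.inr x)) := by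
  unfold s4a_bil
  simp only [Fintype.sum_sum_type, Matrix.fromBlocks_apply₁₁, Matrix.fromBlocks_apply₁₂, Matrix.fromBlocks_apply₂₁,
    Matrix.fromBlocks_apply₂₂, Matrix.zero_apply, Rat.cast_zero, mul_zero, zero_mul, Finset.sum_const_zero, add_zero,
    zero_add]

theorem s6a_rt_loc_aux {ι κ : Type} [Fintype ι] [Fintype κ] [DecidableEq ι] [DecidableEq κ] (θ₁ : ι → ℝ) (θ₂ : κ → ℝ)
    (C₁ : Matrix ι ι ℚ) (C₂ : Matrix κ κ ℚ) (l₁ l₂ r h : ℝ) (q₁ q₂ : ℚ) (m : ι ⊕ κ → ℤ) :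
    retOm (Sum.elim (fun a => r * θ₁ a) fun b => r * θ₂ b) (Matrix.fromBlocks (q₁⁻¹ • C₁) 0 0 (-(q₂⁻¹ • C₂)))
        (r ^ 2 * (l₁ / (q₁ : ℝ) - l₂ / (q₂ : ℝ))) h m =
      r * (retOm θ₁ C₁ l₁ (r * h) (fun x => m (Sum.inl x)) / (q₁ : ℝ) -
        retOm θ₂ C₂ l₂ (r * h) (fun x => m (Sum.inr x)) / (q₂ : ℝ)) := by
  rw [s6a_retOm_eq, s6a_retOm_eq, s6a_retOm_eq]
  rw [s6a_rt_bil_blocks, s6a_rt_bil_blocks, s6a_rt_bil_blocks]
  simp only [Sum.elim_inl, Sum.elim_inr]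
  rw [s4a_bil_neg, s4a_bil_neg, s4a_bil_neg]
  simp only [s4a_bil_qsmul, s4a_bil_smul_left, s4a_bil_smul_right]
  push_cast
  ring

/-- `Ω` of the difference data of two tags = difference of the normalized `Ω`'s of the two charts (`r = 2^{-s}`, physical step `r h`) -/
theorem s6a_retOm_loc (A B : Chart) (i j : Fin 4) (s : ℤ) (h : ℝ) (m : Fin A.d ⊕ Fin B.d → ℤ) :
    retOm (locV s (A.tag i) (B.tag j)) (locC (A.tag i) (B.tag j)) (locLam s (A.tag i) (B.tag j)) h m =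
      (2 : ℝ) ^ (-s) * (retOm A.th A.C A.lam ((2 : ℝ) ^ (-s) * h) (fun x => m (Sum.inl x)) / ((slotC i : ℚ) : ℝ) -
        retOm B.th B.C B.lam ((2 : ℝ) ^ (-s) * h) (fun x => m (Sum.inr x)) / ((slotC j : ℚ) : ℝ)) := by
  exact s6a_rt_loc_aux A.th B.th A.C B.C A.lam B.lam ((2 : ℝ) ^ (-s)) h (slotC i) (slotC j) m

theorem s6a_rt_chi_bd (a : Chart) (H : ℝ) (ha : a.Cplx H) (x : Fin a.d → ℝ) : ‖a.chi x‖ ≤ H ^ 10 := by
  have h := ha.deriv 0 x
  rw [norm_iteratedFDeriv_zero] at h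
  have e : cGev * (((0 : ℕ) : ℝ) + 1) = ((10 : ℕ) : ℝ) := by unfold cGev; norm_num
  have e2 : (((0 : ℕ) : ℝ) + 1) = 1 := by norm_num
  rw [e, e2, Real.rpow_natCast, Real.rpow_natCast, one_pow, mul_one] at h
  exact h

theorem s6a_rt_fderiv_bd (a : Chart) (H : ℝ) (ha : a.Cplx H) (x : Fin a.d → ℝ) :
    ‖fderiv ℝ a.chi x‖ ≤ H ^ 20 * 2 ^ 20 := by
  have h := ha.deriv 1 x
  rw [norm_iteratedFDeriv_one] at h
  have e : cGev * (((1 : ℕ) : ℝ) + 1) = ((20 : ℕ) : ℝ) := by unfold cGev; norm_num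
  have e2 : (((1 : ℕ) : ℝ) + 1) = 2 := by norm_num
  rw [e, e2, Real.rpow_natCast, Real.rpow_natCast] at h
  exact h

theorem s6a_rt_H7 {H : ℝ} (hH : Real.exp 2 ≤ H) : 7 ≤ H := by
  have h1 : Real.exp 2 = Real.exp 1 * Real.exp 1 := by rw [← Real.exp_add]; norm_num
  have h2 : (2.7 : ℝ) ≤ Real.exp 1 := by
    have := Real.exp_one_gt_d9
    linarith
  refine le_trans ?_ hH
  rw [h1]
  calc (7 : ℝ) ≤ 2.7 * 2.7 := by norm_num
    _ ≤ Real.exp 1 * Real.exp 1 := mul_le_mul h2 h2 (by norm_num) (Real.exp_pos _).le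

theorem s6a_rt_amp (a : Chart) (H : ℝ) (ha : a.Cplx H) (δ : ℝ) (hδ0 : 0 ≤ δ) (dh : Fin a.d → ℝ)
    (hd : ∀ i, |dh i| ≤ δ) (w : Fin a.d → ℝ) :
    ‖a.chi (fun i => w i + dh i) * ee (s4a_bil a.C dh fun i => w i + dh i) - a.chi w‖ ≤
      (H ^ 20 * 2 ^ 20 + H ^ 10 * (2 * Real.pi * ((a.d : ℝ) ^ 2 * H * H))) * δ := by
  have hH0 : 0 < H := by have := s6a_rt_H7 ha.H_ge; linarith
  obtain ⟨b, hb⟩ : ∃ b : ℝ, b = s4a_bil a.C dh fun i => w i + dh i := ⟨_, rfl⟩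
  rw [← hb]
  have e : a.chi (fun i => w i + dh i) * ee b - a.chi w =
      (a.chi (fun i => w i + dh i) - a.chi w) + a.chi (fun i => w i + dh i) * (ee b - 1) := by ring
  have t1 : ‖a.chi (fun i => w i + dh i) - a.chi w‖ ≤ H ^ 20 * 2 ^ 20 * δ := by
    have hdiff : ∀ x ∈ (Set.univ : Set (Fin a.d → ℝ)), DifferentiableAt ℝ a.chi x := fun x _ =>
      (ha.smooth.differentiable (by simp)).differentiableAt
    have := Convex.norm_image_sub_le_of_norm_fderiv_le (𝕜 := ℝ) hdiff (fun x _ => s6a_rt_fderiv_bd a H ha x)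
      convex_univ (Set.mem_univ w) (Set.mem_univ (fun i => w i + dh i))
    refine this.trans (mul_le_mul_of_nonneg_left ?_ (by positivity))
    rw [pi_norm_le_iff_of_nonneg hδ0]
    intro i
    simp only [Pi.sub_apply, add_sub_cancel_left, Real.norm_eq_abs]
    exact hd i
  have t2 : ‖a.chi (fun i => w i + dh i) * (ee b - 1)‖ ≤ H ^ 10 * (2 * Real.pi * ((a.d : ℝ) ^ 2 * H * H)) * δ := by
    by_cases hz : a.chi (fun i => w i + dh i) = 0
    · rw [hz, zero_mul, norm_zero]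
      positivity
    · have hs := ha.supp _ hz
      have hbb := s4a_bil_abs_le a.C H δ H ha.height dh (fun i => w i + dh i) hδ0 hH0.le hd hs
      rw [← hb, Fintype.card_fin] at hbb
      have he := s4a_ee_sub_le b 0
      rw [s4a_ee_zero, sub_zero] at he
      rw [norm_mul]
      calc ‖a.chi (fun i => w i + dh i)‖ * ‖ee b - 1‖ ≤ H ^ 10 * (2 * Real.pi * ((a.d : ℝ) ^ 2 * H * δ * H)) :=
            mul_le_mul (s6a_rt_chi_bd a H ha _) (he.trans (mul_le_mul_of_nonneg_left hbb (by positivity)))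
              (norm_nonneg _) (by positivity)
        _ = _ := by ring
  rw [e]
  calc _ ≤ ‖a.chi (fun i => w i + dh i) - a.chi w‖ + ‖a.chi (fun i => w i + dh i) * (ee b - 1)‖ := norm_add_le _ _
    _ ≤ H ^ 20 * 2 ^ 20 * δ + H ^ 10 * (2 * Real.pi * ((a.d : ℝ) ^ 2 * H * H)) * δ := add_le_add t1 t2
    _ = _ := by ring

theorem s6a_rt_arith (H : ℝ) (hH : Real.exp 2 ≤ H) (d : ℕ) (hd : (d : ℝ) ≤ Real.log H) :
    (2 * (H + 1) + 1) ^ d * (H ^ 20 * 2 ^ 20 + H ^ 10 * (2 * Real.pi * ((d : ℝ) ^ 2 * H * H))) ≤ retD H := by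
  have hH7 := s6a_rt_H7 hH
  have hH0 : 0 < H := by linarith
  have hL : 2 ≤ Real.log H := by
    rw [Real.le_log_iff_exp_le hH0]
    exact hH
  have hLH : Real.log H ≤ H := (Real.log_le_sub_one_of_pos hH0).trans (by linarith)
  have hdH : (d : ℝ) ≤ H := hd.trans hLH
  have hd0 : (0 : ℝ) ≤ d := Nat.cast_nonneg _
  have h1 : (2 * (H + 1) + 1) ^ d ≤ Real.exp (2 * Real.log H ^ 2) := by
    calc (2 * (H + 1) + 1) ^ d ≤ (H ^ 2) ^ d := by
          apply pow_le_pow_left₀ (by linarith)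
          nlinarith
      _ = Real.exp (2 * d * Real.log H) := by
          rw [← pow_mul, ← Real.rpow_natCast, Real.rpow_def_of_pos hH0]
          congr 1
          push_cast
          ring
      _ ≤ _ := by
          apply Real.exp_le_exp.2
          nlinarith
  have hpi : 2 * Real.pi ≤ H := by
    have := Real.pi_lt_d2
    linarith
  have h8 : (2 : ℝ) * 2 ^ 20 ≤ H ^ 8 := by
    calc (2 : ℝ) * 2 ^ 20 ≤ 7 ^ 8 := by norm_num
      _ ≤ H ^ 8 := pow_le_pow_left₀ (by norm_num) hH7 8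
  have h13 : (2 : ℝ) ≤ H ^ 13 := by
    calc (2 : ℝ) ≤ 7 ^ 13 := by norm_num
      _ ≤ H ^ 13 := pow_le_pow_left₀ (by norm_num) hH7 13
  have h2a : H ^ 20 * 2 ^ 20 ≤ H ^ 28 / 2 := by
    have : H ^ 28 = H ^ 20 * H ^ 8 := by ring
    rw [this]
    have h20 : 0 ≤ H ^ 20 := by positivity
    nlinarith
  have h2b : H ^ 10 * (2 * Real.pi * ((d : ℝ) ^ 2 * H * H)) ≤ H ^ 28 / 2 := by
    have hdd : (d : ℝ) ^ 2 ≤ H ^ 2 := pow_le_pow_left₀ hd0 hdH 2
    have s1 : 2 * Real.pi * ((d : ℝ) ^ 2 * H * H) ≤ H * (H ^ 2 * H * H) :=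
      mul_le_mul hpi (by gcongr) (by positivity) hH0.le
    calc H ^ 10 * (2 * Real.pi * ((d : ℝ) ^ 2 * H * H)) ≤ H ^ 10 * (H * (H ^ 2 * H * H)) :=
          mul_le_mul_of_nonneg_left s1 (by positivity)
      _ = H ^ 15 := by ring
      _ ≤ H ^ 28 / 2 := by
          have : H ^ 28 = H ^ 15 * H ^ 13 := by ring
          rw [this]
          have h15 : 0 ≤ H ^ 15 := by positivity
          nlinarith
  have h2 : H ^ 20 * 2 ^ 20 + H ^ 10 * (2 * Real.pi * ((d : ℝ) ^ 2 * H * H)) ≤ Real.exp (14 * Real.log H ^ 2) := by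
    calc _ ≤ H ^ 28 := by linarith
      _ = Real.exp (28 * Real.log H) := by
          rw [← Real.rpow_natCast, Real.rpow_def_of_pos hH0]
          congr 1
          push_cast
          ring
      _ ≤ _ := by
          apply Real.exp_le_exp.2
          nlinarith
  unfold retD
  calc _ ≤ Real.exp (2 * Real.log H ^ 2) * Real.exp (14 * Real.log H ^ 2) :=
        mul_le_mul h1 h2 (by positivity) (Real.exp_pos _).le
    _ = _ := by
        rw [← Real.exp_add]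
        congr 1
        ring

/-- **the return formula** -/
theorem s6a_ret (a : Chart) (H : ℝ) (ha : a.Cplx H) (P : ℕ) (hP : ClearsDen P a.C) (h δ : ℝ) (m : Fin a.d → ℤ)
    (hm : ∀ i, (P : ℤ) ∣ m i) (hδ0 : 0 ≤ δ) (hδ : δ ≤ 1) (hd : ∀ i, |a.th i * h - (m i : ℝ)| ≤ δ) :
    ∃ u : ℂ, ‖u‖ = 1 ∧
      ∀ y, ‖a.eval (y + h) - u * ee (retOm a.th a.C a.lam h m * y) * a.eval y‖ ≤ retD H * δ := by
  have hH7 := s6a_rt_H7 ha.H_ge
  have hH0 : 0 < H := by linarith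
  choose m₀ hm₀ using hm
  obtain ⟨p, hp⟩ : ∃ p : Fin a.d → ℝ, p = fun i => (P : ℝ) * (m₀ i : ℝ) := ⟨_, rfl⟩
  have hpm : (fun i => (m i : ℝ)) = p := by
    rw [hp]
    funext i
    rw [hm₀ i]
    push_cast
    ring
  obtain ⟨dh, hdh⟩ : ∃ dh : Fin a.d → ℝ, dh = fun i => h * a.th i - p i := ⟨_, rfl⟩
  have hdh' : ∀ i, dh i = a.th i * h - (m i : ℝ) := by
    intro i
    rw [hdh, ← hpm]
    ring
  have hd' : ∀ i, |dh i| ≤ δ := by
    intro i
    rw [hdh' i]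
    exact hd i
  refine ⟨ee (a.lam * h ^ 2 + a.bet * h + s4a_bil a.C p dh), s4a_ee_norm _, fun y => ?_⟩
  obtain ⟨chi', hchi'⟩ : ∃ chi' : (Fin a.d → ℝ) → ℂ,
      chi' = fun w => a.chi (fun i => w i + dh i) * ee (s4a_bil a.C dh fun i => w i + dh i) := ⟨_, rfl⟩
  have hoff := s4a_br_offset a.C a.chi P hP m₀ dh (fun i => a.th i * y)
  rw [← hp, ← hchi'] at hoff
  have harg : (fun i => a.th i * (y + h)) = fun i => a.th i * y + ((P : ℝ) * (m₀ i : ℝ) + dh i) := by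
    funext i
    rw [hdh, hp]
    ring
  have hthy : (fun i => a.th i * y) = fun i => y * a.th i := funext fun i => mul_comm _ _
  have hb1 : s4a_bil a.C (fun i => a.th i * y) dh = y * (h * s4a_bil a.C a.th a.th - s4a_bil a.C a.th p) := by
    rw [hthy, s4a_bil_smul_left, hdh, s4a_bil_sub_right a.C a.th (fun i => h * a.th i) p, s4a_bil_smul_right]
  have hb2 : s4a_bil a.C p (fun i => a.th i * y) = y * s4a_bil a.C p a.th := by
    rw [hthy, s4a_bil_smul_right]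
  have hid : a.eval (y + h) = ee (a.lam * h ^ 2 + a.bet * h + s4a_bil a.C p dh) *
      ee (retOm a.th a.C a.lam h m * y) *
        (a.unit * ee (a.lam * y ^ 2 + a.bet * y) * s4a_br a.C chi' (fun i => a.th i * y)) := by
    rw [s4a_eval_eq, harg, hoff, hb1, hb2, s6a_retOm_eq, hpm]
    have e : ee (a.lam * (y + h) ^ 2 + a.bet * (y + h)) *
        ee (y * (h * s4a_bil a.C a.th a.th - s4a_bil a.C a.th p) + y * s4a_bil a.C p a.th + s4a_bil a.C p dh) =
        ee (a.lam * h ^ 2 + a.bet * h + s4a_bil a.C p dh) *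
          ee (((2 * a.lam + s4a_bil a.C a.th a.th) * h - (s4a_bil a.C a.th p - s4a_bil a.C p a.th)) * y) *
            ee (a.lam * y ^ 2 + a.bet * y) := by
      rw [← s4a_ee_add, ← s4a_ee_add, ← s4a_ee_add]
      congr 1
      ring
    calc _ = a.unit * (ee (a.lam * (y + h) ^ 2 + a.bet * (y + h)) *
        ee (y * (h * s4a_bil a.C a.th a.th - s4a_bil a.C a.th p) + y * s4a_bil a.C p a.th + s4a_bil a.C p dh)) *
          s4a_br a.C chi' (fun i => a.th i * y) := by ring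
      _ = _ := by rw [e]; ring
  have hs1 : ∀ x, a.chi x ≠ 0 → ∀ i, |x i| ≤ H + 1 := fun x hx i => (ha.supp x hx i).trans (by linarith)
  have hs2 : ∀ x, chi' x ≠ 0 → ∀ i, |x i| ≤ H + 1 := by
    intro x hx i
    rw [hchi'] at hx
    have h1 := ha.supp _ (left_ne_zero_of_mul hx) i
    have h2 := hd' i
    have h3 : |x i| ≤ |x i + dh i| + |dh i| := by
      have := abs_sub (x i + dh i) (dh i)
      simpa using this
    linarith
  have hsub : s4a_br a.C chi' (fun i => a.th i * y) - s4a_br a.C a.chi (fun i => a.th i * y) =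
      s4a_br a.C (fun w => chi' w - a.chi w) (fun i => a.th i * y) := by
    unfold s4a_br
    rw [← (s4a_br_summable a.C hs2 _).tsum_sub (s4a_br_summable a.C hs1 _)]
    exact tsum_congr fun n => by ring
  have hX : 0 ≤ (H ^ 20 * 2 ^ 20 + H ^ 10 * (2 * Real.pi * ((a.d : ℝ) ^ 2 * H * H))) * δ := by positivity
  have hbr := s4a_br_norm_le a.C (chi := fun w => chi' w - a.chi w) (K := H + 1) (by linarith) hX
    (fun x hx i => by
      by_cases h1 : a.chi x = 0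
      · exact hs2 x (fun h2 => hx (by simp only [h1, h2, sub_zero])) i
      · exact hs1 x h1 i)
    (fun x => by
      simp only [hchi']
      exact s6a_rt_amp a H ha δ hδ0 dh hd' x) (fun i => a.th i * y)
  rw [Fintype.card_fin] at hbr
  rw [hid, s4a_eval_eq a y]
  have e2 : ee (a.lam * h ^ 2 + a.bet * h + s4a_bil a.C p dh) * ee (retOm a.th a.C a.lam h m * y) *
        (a.unit * ee (a.lam * y ^ 2 + a.bet * y) * s4a_br a.C chi' (fun i => a.th i * y)) -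
      ee (a.lam * h ^ 2 + a.bet * h + s4a_bil a.C p dh) * ee (retOm a.th a.C a.lam h m * y) *
        (a.unit * ee (a.lam * y ^ 2 + a.bet * y) * s4a_br a.C a.chi (fun i => a.th i * y)) =
      ee (a.lam * h ^ 2 + a.bet * h + s4a_bil a.C p dh) * ee (retOm a.th a.C a.lam h m * y) *
        (a.unit * ee (a.lam * y ^ 2 + a.bet * y) *
          (s4a_br a.C chi' (fun i => a.th i * y) - s4a_br a.C a.chi (fun i => a.th i * y))) := by ring
  rw [e2, hsub]
  simp only [norm_mul, s4a_ee_norm, ha.unit, one_mul]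
  calc _ ≤ (2 * (H + 1) + 1) ^ a.d * ((H ^ 20 * 2 ^ 20 + H ^ 10 * (2 * Real.pi * ((a.d : ℝ) ^ 2 * H * H))) * δ) := hbr
    _ = ((2 * (H + 1) + 1) ^ a.d * (H ^ 20 * 2 ^ 20 + H ^ 10 * (2 * Real.pi * ((a.d : ℝ) ^ 2 * H * H)))) * δ := by ring
    _ ≤ retD H * δ := mul_le_mul_of_nonneg_right (s6a_rt_arith H ha.H_ge a.d ha.dim) hδ0

end Claimed.Agent.R258
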