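/-
Row 258 (S0498), block [S6a] (architect helper70).  LEAF P-S6A-BESSEL.  Mathlib + `ee` (S5/Base.lean) + `s4a_ee_*` (S4a/Br.lean, black boxes).

ELEMENTARY BESSEL INEQUALITY for the exponentials `e(ℓ σ y)`, `ℓ ∈ ℕ`, on an interval of length `r`: constant `r + 1/|σ|`.

PLAN.
 * `s6a_orth_int`: `ee (c y) = exp (2π i c y)`, `integral_exp_mul_complex` (`c ≠ 0`), the primitive takes the same value at both ends because
   `n σ k / |σ| = ± n k ∈ ℤ` (`s4a_ee_add_int`/`s4a_ee_int`).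
 * `s6a_orth`: let `k = ⌈r |σ|⌉₊`, `J = Ico A (A + k/|σ|) ⊇ Ico A (A + r)`, `k/|σ| ≤ r + 1/|σ|`.  `∫_{Ico A (A+r)} ≤ ∫_J` (nonnegative continuous
   integrand, `setIntegral_mono_set`).  Expand `‖∑ c_l e_l‖² = ∑_l ∑_l' c_l conj(c_l') e((l - l') σ y)` (`Complex.mul_conj`, `Finset.sum_mul_sum`),
   integrate termwise: the diagonal gives `|J| ‖c_l‖²`, the off-diagonal terms vanish by `s6a_orth_int`.
 * `s6a_bessel`: duality.  Put `b_l = ∫_S F e_l`, `T = ∑ ‖b_l‖²`, `D y = ∑_l conj(b_l) e_l(y)`.  Then `T = ∫_S F D` (linearity) and by Cauchy-Schwarz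
   (`MeasureTheory.integral_mul_norm_le_Lp_mul_Lq` with `p = q = 2`, or `L2.inner` + `norm_inner_le_norm`)
   `T ≤ (∫_S ‖F‖²)^{1/2} (∫_S ‖D‖²)^{1/2} ≤ (∫_S ‖F‖²)^{1/2} ((r + 1/|σ|) T)^{1/2}`; square and divide by `T` (case `T = 0` trivial).
-/
import Claimed.Agent.R258.S4a.Br
import Claimed.Agent.R258.Pack021

set_option autoImplicit false
open MeasureTheory

namespace Claimed.Agent.R258

theorem s6a_ee_hasDerivAt (c y : ℝ) :
    HasDerivAt (fun y : ℝ => ee (c * y)) (2 * Real.pi * c * Complex.I * ee (c * y)) y := by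
  have h1 : HasDerivAt (fun y : ℝ => c * y) c y := by simpa using (hasDerivAt_id y).const_mul c
  have h2 := HasDerivAt.scomp (g₁ := ee) (h := fun y : ℝ => c * y) y (gev_ee_hasDerivAt (c * y)) h1
  refine h2.congr_deriv ?_
  rw [Complex.real_smul]
  ring

theorem s6a_ee_lin_continuous (c : ℝ) : Continuous fun y : ℝ => ee (c * y) :=
  gev_ee_contDiff.continuous.comp (by fun_prop)

theorem s6a_orth_int (σ A : ℝ) (hσ : σ ≠ 0) (k : ℕ) (n : ℤ) (hn : n ≠ 0) :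
    ∫ y in A..(A + (k : ℝ) / |σ|), ee ((n : ℝ) * σ * y) = 0 := by
  have hc : (2 * Real.pi * (((n : ℝ) * σ : ℝ) : ℂ) * Complex.I) ≠ 0 := by
    have hn' : ((n : ℝ) * σ) ≠ 0 := mul_ne_zero (by exact_mod_cast hn) hσ
    have h1 : (((n : ℝ) * σ : ℝ) : ℂ) ≠ 0 := by exact_mod_cast hn'
    have h2 : (Real.pi : ℂ) ≠ 0 := by exact_mod_cast Real.pi_ne_zero
    exact mul_ne_zero (mul_ne_zero (mul_ne_zero two_ne_zero h2) h1) Complex.I_ne_zero
  have hd : ∀ y ∈ Set.uIcc A (A + (k : ℝ) / |σ|),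
      HasDerivAt (fun y : ℝ => ee ((n : ℝ) * σ * y) / (2 * Real.pi * (((n : ℝ) * σ : ℝ) : ℂ) * Complex.I))
        (ee ((n : ℝ) * σ * y)) y := by
    intro y _
    have := (s6a_ee_hasDerivAt ((n : ℝ) * σ) y).div_const (2 * Real.pi * (((n : ℝ) * σ : ℝ) : ℂ) * Complex.I)
    refine this.congr_deriv ?_
    rw [mul_div_assoc, mul_comm, div_mul_cancel₀ _ hc]
  rw [intervalIntegral.integral_eq_sub_of_hasDerivAt hd
    ((s6a_ee_lin_continuous ((n : ℝ) * σ)).intervalIntegrable _ _)]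
  have hper : ee ((n : ℝ) * σ * (A + (k : ℝ) / |σ|)) = ee ((n : ℝ) * σ * A) := by
    rcases lt_or_gt_of_ne hσ with h | h
    · have e : (n : ℝ) * σ * (A + (k : ℝ) / |σ|) = (n : ℝ) * σ * A + ((-(n * k) : ℤ) : ℝ) := by
        rw [abs_of_neg h]
        push_cast
        field_simp
      rw [e, s4a_ee_add_int]
    · have e : (n : ℝ) * σ * (A + (k : ℝ) / |σ|) = (n : ℝ) * σ * A + (((n * k) : ℤ) : ℝ) := by
        rw [abs_of_pos h]
        push_cast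
        field_simp
      rw [e, s4a_ee_add_int]
  rw [hper, sub_self]

/-- the square of a trigonometric sum -/
theorem s6a_sq_expand (σ : ℝ) (S : Finset ℕ) (c : ℕ → ℂ) (y : ℝ) :
    ((‖∑ l ∈ S, c l * ee ((l : ℝ) * σ * y)‖ ^ 2 : ℝ) : ℂ) =
      ∑ l ∈ S, ∑ l' ∈ S, c l * (starRingEnd ℂ) (c l') * ee ((((l : ℤ) - (l' : ℤ) : ℤ) : ℝ) * σ * y) := by
  rw [Complex.ofReal_pow, ← Complex.mul_conj', map_sum, Finset.sum_mul_sum]
  refine Finset.sum_congr rfl fun l _ => Finset.sum_congr rfl fun l' _ => ?_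
  rw [map_mul, s4a_ee_conj]
  have : (((l : ℤ) - (l' : ℤ) : ℤ) : ℝ) * σ * y = (l : ℝ) * σ * y + -((l' : ℝ) * σ * y) := by
    push_cast; ring
  rw [this, s4a_ee_add]
  ring

/-- exact orthogonality over `k` periods -/
theorem s6a_orth_exact (σ A : ℝ) (hσ : σ ≠ 0) (k : ℕ) (S : Finset ℕ) (c : ℕ → ℂ) :
    ∫ y in A..(A + (k : ℝ) / |σ|), ‖∑ l ∈ S, c l * ee ((l : ℝ) * σ * y)‖ ^ 2 = (k : ℝ) / |σ| * ∑ l ∈ S, ‖c l‖ ^ 2 := by
  have h : ((∫ y in A..(A + (k : ℝ) / |σ|), ‖∑ l ∈ S, c l * ee ((l : ℝ) * σ * y)‖ ^ 2 : ℝ) : ℂ)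
      = (((k : ℝ) / |σ| * ∑ l ∈ S, ‖c l‖ ^ 2 : ℝ) : ℂ) := by
    rw [← intervalIntegral.integral_ofReal]
    simp only [s6a_sq_expand]
    have hc2 : ∀ l l' : ℕ, Continuous fun y : ℝ =>
        c l * (starRingEnd ℂ) (c l') * ee ((((l : ℤ) - (l' : ℤ) : ℤ) : ℝ) * σ * y) := fun l l' =>
      continuous_const.mul (s6a_ee_lin_continuous _)
    rw [intervalIntegral.integral_finsetSum fun l _ => Continuous.intervalIntegrable
      (continuous_finsetSum _ fun l' _ => hc2 l l') _ _]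
    have h1 : ∀ l ∈ S, ∫ y in A..(A + (k : ℝ) / |σ|),
        ∑ l' ∈ S, c l * (starRingEnd ℂ) (c l') * ee ((((l : ℤ) - (l' : ℤ) : ℤ) : ℝ) * σ * y)
        = (((k : ℝ) / |σ| * ‖c l‖ ^ 2 : ℝ) : ℂ) := by
      intro l hl
      rw [intervalIntegral.integral_finsetSum fun l' _ => Continuous.intervalIntegrable (hc2 l l') _ _]
      rw [Finset.sum_eq_single l]
      · rw [intervalIntegral.integral_const_mul]
        simp only [sub_self, Int.cast_zero, zero_mul, s4a_ee_zero]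
        rw [intervalIntegral.integral_const, Complex.mul_conj']
        simp only [add_sub_cancel_left, Complex.real_smul, mul_one]
        push_cast
        ring
      · intro l' _ hne
        rw [intervalIntegral.integral_const_mul,
          s6a_orth_int σ A hσ k _ (sub_ne_zero.2 (by exact_mod_cast hne.symm)), mul_zero]
      · intro hl'
        exact absurd hl hl'
    rw [Finset.sum_congr rfl h1]
    push_cast
    rw [Finset.mul_sum]
  exact_mod_cast h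

theorem s6a_orth (σ A r : ℝ) (hσ : σ ≠ 0) (hr : 0 ≤ r) (S : Finset ℕ) (c : ℕ → ℂ) :
    ∫ y in Set.Ico A (A + r), ‖∑ l ∈ S, c l * ee ((l : ℝ) * σ * y)‖ ^ 2 ≤ (r + 1 / |σ|) * ∑ l ∈ S, ‖c l‖ ^ 2 := by
  have hs : 0 < |σ| := abs_pos.2 hσ
  set k : ℕ := ⌈r * |σ|⌉₊ with hk
  have hk1 : r ≤ (k : ℝ) / |σ| := by
    rw [le_div_iff₀ hs]
    exact Nat.le_ceil _
  have hk2 : (k : ℝ) / |σ| ≤ r + 1 / |σ| := by
    rw [div_le_iff₀ hs, add_mul, one_div, inv_mul_cancel₀ hs.ne']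
    exact (Nat.ceil_lt_add_one (by positivity)).le
  have hcont : Continuous fun y : ℝ => ‖∑ l ∈ S, c l * ee ((l : ℝ) * σ * y)‖ ^ 2 :=
    (continuous_finsetSum _ fun l _ => continuous_const.mul (s6a_ee_lin_continuous _)).norm.pow 2
  have hle : A ≤ A + (k : ℝ) / |σ| := by linarith [hr.trans hk1]
  calc ∫ y in Set.Ico A (A + r), ‖∑ l ∈ S, c l * ee ((l : ℝ) * σ * y)‖ ^ 2
      ≤ ∫ y in Set.Ico A (A + (k : ℝ) / |σ|), ‖∑ l ∈ S, c l * ee ((l : ℝ) * σ * y)‖ ^ 2 := by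
        apply setIntegral_mono_set
        · exact (hcont.integrableOn_Icc (a := A) (b := A + (k : ℝ) / |σ|)).mono_set Set.Ico_subset_Icc_self
        · exact Filter.Eventually.of_forall fun y => by positivity
        · exact (Set.Ico_subset_Ico_right (by linarith)).eventuallyLE
    _ = ∫ y in A..(A + (k : ℝ) / |σ|), ‖∑ l ∈ S, c l * ee ((l : ℝ) * σ * y)‖ ^ 2 := by
        rw [intervalIntegral.integral_of_le hle, integral_Ico_eq_integral_Ioc]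
    _ = (k : ℝ) / |σ| * ∑ l ∈ S, ‖c l‖ ^ 2 := s6a_orth_exact σ A hσ k S c
    _ ≤ (r + 1 / |σ|) * ∑ l ∈ S, ‖c l‖ ^ 2 :=
        mul_le_mul_of_nonneg_right hk2 (Finset.sum_nonneg fun l _ => by positivity)

/-- `L²` on a finite measure space is in `L¹` -/
theorem s6a_integrable_of_memLp_two {α : Type*} [MeasurableSpace α] {μ : Measure α} [IsFiniteMeasure μ] {F : α → ℂ}
    (hF : MemLp F 2 μ) : Integrable F μ :=
  memLp_one_iff_integrable.1 (hF.mono_exponent (by norm_num))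

theorem s6a_bessel (σ A r : ℝ) (hσ : σ ≠ 0) (hr : 0 ≤ r) (S : Finset ℕ) (F : ℝ → ℂ)
    (hF : MemLp F 2 (volume.restrict (Set.Ico A (A + r)))) :
    ∑ l ∈ S, ‖∫ y in Set.Ico A (A + r), F y * ee ((l : ℝ) * σ * y)‖ ^ 2 ≤
      (r + 1 / |σ|) * ∫ y in Set.Ico A (A + r), ‖F y‖ ^ 2 := by
  have hs : 0 < |σ| := abs_pos.2 hσ
  set μ : Measure ℝ := volume.restrict (Set.Ico A (A + r)) with hμ
  set c₀ : ℝ := r + 1 / |σ| with hc₀
  have hc₀pos : 0 < c₀ := by positivity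
  set b : ℕ → ℂ := fun l => ∫ y, F y * ee ((l : ℝ) * σ * y) ∂μ with hb
  set T : ℝ := ∑ l ∈ S, ‖b l‖ ^ 2 with hT
  set D : ℝ → ℂ := fun y => ∑ l ∈ S, (starRingEnd ℂ) (b l) * ee ((l : ℝ) * σ * y) with hD
  have hDc : Continuous D := continuous_finsetSum _ fun l _ => continuous_const.mul (s6a_ee_lin_continuous _)
  have hF1 : Integrable F μ := s6a_integrable_of_memLp_two hF
  have hF2 : Integrable (fun y => ‖F y‖ ^ 2) μ := (memLp_two_iff_integrable_sq_norm hF.1).1 hF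
  have hD2 : Integrable (fun y => ‖D y‖ ^ 2) μ :=
    ((hDc.norm.pow 2).integrableOn_Icc (a := A) (b := A + r)).mono_set Set.Ico_subset_Icc_self
  have hFe : ∀ l : ℕ, Integrable (fun y => F y * ee ((l : ℝ) * σ * y)) μ := fun l =>
    hF1.mul_bdd (c := 1) (s6a_ee_lin_continuous _).aestronglyMeasurable
      (Filter.Eventually.of_forall fun y => (s4a_ee_norm _).le)
  have hDT : ∫ y, ‖D y‖ ^ 2 ∂μ ≤ c₀ * T := by
    have := s6a_orth σ A r hσ hr S fun l => (starRingEnd ℂ) (b l)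
    simpa only [RCLike.norm_conj] using this
  have hFD : ∫ y, F y * D y ∂μ = (T : ℂ) := by
    have e1 : ∀ y, F y * D y = ∑ l ∈ S, (starRingEnd ℂ) (b l) * (F y * ee ((l : ℝ) * σ * y)) := by
      intro y
      rw [hD, Finset.mul_sum]
      exact Finset.sum_congr rfl fun l _ => by ring
    simp only [e1]
    rw [integral_finsetSum _ fun l _ => (hFe l).const_mul _]
    rw [hT]
    push_cast
    refine Finset.sum_congr rfl fun l _ => ?_
    rw [integral_const_mul, mul_comm, Complex.mul_conj']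
  have hT0 : 0 ≤ T := Finset.sum_nonneg fun l _ => by positivity
  have hpt : ∀ y, ‖F y * D y‖ ≤ c₀ / 2 * ‖F y‖ ^ 2 + (2 * c₀)⁻¹ * ‖D y‖ ^ 2 := by
    intro y
    rw [norm_mul]
    have e : c₀ / 2 * ‖F y‖ ^ 2 + (2 * c₀)⁻¹ * ‖D y‖ ^ 2 - ‖F y‖ * ‖D y‖ = (c₀ * ‖F y‖ - ‖D y‖) ^ 2 / (2 * c₀) := by
      field_simp
      ring
    have : 0 ≤ (c₀ * ‖F y‖ - ‖D y‖) ^ 2 / (2 * c₀) := by positivity
    linarith
  have h1 : T ≤ c₀ / 2 * ∫ y, ‖F y‖ ^ 2 ∂μ + (2 * c₀)⁻¹ * ∫ y, ‖D y‖ ^ 2 ∂μ := by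
    calc T = ‖∫ y, F y * D y ∂μ‖ := by rw [hFD, Complex.norm_real, Real.norm_eq_abs, abs_of_nonneg hT0]
      _ ≤ ∫ y, ‖F y * D y‖ ∂μ := norm_integral_le_integral_norm _
      _ ≤ ∫ y, (c₀ / 2 * ‖F y‖ ^ 2 + (2 * c₀)⁻¹ * ‖D y‖ ^ 2) ∂μ :=
          integral_mono_of_nonneg (Filter.Eventually.of_forall fun y => norm_nonneg _)
            ((hF2.const_mul _).add (hD2.const_mul _)) (Filter.Eventually.of_forall hpt)
      _ = c₀ / 2 * ∫ y, ‖F y‖ ^ 2 ∂μ + (2 * c₀)⁻¹ * ∫ y, ‖D y‖ ^ 2 ∂μ := by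
          rw [integral_add (hF2.const_mul _) (hD2.const_mul _), integral_const_mul, integral_const_mul]
  have h2 : (2 * c₀)⁻¹ * ∫ y, ‖D y‖ ^ 2 ∂μ ≤ T / 2 := by
    calc (2 * c₀)⁻¹ * ∫ y, ‖D y‖ ^ 2 ∂μ ≤ (2 * c₀)⁻¹ * (c₀ * T) :=
          mul_le_mul_of_nonneg_left hDT (by positivity)
      _ = T / 2 := by field_simp
  show T ≤ c₀ * ∫ y, ‖F y‖ ^ 2 ∂μ
  linarith

/-- Cauchy-Schwarz -/
theorem s6a_cs {α : Type*} [MeasurableSpace α] {μ : Measure α} {φ ψ : α → ℂ} (hφ : MemLp φ 2 μ) (hψ : MemLp ψ 2 μ) :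
    ‖∫ x, φ x * ψ x ∂μ‖ ≤ Real.sqrt (∫ x, ‖φ x‖ ^ 2 ∂μ) * Real.sqrt (∫ x, ‖ψ x‖ ^ 2 ∂μ) := by
  have h := integral_mul_norm_le_Lp_mul_Lq (μ := μ) (f := φ) (g := ψ) Real.HolderConjugate.two_two
    (by simpa using hφ) (by simpa using hψ)
  simp only [Real.rpow_two, ← Real.sqrt_eq_rpow] at h
  refine (norm_integral_le_integral_norm _).trans ?_
  simpa only [norm_mul] using h

/-- "many returns": if `X ≤ t_l + E` for `l = 1..M` and `∑ t_l² ≤ 2 B²` then `X ≤ E + B √(2/M)` -/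
theorem s6a_many_small {X E B : ℝ} (hB : 0 ≤ B) {M : ℕ} (hM : 0 < M) (t : ℕ → ℝ)
    (ht : ∀ l ∈ Finset.Icc 1 M, X ≤ t l + E) (hsum : ∑ l ∈ Finset.Icc 1 M, t l ^ 2 ≤ 2 * B ^ 2) :
    X ≤ E + B * Real.sqrt (2 / M) := by
  have hM' : (0 : ℝ) < M := by exact_mod_cast hM
  by_cases hXE : X ≤ E
  · have : 0 ≤ B * Real.sqrt (2 / M) := by positivity
    linarith
  · push Not at hXE
    have h1 : (M : ℝ) * (X - E) ^ 2 ≤ 2 * B ^ 2 := by
      calc (M : ℝ) * (X - E) ^ 2 = ∑ _l ∈ Finset.Icc 1 M, (X - E) ^ 2 := by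
            rw [Finset.sum_const, Nat.card_Icc, nsmul_eq_mul]; simp
        _ ≤ ∑ l ∈ Finset.Icc 1 M, t l ^ 2 := Finset.sum_le_sum fun l hl =>
            pow_le_pow_left₀ (by linarith) (by linarith [ht l hl]) 2
        _ ≤ 2 * B ^ 2 := hsum
    have h2 : (X - E) ^ 2 ≤ (B * Real.sqrt (2 / M)) ^ 2 := by
      rw [mul_pow, Real.sq_sqrt (by positivity)]
      rw [mul_comm] at h1
      calc (X - E) ^ 2 = (X - E) ^ 2 * M / M := by field_simp
        _ ≤ 2 * B ^ 2 / M := by gcongr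
        _ = B ^ 2 * (2 / M) := by ring
    have h3 := abs_le_of_sq_le_sq h2 (by positivity)
    linarith [le_abs_self (X - E)]

end Claimed.Agent.R258
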