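/-
Row 258 (S0498), block [S6a] (architect helper70).  LEAVES P-S6A-SAMEABS and P-S6A-CROSSABS.  Mathlib + the statements of S6a/Bessel.lean.

TWO ABSTRACT "MANY RETURNS ⇒ SMALL" LEMMAS (`S = Ico A (A + r)`, `|σ| r ≥ 1`, `ℓ = 1..M`).

`s6a_same_abs`.  `G` bounded continuous, `‖G (y + s_ℓ) - c_ℓ e(ℓσy) G y‖ ≤ ε`, `|s_ℓ| ≤ η r`.  Then `|∫_S G| ≤ (ε + 2 η Gb + Gb √(2/M)) r`.
 PROOF.  `∫_S G = ∫_{S - s} G (y + s) dy` (translation: `integral_comp_add_right` for interval integrals `∫ y in A..A+r`;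
 `intervalIntegral.integral_of_le`, `integral_Ico_eq_integral_Ioc`), `|∫_{S - s} - ∫_S| ≤ 2 |s| Gb` (two end intervals of length `|s|`:
 `intervalIntegral.integral_interval_sub_interval_comm`, `intervalIntegral.norm_integral_le_of_norm_le_const`).
 So `|∫_S G| ≤ t_ℓ + (ε + 2 η Gb) r`, `t_ℓ := |∫_S G e(ℓσy)|`.  By `s6a_bessel` (`F = G`), `∑_{ℓ=1}^M t_ℓ² ≤ (r + 1/|σ|) r Gb² ≤ 2 r² Gb²`,
 hence some... better: `M (|∫_S G| - E)₊² ≤ ∑ t_ℓ²` with `E = (ε + 2ηGb) r`; conclude `|∫_S G| ≤ E + r Gb √(2/M)`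
 (`Real.le_sqrt`, `abs_le_of_sq_le`-type arithmetic; if `|∫_S G| ≤ E` there is nothing to prove).

`s6a_cross_abs`.  `K` continuous, `‖K‖ ≤ Kb`, supported in `S × S`, `‖K (u + s_ℓ, v) - c_ℓ e(α_ℓ u) e(ℓσv) K (u, v)‖ ≤ ε`; `f, g ∈ L²(S)`.  Then
 `|∫∫ K f(u) g(v)| ≤ (2 ε + Kb √(2/M)) r ‖f‖_{L²(S)} ‖g‖_{L²(S)}`.
 PROOF.  Replace `f, g` by `S.indicator f, S.indicator g ∈ L²(ℝ)` (the integrand does not change).  All integrands below are dominated by
 `Kb |f₁(u)| |g₁(v)|` with `f₁, g₁ ∈ L¹` (`L²` functions supported on sets of finite measure), so they are integrable on the product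
 (`Integrable.mul_prod` / `Integrable.prod_mul`, `Integrable.mono'`), and Fubini (`integral_prod`) applies.
 (1) `T := ∫∫ K f g = ∫∫ K (u + s, v) f (u + s) g v` (translation in `u` for fixed `v`: `integral_add_right_eq_self`).
 (2) `T = c_ℓ T_ℓ + R_ℓ`, `T_ℓ = ∫∫ K (u,v) f_ℓ(u) g(v) e(ℓσv)`, `f_ℓ(u) = e(α_ℓ u) f (u + s_ℓ)`, `‖f_ℓ‖₂ = ‖f‖₂`,
     `R_ℓ = ∫∫ E_ℓ(u,v) f (u + s) g v`, `‖E_ℓ‖ ≤ ε`, `E_ℓ = 0` unless `v ∈ S` and `u ∈ S ∪ (S - s)`;
     `|R_ℓ| ≤ ε (∫_{S ∪ (S - s)} |f (u + s)|) (∫_S |g|) ≤ ε √(2r) ‖f‖₂ √r ‖g‖₂ ≤ 2 ε r ‖f‖₂ ‖g‖₂`.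
 (3) `T_ℓ = ∫_S f_ℓ(u) k_ℓ(u) du`, `k_ℓ(u) = ∫_S K (u,v) g v e(ℓσv) dv`; Cauchy-Schwarz: `|T_ℓ|² ≤ ‖f‖₂² ∫_S |k_ℓ|²`.
 (4) for every `u`, `s6a_bessel` with `F = K (u, ·) g`: `∑_ℓ |k_ℓ(u)|² ≤ (r + 1/|σ|) Kb² ‖g‖₂² ≤ 2 r Kb² ‖g‖₂²`; integrate over `u ∈ S`:
     `∑_ℓ |T_ℓ|² ≤ 2 r² Kb² ‖f‖₂² ‖g‖₂²`.
 (5) `M (|T| - 2εr‖f‖‖g‖)₊² ≤ ∑_ℓ |T_ℓ|²`, conclude as above.
 (measurability of `k_ℓ`: `StronglyMeasurable.integral_prod_right` or `Integrable.integral_prod_left`; `k_ℓ` is bounded by `Kb √r ‖g‖₂`.)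
-/
import Claimed.Agent.R258.S6a.Bessel

set_option autoImplicit false
open MeasureTheory

namespace Claimed.Agent.R258

theorem s6a_shift_le (A r s : ℝ) (G : ℝ → ℂ) (hG : Continuous G) (Gb : ℝ) (hGb : ∀ y, ‖G y‖ ≤ Gb) :
    ‖(∫ y in A..(A + r), G y) - ∫ y in A..(A + r), G (y + s)‖ ≤ 2 * Gb * |s| := by
  rw [intervalIntegral.integral_comp_add_right,
    intervalIntegral.integral_interval_sub_interval_comm (hG.intervalIntegrable _ _) (hG.intervalIntegrable _ _)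
      (hG.intervalIntegrable _ _)]
  have h1 : ‖∫ y in A..(A + s), G y‖ ≤ Gb * |s| := by
    have := intervalIntegral.norm_integral_le_of_norm_le_const (a := A) (b := A + s) (f := G) (C := Gb)
      fun y _ => hGb y
    simpa using this
  have h2 : ‖∫ y in (A + r)..(A + r + s), G y‖ ≤ Gb * |s| := by
    have := intervalIntegral.norm_integral_le_of_norm_le_const (a := A + r) (b := A + r + s) (f := G) (C := Gb)
      fun y _ => hGb y
    simpa using this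
  calc _ ≤ ‖∫ y in A..(A + s), G y‖ + ‖∫ y in (A + r)..(A + r + s), G y‖ := norm_sub_le _ _
    _ ≤ 2 * Gb * |s| := by linarith

theorem s6a_Ico_eq_interval (A r : ℝ) (hr : 0 ≤ r) (H : ℝ → ℂ) :
    ∫ y in Set.Ico A (A + r), H y = ∫ y in A..(A + r), H y := by
  rw [intervalIntegral.integral_of_le (by linarith), integral_Ico_eq_integral_Ioc]

theorem s6a_inv_sigma_le {σ r : ℝ} (_hr : 0 < r) (hσ : 1 ≤ |σ| * r) : σ ≠ 0 ∧ r + 1 / |σ| ≤ 2 * r := by
  have h0 : σ ≠ 0 := by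
    rintro rfl
    simp at hσ
    linarith
  have hs : 0 < |σ| := abs_pos.2 h0
  refine ⟨h0, ?_⟩
  have : 1 / |σ| ≤ r := by
    rw [div_le_iff₀ hs]
    linarith
  linarith

theorem s6a_same_abs (A r : ℝ) (hr : 0 < r) (G : ℝ → ℂ) (hG : Continuous G) (Gb : ℝ) (hGb : ∀ y, ‖G y‖ ≤ Gb)
    (M : ℕ) (hM : 0 < M) (σ ε η : ℝ) (hσ : 1 ≤ |σ| * r)
    (hK : ∀ l ∈ Finset.Icc 1 M, ∃ (s : ℝ) (c : ℂ), ‖c‖ = 1 ∧ |s| ≤ η * r ∧
      ∀ y, ‖G (y + s) - c * ee ((l : ℝ) * σ * y) * G y‖ ≤ ε) :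
    ‖∫ y in Set.Ico A (A + r), G y‖ ≤ (ε + 2 * η * Gb + Gb * Real.sqrt (2 / M)) * r := by
  have hGb0 : 0 ≤ Gb := (norm_nonneg _).trans (hGb 0)
  obtain ⟨hσ0, hσ2⟩ := s6a_inv_sigma_le hr hσ
  have hmem : MemLp G 2 (volume.restrict (Set.Ico A (A + r))) :=
    MemLp.of_bound hG.aestronglyMeasurable Gb (Filter.Eventually.of_forall hGb)
  have hbes := s6a_bessel σ A r hσ0 hr.le (Finset.Icc 1 M) G hmem
  have hG2 : ∫ y in Set.Ico A (A + r), ‖G y‖ ^ 2 ≤ Gb ^ 2 * r := by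
    have h1 : ∫ y in Set.Ico A (A + r), ‖G y‖ ^ 2 ≤ ∫ _y in Set.Ico A (A + r), Gb ^ 2 := by
      apply integral_mono_of_nonneg (Filter.Eventually.of_forall fun y => by positivity) (integrable_const _)
      exact Filter.Eventually.of_forall fun y => pow_le_pow_left₀ (norm_nonneg _) (hGb y) 2
    refine h1.trans (le_of_eq ?_)
    rw [setIntegral_const, Real.volume_real_Ico_of_le (by linarith), smul_eq_mul]
    ring
  have key := s6a_many_small (X := ‖∫ y in Set.Ico A (A + r), G y‖) (E := (ε + 2 * η * Gb) * r) (B := r * Gb)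
    (by positivity) hM (fun l => ‖∫ y in Set.Ico A (A + r), G y * ee ((l : ℝ) * σ * y)‖) ?_ ?_
  · refine key.trans (le_of_eq ?_)
    ring
  · intro l hl
    obtain ⟨s, c, hc, hs, hy⟩ := hK l hl
    simp only [s6a_Ico_eq_interval A r hr.le]
    have hc1 : Continuous fun y : ℝ => c * ee ((l : ℝ) * σ * y) * G y :=
      (continuous_const.mul (s6a_ee_lin_continuous _)).mul hG
    have hc2 : Continuous fun y : ℝ => G (y + s) := hG.comp (by fun_prop)
    have e1 := s6a_shift_le A r s G hG Gb hGb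
    have e2 : ‖(∫ y in A..(A + r), G (y + s)) - ∫ y in A..(A + r), c * ee ((l : ℝ) * σ * y) * G y‖ ≤ ε * r := by
      rw [← intervalIntegral.integral_sub (hc2.intervalIntegrable _ _) (hc1.intervalIntegrable _ _)]
      have := intervalIntegral.norm_integral_le_of_norm_le_const (a := A) (b := A + r)
        (f := fun y => G (y + s) - c * ee ((l : ℝ) * σ * y) * G y) (C := ε) fun y _ => hy y
      simpa [abs_of_pos hr] using this
    have e3 : ‖∫ y in A..(A + r), c * ee ((l : ℝ) * σ * y) * G y‖ = ‖∫ y in A..(A + r), G y * ee ((l : ℝ) * σ * y)‖ := by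
      have : ∀ y : ℝ, c * ee ((l : ℝ) * σ * y) * G y = c * (G y * ee ((l : ℝ) * σ * y)) := fun y => by ring
      simp only [this]
      rw [intervalIntegral.integral_const_mul, norm_mul, hc, one_mul]
    have e4 : 2 * Gb * |s| ≤ 2 * Gb * (η * r) := mul_le_mul_of_nonneg_left hs (by positivity)
    have tri : ‖∫ y in A..(A + r), G y‖ ≤ ‖(∫ y in A..(A + r), G y) - ∫ y in A..(A + r), G (y + s)‖
        + ‖(∫ y in A..(A + r), G (y + s)) - ∫ y in A..(A + r), c * ee ((l : ℝ) * σ * y) * G y‖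
        + ‖∫ y in A..(A + r), c * ee ((l : ℝ) * σ * y) * G y‖ := by
      have := norm_add₃_le (a := (∫ y in A..(A + r), G y) - ∫ y in A..(A + r), G (y + s))
        (b := (∫ y in A..(A + r), G (y + s)) - ∫ y in A..(A + r), c * ee ((l : ℝ) * σ * y) * G y)
        (c := ∫ y in A..(A + r), c * ee ((l : ℝ) * σ * y) * G y)
      simpa using this
    rw [e3] at tri
    nlinarith
  · refine hbes.trans ?_
    have h0 : 0 ≤ ∫ y in Set.Ico A (A + r), ‖G y‖ ^ 2 := integral_nonneg fun y => by positivity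
    calc (r + 1 / |σ|) * ∫ y in Set.Ico A (A + r), ‖G y‖ ^ 2 ≤ (2 * r) * (Gb ^ 2 * r) :=
          mul_le_mul hσ2 hG2 h0 (by positivity)
      _ = 2 * (r * Gb) ^ 2 := by ring

/-! ### the cross estimate -/

/-- the partial integral `k(u) = ∫ K (u,v) g(v) e(τ v) dv` -/
noncomputable def s6aK (K : ℝ × ℝ → ℂ) (g : ℝ → ℂ) (τ u : ℝ) : ℂ := ∫ v, K (u, v) * g v * ee (τ * v)

theorem s6aK_continuous {K : ℝ × ℝ → ℂ} (hK : Continuous K) {Kb : ℝ} (hKb : ∀ p, ‖K p‖ ≤ Kb) {g : ℝ → ℂ}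
    (hg : Integrable g) (τ : ℝ) : Continuous (s6aK K g τ) := by
  unfold s6aK
  refine continuous_of_dominated (bound := fun v => Kb * ‖g v‖) (fun u => ?_) (fun u => ?_) (hg.norm.const_mul Kb) ?_
  · exact (((hK.comp (by fun_prop : Continuous fun v : ℝ => (u, v))).aestronglyMeasurable.mul hg.1).mul
      (s6a_ee_lin_continuous τ).aestronglyMeasurable)
  · refine Filter.Eventually.of_forall fun v => ?_
    rw [norm_mul, norm_mul, s4a_ee_norm, mul_one]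
    exact mul_le_mul_of_nonneg_right (hKb _) (norm_nonneg _)
  · refine Filter.Eventually.of_forall fun v => ?_
    exact ((hK.comp (by fun_prop : Continuous fun u : ℝ => (u, v))).mul continuous_const).mul continuous_const

theorem s6aK_zero {K : ℝ × ℝ → ℂ} {S : Set ℝ} (hKs : ∀ p, K p ≠ 0 → p.1 ∈ S ∧ p.2 ∈ S) (g : ℝ → ℂ) (τ : ℝ) {u : ℝ}
    (hu : u ∉ S) : s6aK K g τ u = 0 := by
  unfold s6aK
  have : ∀ v, K (u, v) * g v * ee (τ * v) = 0 := by
    intro v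
    have : K (u, v) = 0 := by
      by_contra h
      exact hu (hKs _ h).1
    rw [this, zero_mul, zero_mul]
  simp only [this, integral_zero]

/-- one return -/
theorem s6a_cross_one (K : ℝ × ℝ → ℂ) (hK : Continuous K) (Kb : ℝ) (hKb : ∀ p, ‖K p‖ ≤ Kb)
    (f₁ g₁ : ℝ → ℂ) (hf1 : Integrable f₁) (hf2 : MemLp f₁ 2 volume) (hg1 : Integrable g₁)
    (s al τ ε : ℝ) (c : ℂ) (hc : ‖c‖ = 1) (hk2 : MemLp (s6aK K g₁ τ) 2 volume)
    (hE : ∀ u v, ‖K (u + s, v) - c * ee (al * u) * ee (τ * v) * K (u, v)‖ ≤ ε) :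
    ‖∫ p : ℝ × ℝ, K p * (f₁ p.1 * g₁ p.2)‖ ≤
      Real.sqrt (∫ u, ‖f₁ u‖ ^ 2) * Real.sqrt (∫ u, ‖s6aK K g₁ τ u‖ ^ 2)
        + ε * ((∫ u, ‖f₁ u‖) * ∫ v, ‖g₁ v‖) := by
  have hfs : Integrable (fun u => f₁ (u + s)) := hf1.comp_add_right s
  have hh : Integrable (fun p : ℝ × ℝ => f₁ (p.1 + s) * g₁ p.2) volume := hfs.mul_prod hg1
  have hT : ∫ p : ℝ × ℝ, K p * (f₁ p.1 * g₁ p.2) = ∫ p : ℝ × ℝ, K (p.1 + s, p.2) * (f₁ (p.1 + s) * g₁ p.2) := by
    have := integral_add_right_eq_self (μ := (volume : Measure (ℝ × ℝ)))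
      (fun p : ℝ × ℝ => K p * (f₁ p.1 * g₁ p.2)) ((s, 0) : ℝ × ℝ)
    rw [← this]
    refine integral_congr_ae (Filter.Eventually.of_forall fun p => ?_)
    simp only [Prod.fst_add, Prod.snd_add, add_zero]
    congr 2
    ext <;> simp
  have hcM : Continuous fun p : ℝ × ℝ => c * ee (al * p.1) * ee (τ * p.2) * K p :=
    ((continuous_const.mul ((s6a_ee_lin_continuous al).comp continuous_fst)).mul
      ((s6a_ee_lin_continuous τ).comp continuous_snd)).mul hK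
  have hcS : Continuous fun p : ℝ × ℝ => K (p.1 + s, p.2) := hK.comp (by fun_prop)
  have hMainI : Integrable (fun p : ℝ × ℝ => (c * ee (al * p.1) * ee (τ * p.2) * K p) * (f₁ (p.1 + s) * g₁ p.2))
      volume :=
    hh.bdd_mul (c := Kb) hcM.aestronglyMeasurable (Filter.Eventually.of_forall fun p => by
      rw [norm_mul, norm_mul, norm_mul, hc, s4a_ee_norm, s4a_ee_norm, one_mul, one_mul, one_mul]
      exact hKb p)
  have hErrI : Integrable (fun p : ℝ × ℝ => (K (p.1 + s, p.2) - c * ee (al * p.1) * ee (τ * p.2) * K p)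
      * (f₁ (p.1 + s) * g₁ p.2)) volume :=
    hh.bdd_mul (c := ε) (hcS.sub hcM).aestronglyMeasurable (Filter.Eventually.of_forall fun p => hE p.1 p.2)
  have hsplit : ∫ p : ℝ × ℝ, K (p.1 + s, p.2) * (f₁ (p.1 + s) * g₁ p.2)
      = (∫ p : ℝ × ℝ, (c * ee (al * p.1) * ee (τ * p.2) * K p) * (f₁ (p.1 + s) * g₁ p.2))
        + ∫ p : ℝ × ℝ, (K (p.1 + s, p.2) - c * ee (al * p.1) * ee (τ * p.2) * K p) * (f₁ (p.1 + s) * g₁ p.2) := by
    rw [← integral_add hMainI hErrI]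
    refine integral_congr_ae (Filter.Eventually.of_forall fun p => ?_)
    simp only
    ring
  have hErr : ‖∫ p : ℝ × ℝ, (K (p.1 + s, p.2) - c * ee (al * p.1) * ee (τ * p.2) * K p) * (f₁ (p.1 + s) * g₁ p.2)‖
      ≤ ε * ((∫ u, ‖f₁ u‖) * ∫ v, ‖g₁ v‖) := by
    have e1 : ∫ p : ℝ × ℝ, ‖f₁ (p.1 + s)‖ * ‖g₁ p.2‖ = (∫ u, ‖f₁ u‖) * ∫ v, ‖g₁ v‖ := by
      have := integral_prod_mul (μ := (volume : Measure ℝ)) (ν := (volume : Measure ℝ))
        (fun u => ‖f₁ (u + s)‖) (fun v => ‖g₁ v‖)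
      rw [integral_add_right_eq_self (fun u => ‖f₁ u‖) s] at this
      exact this
    rw [← e1, ← integral_const_mul]
    refine norm_integral_le_of_norm_le ((hh.norm.const_mul ε).congr
      (Filter.Eventually.of_forall fun p => by simp only [norm_mul])) (Filter.Eventually.of_forall fun p => ?_)
    rw [norm_mul, norm_mul]
    exact mul_le_mul_of_nonneg_right (hE p.1 p.2) (by positivity)
  have hMain : ‖∫ p : ℝ × ℝ, (c * ee (al * p.1) * ee (τ * p.2) * K p) * (f₁ (p.1 + s) * g₁ p.2)‖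
      ≤ Real.sqrt (∫ u, ‖f₁ u‖ ^ 2) * Real.sqrt (∫ u, ‖s6aK K g₁ τ u‖ ^ 2) := by
    have e0 : ∫ p : ℝ × ℝ, (c * ee (al * p.1) * ee (τ * p.2) * K p) * (f₁ (p.1 + s) * g₁ p.2)
        = ∫ u, ∫ v, (c * ee (al * u) * ee (τ * v) * K (u, v)) * (f₁ (u + s) * g₁ v) := integral_prod _ hMainI
    have e1 : ∀ u, ∫ v, (c * ee (al * u) * ee (τ * v) * K (u, v)) * (f₁ (u + s) * g₁ v)
        = c * (f₁ (u + s) * (ee (al * u) * s6aK K g₁ τ u)) := by
      intro u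
      unfold s6aK
      rw [← integral_const_mul, ← integral_const_mul, ← integral_const_mul]
      refine integral_congr_ae (Filter.Eventually.of_forall fun v => ?_)
      simp only
      ring
    rw [e0]
    simp only [e1]
    rw [integral_const_mul, norm_mul, hc, one_mul]
    have hφ : MemLp (fun u => f₁ (u + s)) 2 volume := hf2.comp_measurePreserving (measurePreserving_add_right volume s)
    have hψ : MemLp (fun u => ee (al * u) * s6aK K g₁ τ u) 2 volume :=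
      hk2.of_le ((s6a_ee_lin_continuous al).aestronglyMeasurable.mul hk2.1)
        (Filter.Eventually.of_forall fun u => by rw [norm_mul, s4a_ee_norm, one_mul])
    have h := s6a_cs hφ hψ
    rw [integral_add_right_eq_self (fun u => ‖f₁ u‖ ^ 2) s] at h
    simpa only [norm_mul, s4a_ee_norm, one_mul] using h
  rw [hT, hsplit]
  exact (norm_add_le _ _).trans (add_le_add hMain hErr)

theorem s6a_ind_sq (A r : ℝ) (f : ℝ → ℂ) :
    ∫ y, ‖(Set.Ico A (A + r)).indicator f y‖ ^ 2 = ∫ y in Set.Ico A (A + r), ‖f y‖ ^ 2 := by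
  rw [← integral_indicator measurableSet_Ico]
  refine integral_congr_ae (Filter.Eventually.of_forall fun y => ?_)
  by_cases hy : y ∈ Set.Ico A (A + r)
  · simp only [Set.indicator_of_mem hy]
  · simp [Set.indicator_of_notMem hy]

theorem s6a_ind_l1 {A r : ℝ} {f : ℝ → ℂ} (hr : 0 ≤ r) (hf : MemLp f 2 (volume.restrict (Set.Ico A (A + r)))) :
    ∫ y, ‖(Set.Ico A (A + r)).indicator f y‖ ≤ Real.sqrt r * Real.sqrt (∫ y in Set.Ico A (A + r), ‖f y‖ ^ 2) := by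
  have e : ∫ y, ‖(Set.Ico A (A + r)).indicator f y‖ = ∫ y in Set.Ico A (A + r), ‖f y‖ := by
    rw [← integral_indicator measurableSet_Ico]
    refine integral_congr_ae (Filter.Eventually.of_forall fun y => ?_)
    by_cases hy : y ∈ Set.Ico A (A + r)
    · simp only [Set.indicator_of_mem hy]
    · simp [Set.indicator_of_notMem hy]
  rw [e]
  have h := integral_mul_norm_le_Lp_mul_Lq (μ := volume.restrict (Set.Ico A (A + r))) (f := fun _ => (1 : ℂ)) (g := f)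
    Real.HolderConjugate.two_two (memLp_const 1) (by simpa using hf)
  simp only [Real.rpow_two, ← Real.sqrt_eq_rpow, norm_one, one_mul, one_pow] at h
  rw [setIntegral_const, Real.volume_real_Ico_of_le (by linarith), smul_eq_mul, mul_one, add_sub_cancel_left] at h
  exact h

theorem s6aK_ind_eq (A r : ℝ) (K : ℝ × ℝ → ℂ) (g : ℝ → ℂ) (τ u : ℝ) :
    s6aK K ((Set.Ico A (A + r)).indicator g) τ u = ∫ v in Set.Ico A (A + r), K (u, v) * g v * ee (τ * v) := by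
  unfold s6aK
  rw [← integral_indicator measurableSet_Ico]
  refine integral_congr_ae (Filter.Eventually.of_forall fun v => ?_)
  by_cases hv : v ∈ Set.Ico A (A + r)
  · simp only [Set.indicator_of_mem hv]
  · simp [Set.indicator_of_notMem hv]

theorem s6aK_bessel (A r : ℝ) (hr : 0 < r) {K : ℝ × ℝ → ℂ} (hK : Continuous K) {Kb : ℝ} (hKb : ∀ p, ‖K p‖ ≤ Kb)
    {g : ℝ → ℂ} (hg : MemLp g 2 (volume.restrict (Set.Ico A (A + r)))) (M : ℕ) {σ : ℝ} (hσ : 1 ≤ |σ| * r) (u : ℝ) :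
    ∑ l ∈ Finset.Icc 1 M, ‖s6aK K ((Set.Ico A (A + r)).indicator g) ((l : ℝ) * σ) u‖ ^ 2
      ≤ 2 * r * (Kb ^ 2 * ∫ y in Set.Ico A (A + r), ‖g y‖ ^ 2) := by
  obtain ⟨hσ0, hσ2⟩ := s6a_inv_sigma_le hr hσ
  have hKu : Continuous fun v : ℝ => K (u, v) := hK.comp (by fun_prop)
  have hmem : MemLp (fun v => K (u, v) * g v) 2 (volume.restrict (Set.Ico A (A + r))) :=
    hg.of_le_mul (c := Kb) (hKu.aestronglyMeasurable.mul hg.1) (Filter.Eventually.of_forall fun v => by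
      rw [norm_mul]
      exact mul_le_mul_of_nonneg_right (hKb _) (norm_nonneg _))
  have hbes := s6a_bessel σ A r hσ0 hr.le (Finset.Icc 1 M) (fun v => K (u, v) * g v) hmem
  simp only [s6aK_ind_eq]
  refine hbes.trans ?_
  have hg2 : Integrable (fun y => ‖g y‖ ^ 2) (volume.restrict (Set.Ico A (A + r))) :=
    (memLp_two_iff_integrable_sq_norm hg.1).1 hg
  have h1 : ∫ v in Set.Ico A (A + r), ‖K (u, v) * g v‖ ^ 2 ≤ Kb ^ 2 * ∫ y in Set.Ico A (A + r), ‖g y‖ ^ 2 := by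
    rw [← integral_const_mul]
    refine integral_mono_of_nonneg (Filter.Eventually.of_forall fun y => by positivity) (hg2.const_mul _)
      (Filter.Eventually.of_forall fun v => ?_)
    simp only
    rw [norm_mul, mul_pow]
    exact mul_le_mul_of_nonneg_right (pow_le_pow_left₀ (norm_nonneg _) (hKb _) 2) (by positivity)
  exact mul_le_mul hσ2 h1 (integral_nonneg fun y => by positivity) (by positivity)

theorem s6a_cross_abs (A r : ℝ) (hr : 0 < r) (K : ℝ × ℝ → ℂ) (hK : Continuous K) (Kb : ℝ) (hKb : ∀ p, ‖K p‖ ≤ Kb)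
    (hKs : ∀ p, K p ≠ 0 → p.1 ∈ Set.Ico A (A + r) ∧ p.2 ∈ Set.Ico A (A + r))
    (f g : ℝ → ℂ) (hf : MemLp f 2 (volume.restrict (Set.Ico A (A + r))))
    (hg : MemLp g 2 (volume.restrict (Set.Ico A (A + r))))
    (M : ℕ) (hM : 0 < M) (σ ε : ℝ) (hσ : 1 ≤ |σ| * r)
    (hE : ∀ l ∈ Finset.Icc 1 M, ∃ (s al : ℝ) (c : ℂ), ‖c‖ = 1 ∧ ∀ u v,
      ‖K (u + s, v) - c * ee (al * u) * ee ((l : ℝ) * σ * v) * K (u, v)‖ ≤ ε) :
    ‖∫ p : ℝ × ℝ, K p * (f p.1 * g p.2)‖ ≤ (2 * ε + Kb * Real.sqrt (2 / M)) * r *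
      (Real.sqrt (∫ y in Set.Ico A (A + r), ‖f y‖ ^ 2) * Real.sqrt (∫ y in Set.Ico A (A + r), ‖g y‖ ^ 2)) := by
  set S : Set ℝ := Set.Ico A (A + r) with hS
  set f₁ : ℝ → ℂ := S.indicator f with hf₁
  set g₁ : ℝ → ℂ := S.indicator g with hg₁
  set Nf : ℝ := Real.sqrt (∫ y in S, ‖f y‖ ^ 2) with hNf
  set Ng : ℝ := Real.sqrt (∫ y in S, ‖g y‖ ^ 2) with hNg
  have hKb0 : 0 ≤ Kb := (norm_nonneg _).trans (hKb (0, 0))
  have hε0 : 0 ≤ ε := by
    obtain ⟨s, al, c, _, h⟩ := hE 1 (Finset.mem_Icc.2 ⟨le_rfl, hM⟩)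
    exact (norm_nonneg _).trans (h 0 0)
  have hNf0 : 0 ≤ Nf := Real.sqrt_nonneg _
  have hNg0 : 0 ≤ Ng := Real.sqrt_nonneg _
  have hf2 : MemLp f₁ 2 volume := (memLp_indicator_iff_restrict measurableSet_Ico).2 hf
  have hf1 : Integrable f₁ := (integrable_indicator_iff measurableSet_Ico).2 (s6a_integrable_of_memLp_two hf)
  have hg1 : Integrable g₁ := (integrable_indicator_iff measurableSet_Ico).2 (s6a_integrable_of_memLp_two hg)
  have hX : ∫ p : ℝ × ℝ, K p * (f p.1 * g p.2) = ∫ p : ℝ × ℝ, K p * (f₁ p.1 * g₁ p.2) := by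
    refine integral_congr_ae (Filter.Eventually.of_forall fun p => ?_)
    simp only
    by_cases hp : K p = 0
    · rw [hp, zero_mul, zero_mul]
    · obtain ⟨h1, h2⟩ := hKs p hp
      rw [hf₁, hg₁, Set.indicator_of_mem h1, Set.indicator_of_mem h2]
  have hkc : ∀ τ, Continuous (s6aK K g₁ τ) := fun τ => s6aK_continuous hK hKb hg1 τ
  have hks : ∀ τ, HasCompactSupport (s6aK K g₁ τ) := fun τ =>
    HasCompactSupport.of_support_subset_isCompact (isCompact_Icc (a := A) (b := A + r)) fun u hu => by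
      by_contra hcon
      exact hu (s6aK_zero hKs g₁ τ fun hmem => hcon (Set.Ico_subset_Icc_self hmem))
  have hk2 : ∀ τ, MemLp (s6aK K g₁ τ) 2 volume := fun τ => (hkc τ).memLp_of_hasCompactSupport (hks τ)
  have hkI : ∀ τ, Integrable (fun u => ‖s6aK K g₁ τ u‖ ^ 2) := fun τ =>
    (memLp_two_iff_integrable_sq_norm (hk2 τ).1).1 (hk2 τ)
  have hl1 : (∫ u, ‖f₁ u‖) * ∫ v, ‖g₁ v‖ ≤ r * (Nf * Ng) := by
    have a1 := s6a_ind_l1 hr.le hf
    have a2 := s6a_ind_l1 hr.le hg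
    calc (∫ u, ‖f₁ u‖) * ∫ v, ‖g₁ v‖ ≤ (Real.sqrt r * Nf) * (Real.sqrt r * Ng) :=
          mul_le_mul a1 a2 (integral_nonneg fun _ => norm_nonneg _) (by positivity)
      _ = (Real.sqrt r * Real.sqrt r) * (Nf * Ng) := by ring
      _ = r * (Nf * Ng) := by rw [Real.mul_self_sqrt hr.le]
  have key := s6a_many_small (X := ‖∫ p : ℝ × ℝ, K p * (f p.1 * g p.2)‖) (E := ε * (r * (Nf * Ng)))
    (B := r * Kb * (Nf * Ng)) (by positivity) hM
    (fun l => Nf * Real.sqrt (∫ u, ‖s6aK K g₁ ((l : ℝ) * σ) u‖ ^ 2)) ?_ ?_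
  · refine key.trans ?_
    have : 0 ≤ ε * (r * (Nf * Ng)) := by positivity
    nlinarith
  · intro l hl
    obtain ⟨s, al, c, hc, h⟩ := hE l hl
    have h1 := s6a_cross_one K hK Kb hKb f₁ g₁ hf1 hf2 hg1 s al ((l : ℝ) * σ) ε c hc (hk2 _) h
    rw [hX]
    refine h1.trans ?_
    rw [hf₁, s6a_ind_sq]
    exact add_le_add le_rfl (mul_le_mul_of_nonneg_left hl1 hε0)
  · have e1 : ∀ l : ℕ, (Nf * Real.sqrt (∫ u, ‖s6aK K g₁ ((l : ℝ) * σ) u‖ ^ 2)) ^ 2
        = Nf ^ 2 * ∫ u, ‖s6aK K g₁ ((l : ℝ) * σ) u‖ ^ 2 := fun l => by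
      rw [mul_pow, Real.sq_sqrt (integral_nonneg (f := fun u => ‖s6aK K g₁ ((l : ℝ) * σ) u‖ ^ 2)
        fun _ => by positivity)]
    simp only [e1]
    rw [← Finset.mul_sum, ← integral_finsetSum _ fun l _ => hkI _]
    have hNg2 : Ng ^ 2 = ∫ y in S, ‖g y‖ ^ 2 := Real.sq_sqrt (integral_nonneg fun _ => by positivity)
    have e2 : ∫ u, ∑ l ∈ Finset.Icc 1 M, ‖s6aK K g₁ ((l : ℝ) * σ) u‖ ^ 2 ≤ (2 * r * (Kb ^ 2 * Ng ^ 2)) * r := by
      have hi : Integrable (S.indicator fun _ : ℝ => 2 * r * (Kb ^ 2 * Ng ^ 2)) :=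
        (integrable_indicator_iff measurableSet_Ico).2 (integrableOn_const (by simp))
      calc ∫ u, ∑ l ∈ Finset.Icc 1 M, ‖s6aK K g₁ ((l : ℝ) * σ) u‖ ^ 2
          ≤ ∫ u, S.indicator (fun _ : ℝ => 2 * r * (Kb ^ 2 * Ng ^ 2)) u := by
            refine integral_mono_of_nonneg (Filter.Eventually.of_forall fun u =>
              Finset.sum_nonneg fun l _ => by positivity) hi (Filter.Eventually.of_forall fun u => ?_)
            simp only
            by_cases hu : u ∈ S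
            · rw [Set.indicator_of_mem hu, hNg2]
              exact s6aK_bessel A r hr hK hKb hg M hσ u
            · rw [Set.indicator_of_notMem hu]
              refine le_of_eq (Finset.sum_eq_zero fun l _ => ?_)
              rw [s6aK_zero hKs g₁ _ hu]
              simp
        _ = (2 * r * (Kb ^ 2 * Ng ^ 2)) * r := by
            rw [integral_indicator measurableSet_Ico, setIntegral_const,
              Real.volume_real_Ico_of_le (by linarith), smul_eq_mul]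
            ring
    calc Nf ^ 2 * ∫ u, ∑ l ∈ Finset.Icc 1 M, ‖s6aK K g₁ ((l : ℝ) * σ) u‖ ^ 2
        ≤ Nf ^ 2 * ((2 * r * (Kb ^ 2 * Ng ^ 2)) * r) := mul_le_mul_of_nonneg_left e2 (by positivity)
      _ = 2 * (r * Kb * (Nf * Ng)) ^ 2 := by ring

end Claimed.Agent.R258
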