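/-
Row 258 (S0498), block [S6a] (architect helper70).  GLUE of Lemma 6.1: one large return frequency ⇒ small inner product / small form.
-/
import Claimed.Agent.R258.S6a.Ret
import Claimed.Agent.R258.S6a.SepAbs
import Claimed.Agent.R258.S6a.Cov
import Claimed.Agent.R258.S4b.Atomize

set_option autoImplicit false
open MeasureTheory
open scoped ComplexConjugate

namespace Claimed.Agent.R258

theorem s6a_nnorm2_eq (I : Cell) (f : ℝ → ℂ) :
    nnorm 2 I f = Real.sqrt (I.len⁻¹ * ∫ y in I.set, ‖f y‖ ^ 2) := by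
  unfold nnorm
  rw [Real.sqrt_eq_rpow]
  congr 2
  simp only [Real.rpow_two]

/-- the return formula for the multiples `q ℓ (h, m)`, `6 q ∈ ℤ`, `|q| ≤ 3`, `ℓ ≤ M` -/
theorem s6a_ret_mult (a : Chart) (H : ℝ) (ha : a.Cplx H) (P' : ℕ) (hP : ClearsDen P' a.C) (h α : ℝ)
    (m : Fin a.d → ℤ) (hm : ∀ x, ((6 * P' : ℕ) : ℤ) ∣ m x) (hd : ∀ x, |a.th x * h - (m x : ℝ)| ≤ α) (q : ℝ)
    (hq : ∃ z : ℤ, 6 * q = z) (hq3 : |q| ≤ 3) (M : ℕ) (hα0 : 0 ≤ α) (hMα : 3 * (M : ℝ) * α ≤ 1) (l : ℕ) (hl : l ≤ M) :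
    ∃ u : ℂ, ‖u‖ = 1 ∧ ∀ y, ‖a.eval (y + q * l * h) - u * ee (q * l * retOm a.th a.C a.lam h m * y) * a.eval y‖
      ≤ retD H * (3 * M * α) := by
  obtain ⟨z, hz⟩ := hq
  choose k hk using hm
  set m' : Fin a.d → ℤ := fun x => (P' : ℤ) * (z * l * k x) with hm'
  have hmm : ∀ x, (m' x : ℝ) = (q * l) * (m x : ℝ) := by
    intro x
    rw [hk x]
    simp only [hm']
    push_cast
    rw [← hz]; ring
  have hdiv : ∀ x, (P' : ℤ) ∣ m' x := fun x => Dvd.intro _ rfl
  have hd' : ∀ x, |a.th x * (q * l * h) - (m' x : ℝ)| ≤ 3 * M * α := by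
    intro x
    rw [hmm x]
    have : a.th x * (q * l * h) - q * l * (m x : ℝ) = (q * l) * (a.th x * h - (m x : ℝ)) := by ring
    rw [this, abs_mul]
    have h1 : |q * (l : ℝ)| ≤ 3 * M := by
      rw [abs_mul, Nat.abs_cast]
      exact mul_le_mul hq3 (by exact_mod_cast hl) (by positivity) (by norm_num)
    exact mul_le_mul h1 (hd x) (abs_nonneg _) (by positivity)
  obtain ⟨u, hu, hy⟩ := s6a_ret a H ha P' hP (q * l * h) (3 * M * α) m' hdiv (by positivity) hMα hd'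
  refine ⟨u, hu, fun y => ?_⟩
  have := hy y
  rwa [s6a_retOm_smul a.th a.C a.lam (q * l) h m m' hmm] at this

/-- three-factor telescoping -/
theorem s6a_tele3 (W W' A A' At B' Bt : ℂ) (wb eW eA eB : ℝ) (hW : ‖W‖ ≤ wb) (hA' : ‖A'‖ ≤ 1) (hB' : ‖B'‖ ≤ 1)
    (hAt : ‖At‖ ≤ 1) (h1 : ‖W' - W‖ ≤ eW) (h2 : ‖A' - At‖ ≤ eA) (h3 : ‖B' - Bt‖ ≤ eB) (_hA : A = A) :
    ‖W' * (A' * B') - W * (At * Bt)‖ ≤ eW + wb * eA + wb * eB := by
  have hwb : 0 ≤ wb := (norm_nonneg _).trans hW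
  have heA : 0 ≤ eA := (norm_nonneg _).trans h2
  have heB : 0 ≤ eB := (norm_nonneg _).trans h3
  have heW : 0 ≤ eW := (norm_nonneg _).trans h1
  have e : W' * (A' * B') - W * (At * Bt) = (W' - W) * (A' * B') + W * ((A' - At) * B') + W * (At * (B' - Bt)) := by
    ring
  rw [e]
  refine (norm_add₃_le).trans ?_
  simp only [norm_mul]
  have t1 : ‖W' - W‖ * (‖A'‖ * ‖B'‖) ≤ eW * (1 * 1) := by gcongr
  have t2 : ‖W‖ * (‖A' - At‖ * ‖B'‖) ≤ wb * (eA * 1) := by gcongr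
  have t3 : ‖W‖ * (‖At‖ * ‖B' - Bt‖) ≤ wb * (1 * eB) := by gcongr
  linarith

/-- **cross case**: one return with `|Ω| ≥ 2` forces a small form -/
theorem s6a_cross_core {c0 C0 : ℝ} (hc0 : 0 < c0) (A B : Chart) (Hc : ℝ) (hA : A.Cplx Hc) (hB : B.Cplx Hc)
    (hAb : A.Bdd) (hBb : B.Bdd) {i j a b : Fin 4} (h4 : slot4 i j a b) (I : Cell) (w : ℝ × ℝ → ℂ)
    (hw : Admissible c0 C0 I w) (P' : ℕ) (hPA : ClearsDen P' A.C) (hPB : ClearsDen P' B.C)
    (M : ℕ) (hM : 0 < M) (α : ℝ) (hMα : 3 * (M : ℝ) * α ≤ 1)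
    (h' : ℝ) (m : Fin A.d ⊕ Fin B.d → ℤ) (hm : ∀ x, ((6 * P' : ℕ) : ℤ) ∣ m x) (hh : |h'| ≤ α)
    (hd : ∀ x, |locV I.depth (A.tag i) (B.tag j) x * h' - (m x : ℝ)| ≤ α)
    (hΩ : 2 ≤ |retOm (locV I.depth (A.tag i) (B.tag j)) (locC (A.tag i) (B.tag j))
      (locLam I.depth (A.tag i) (B.tag j)) h' m|)
    (z : Fin 4 → ℝ → ℂ) (hzi : z i = A.eval) (hzj : z j = B.eval)
    (hza : MemLp (z a) 2 (volume.restrict I.set)) (hzb : MemLp (z b) 2 (volume.restrict I.set)) :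
    ‖form I w z‖ ≤ (2 * (M * α * (admL C0 + 6 * admB C0 * retD Hc)) + admB C0 * Real.sqrt (2 / M)) *
      (nnorm 2 I (z a) * nnorm 2 I (z b)) := by
  have hab : a ≠ b := h4.2.2.2.2.2
  have hr : 0 < I.len := cell_len_pos I
  set r := I.len with hrdef
  have hr2 : (2 : ℝ) ^ (-I.depth) = r := rfl
  set h := r * h' with hh'
  set mA : Fin A.d → ℤ := fun x => m (Sum.inl x) with hmA
  set mB : Fin B.d → ℤ := fun x => m (Sum.inr x) with hmB
  have hdA : ∀ x, |A.th x * h - (mA x : ℝ)| ≤ α := by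
    intro x
    have := hd (Sum.inl x)
    have e : locV I.depth (A.tag i) (B.tag j) (Sum.inl x) = r * A.th x := rfl
    rw [e] at this
    have e2 : A.th x * h = r * A.th x * h' := by rw [hh']; ring
    rw [e2]; exact this
  have hdB : ∀ x, |B.th x * h - (mB x : ℝ)| ≤ α := by
    intro x
    have := hd (Sum.inr x)
    have e : locV I.depth (A.tag i) (B.tag j) (Sum.inr x) = r * B.th x := rfl
    rw [e] at this
    have e2 : B.th x * h = r * B.th x * h' := by rw [hh']; ring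
    rw [e2]; exact this
  set ΩA := retOm A.th A.C A.lam h mA with hΩA
  set ΩB := retOm B.th B.C B.lam h mB with hΩB
  set ξi := slotXi a b i with hξi
  set ζi := slotZe a b i with hζi
  set ξj := slotXi a b j with hξj
  set ζj := slotZe a b j with hζj
  set σ := ξi * ζi * ΩA + ξj * ζj * ΩB with hσ
  -- the frequency
  have hloc := s6a_retOm_loc A B i j I.depth h' m
  rw [hr2] at hloc
  obtain ⟨hk1, hk2⟩ := s6a_slot_kappa h4
  obtain ⟨hci, -, -⟩ := s6a_slotC_ne i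
  obtain ⟨hcj, -, -⟩ := s6a_slotC_ne j
  set ci := ((slotC i : ℚ) : ℝ) with hcidef
  set cj := ((slotC j : ℚ) : ℝ) with hcjdef
  have hσr : σ * r = (ci * ξi * ζi) * (r * (ΩA / ci - ΩB / cj)) := by
    have e1 : ξj * ζj = -(ci * ξi * ζi) / cj := by
      field_simp
      linarith [hk1]
    rw [hσ, e1]
    field_simp
    ring
  have hσ1 : 1 ≤ |σ| * r := by
    rw [← abs_of_pos hr, ← abs_mul, hσr, abs_mul, ← hloc]
    calc (1 : ℝ) = 1 / 2 * 2 := by norm_num
      _ ≤ _ := mul_le_mul hk2 hΩ (by norm_num) (abs_nonneg _)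
  -- the kernel
  set K : ℝ × ℝ → ℂ := fun p => kerUV a b w p * (A.eval (ξi * p.1 + ζi * p.2) * B.eval (ξj * p.1 + ζj * p.2)) with hK
  have hKc : Continuous K := by
    have cA := s4b_eval_continuous hA
    have cB := s4b_eval_continuous hB
    have cW := s6a_ker_continuous hw a b
    exact cW.mul ((cA.comp (by fun_prop)).mul (cB.comp (by fun_prop)))
  have hadmB : 0 ≤ admB C0 := (norm_nonneg _).trans (s6a_ker_bound hw a b 0)
  have hKb : ∀ p, ‖K p‖ ≤ admB C0 := by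
    intro p
    simp only [hK, norm_mul]
    calc _ ≤ admB C0 * (1 * 1) := by
          gcongr
          · exact s6a_ker_bound hw a b p
          · exact hAb _
          · exact hBb _
      _ = admB C0 := by ring
  obtain ⟨sa1, sa2, sa3, sa4⟩ := s6a_slot_self a b hab
  have hset : I.set = Set.Ico I.left (I.left + r) := by
    unfold Cell.set; rw [cell_right_eq]
  have hKs : ∀ p, K p ≠ 0 → p.1 ∈ Set.Ico I.left (I.left + r) ∧ p.2 ∈ Set.Ico I.left (I.left + r) := by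
    intro p hp
    have hp' : kerUV a b w p ≠ 0 := by
      intro h0; apply hp; simp only [hK, h0, zero_mul]
    have hs := s6a_ker_supp hw hc0 a b hab p hp'
    have h1 := hs a
    have h2 := hs b
    rw [sa1, sa2, hset] at h1
    rw [sa3, sa4, hset] at h2
    constructor
    · simpa using h1
    · simpa using h2
  have hα0 : 0 ≤ α := (abs_nonneg _).trans hh
  have hretD : 0 ≤ retD Hc := (Real.exp_pos _).le
  set ε := M * α * (admL C0 + 6 * admB C0 * retD Hc) with hε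
  have hE : ∀ l ∈ Finset.Icc 1 M, ∃ (s al : ℝ) (c : ℂ), ‖c‖ = 1 ∧ ∀ u v,
      ‖K (u + s, v) - c * ee (al * u) * ee ((l : ℝ) * σ * v) * K (u, v)‖ ≤ ε := by
    intro l hl
    have hlM : l ≤ M := (Finset.mem_Icc.mp hl).2
    obtain ⟨qi1, qi2⟩ := s6a_slot_xi a b i hab
    obtain ⟨qj1, qj2⟩ := s6a_slot_xi a b j hab
    obtain ⟨uA, huA, hyA⟩ := s6a_ret_mult A Hc hA P' hPA h α mA (fun x => hm _) hdA ξi qi1 qi2 M hα0 hMα l hlM
    obtain ⟨uB, huB, hyB⟩ := s6a_ret_mult B Hc hB P' hPB h α mB (fun x => hm _) hdB ξj qj1 qj2 M hα0 hMα l hlM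
    refine ⟨l * h, l * (ξi ^ 2 * ΩA + ξj ^ 2 * ΩB), uA * uB, by rw [norm_mul, huA, huB, one_mul], fun u v => ?_⟩
    set yi := ξi * u + ζi * v with hyi
    set yj := ξj * u + ζj * v with hyj
    have e1 : K (u + l * h, v) = kerUV a b w (u + l * h, v) *
        (A.eval (yi + ξi * l * h) * B.eval (yj + ξj * l * h)) := by
      simp only [hK]
      congr 3 <;> (simp only [hyi, hyj]; ring)
    have e2 : uA * uB * ee (l * (ξi ^ 2 * ΩA + ξj ^ 2 * ΩB) * u) * ee ((l : ℝ) * σ * v) * K (u, v) =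
        kerUV a b w (u, v) * ((uA * ee (ξi * l * ΩA * yi) * A.eval yi) * (uB * ee (ξj * l * ΩB * yj) * B.eval yj)) := by
      have e3 : ee (ξi * l * ΩA * yi) * ee (ξj * l * ΩB * yj) =
          ee (l * (ξi ^ 2 * ΩA + ξj ^ 2 * ΩB) * u) * ee ((l : ℝ) * σ * v) := by
        rw [← s4a_ee_add, ← s4a_ee_add]
        congr 1
        simp only [hyi, hyj, hσ]; ring
      simp only [hK]
      linear_combination (-(uA * uB * kerUV a b w (u, v) * A.eval yi * B.eval yj)) * e3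
    rw [e1, e2]
    have hW := s6a_ker_lip hw a b hab u v (l * h)
    have hWl : admL C0 * (|(l : ℝ) * h| / r) ≤ M * α * admL C0 := by
      have hL0 : 0 ≤ admL C0 := by
        have := (norm_nonneg _).trans (s6a_ker_lip hw a b hab 0 0 r)
        rw [abs_of_pos hr, div_self hr.ne', mul_one] at this
        exact this
      have : |(l : ℝ) * h| / r = l * |h'| := by
        rw [hh', abs_mul, abs_mul, Nat.abs_cast, abs_of_pos hr]; field_simp
      rw [this]
      have : (l : ℝ) * |h'| ≤ M * α := mul_le_mul (by exact_mod_cast hlM) hh (abs_nonneg _) (by positivity)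
      calc admL C0 * (l * |h'|) ≤ admL C0 * (M * α) := by gcongr
        _ = _ := by ring
    have hAt : ‖uA * ee (ξi * l * ΩA * yi) * A.eval yi‖ ≤ 1 := by
      rw [norm_mul, norm_mul, huA, s4a_ee_norm, one_mul, one_mul]; exact hAb _
    have := s6a_tele3 (kerUV a b w (u, v)) (kerUV a b w (u + l * h, v)) 0 (A.eval (yi + ξi * l * h))
      (uA * ee (ξi * l * ΩA * yi) * A.eval yi) (B.eval (yj + ξj * l * h)) (uB * ee (ξj * l * ΩB * yj) * B.eval yj)
      (admB C0) _ _ _ (s6a_ker_bound hw a b _) (hAb _) (hBb _) hAt hW (hyA yi) (hyB yj) rfl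
    refine this.trans ?_
    rw [hε]
    nlinarith [hWl]
  rw [hset] at hza hzb
  have key := s6a_cross_abs I.left r hr K hKc (admB C0) hKb hKs (z a) (z b) hza hzb M hM σ ε hσ1 hE
  -- back to the form
  rw [s6a_form_cov I w a b hab z]
  have hint : (∫ p : ℝ × ℝ, kerUV a b w p * ∏ l, z l (slotXi a b l * p.1 + slotZe a b l * p.2)) =
      ∫ p : ℝ × ℝ, K p * (z a p.1 * z b p.2) := by
    congr 1
    funext p
    rw [s6a_slot_prod h4, sa1, sa2, sa3, sa4, hzi, hzj]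
    simp only [hK, one_mul, zero_mul, add_zero, zero_add]
    ring
  rw [hint, norm_mul, Complex.norm_real, Real.norm_eq_abs, s6a_nnorm2_eq, s6a_nnorm2_eq, hset]
  set Nf := ∫ y in Set.Ico I.left (I.left + r), ‖z a y‖ ^ 2 with hNf
  set Ng := ∫ y in Set.Ico I.left (I.left + r), ‖z b y‖ ^ 2 with hNg
  have hdiff := s6a_slot_diff a b hab
  have hpre : |(r ^ 2)⁻¹ * |((b : ℕ) : ℝ) - ((a : ℕ) : ℝ)|⁻¹| ≤ (r ^ 2)⁻¹ := by
    rw [abs_mul, abs_inv, abs_inv, abs_abs, abs_of_pos (by positivity : 0 < r ^ 2)]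
    have : |((b : ℕ) : ℝ) - ((a : ℕ) : ℝ)|⁻¹ ≤ 1 := inv_le_one_of_one_le₀ hdiff
    calc _ ≤ (r ^ 2)⁻¹ * 1 := by gcongr
      _ = _ := mul_one _
  have hs1 : Real.sqrt (r⁻¹ * Nf) = Real.sqrt r⁻¹ * Real.sqrt Nf := Real.sqrt_mul (by positivity) _
  have hs2 : Real.sqrt (r⁻¹ * Ng) = Real.sqrt r⁻¹ * Real.sqrt Ng := Real.sqrt_mul (by positivity) _
  have hs3 : Real.sqrt r⁻¹ * Real.sqrt r⁻¹ = r⁻¹ := Real.mul_self_sqrt (by positivity)
  calc _ ≤ (r ^ 2)⁻¹ * ((2 * ε + admB C0 * Real.sqrt (2 / M)) * r * (Real.sqrt Nf * Real.sqrt Ng)) := by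
        gcongr
    _ = (2 * ε + admB C0 * Real.sqrt (2 / M)) * ((Real.sqrt r⁻¹ * Real.sqrt r⁻¹) * (Real.sqrt Nf * Real.sqrt Ng)) := by
        rw [hs3]; field_simp
    _ = _ := by rw [hs1, hs2]; ring

/-- **same slot**: one return with `|Ω| ≥ 2` forces a small inner product -/
theorem s6a_same_core (A B : Chart) (Hc : ℝ) (hA : A.Cplx Hc) (hB : B.Cplx Hc)
    (hAb : A.Bdd) (hBb : B.Bdd) (i : Fin 4) (I : Cell) (P' : ℕ) (hPA : ClearsDen P' A.C) (hPB : ClearsDen P' B.C)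
    (M : ℕ) (hM : 0 < M) (α : ℝ) (hMα : 3 * (M : ℝ) * α ≤ 1)
    (h' : ℝ) (m : Fin A.d ⊕ Fin B.d → ℤ) (hm : ∀ x, ((6 * P' : ℕ) : ℤ) ∣ m x) (hh : |h'| ≤ α)
    (hd : ∀ x, |locV I.depth (A.tag i) (B.tag i) x * h' - (m x : ℝ)| ≤ α)
    (hΩ : 2 ≤ |retOm (locV I.depth (A.tag i) (B.tag i)) (locC (A.tag i) (B.tag i))
      (locLam I.depth (A.tag i) (B.tag i)) h' m|) :
    ‖smom I A.eval B.eval‖ ≤ M * α * (6 * retD Hc + 2) + Real.sqrt (2 / M) := by
  have hr : 0 < I.len := cell_len_pos I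
  set r := I.len with hrdef
  have hr2 : (2 : ℝ) ^ (-I.depth) = r := rfl
  set h := r * h' with hh'
  set mA : Fin A.d → ℤ := fun x => m (Sum.inl x) with hmA
  set mB : Fin B.d → ℤ := fun x => m (Sum.inr x) with hmB
  have hdA : ∀ x, |A.th x * h - (mA x : ℝ)| ≤ α := by
    intro x
    have := hd (Sum.inl x)
    have e : locV I.depth (A.tag i) (B.tag i) (Sum.inl x) = r * A.th x := rfl
    rw [e] at this
    have e2 : A.th x * h = r * A.th x * h' := by rw [hh']; ring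
    rw [e2]; exact this
  have hdB : ∀ x, |B.th x * h - (mB x : ℝ)| ≤ α := by
    intro x
    have := hd (Sum.inr x)
    have e : locV I.depth (A.tag i) (B.tag i) (Sum.inr x) = r * B.th x := rfl
    rw [e] at this
    have e2 : B.th x * h = r * B.th x * h' := by rw [hh']; ring
    rw [e2]; exact this
  set ΩA := retOm A.th A.C A.lam h mA with hΩA
  set ΩB := retOm B.th B.C B.lam h mB with hΩB
  set σ := ΩA - ΩB with hσ
  have hloc := s6a_retOm_loc A B i i I.depth h' m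
  rw [hr2] at hloc
  obtain ⟨hci, hci1, -⟩ := s6a_slotC_ne i
  set ci := ((slotC i : ℚ) : ℝ) with hcidef
  have hσr : σ * r = ci * (r * (ΩA / ci - ΩB / ci)) := by
    rw [hσ]; field_simp
  have hσ1 : 1 ≤ |σ| * r := by
    rw [← abs_of_pos hr, ← abs_mul, hσr, abs_mul, ← hloc]
    calc (1 : ℝ) ≤ 1 * 2 := by norm_num
      _ ≤ _ := mul_le_mul hci1 hΩ (by norm_num) (abs_nonneg _)
  set G : ℝ → ℂ := fun y => A.eval y * conj (B.eval y) with hG
  have hGc : Continuous G :=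
    (s4b_eval_continuous hA).mul (Complex.continuous_conj.comp (s4b_eval_continuous hB))
  have hGb : ∀ y, ‖G y‖ ≤ 1 := by
    intro y
    simp only [hG, norm_mul, RCLike.norm_conj]
    calc _ ≤ (1 : ℝ) * 1 := by
          gcongr
          · exact hAb _
          · exact hBb _
      _ = 1 := by ring
  have hα0 : 0 ≤ α := (abs_nonneg _).trans hh
  have hK : ∀ l ∈ Finset.Icc 1 M, ∃ (s : ℝ) (c : ℂ), ‖c‖ = 1 ∧ |s| ≤ (M * α) * r ∧
      ∀ y, ‖G (y + s) - c * ee ((l : ℝ) * σ * y) * G y‖ ≤ 6 * retD Hc * (M * α) := by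
    intro l hl
    have hlM : l ≤ M := (Finset.mem_Icc.mp hl).2
    obtain ⟨uA, huA, hyA⟩ := s6a_ret_mult A Hc hA P' hPA h α mA (fun x => hm _) hdA 1 ⟨6, by norm_num⟩
      (by norm_num) M hα0 hMα l hlM
    obtain ⟨uB, huB, hyB⟩ := s6a_ret_mult B Hc hB P' hPB h α mB (fun x => hm _) hdB 1 ⟨6, by norm_num⟩
      (by norm_num) M hα0 hMα l hlM
    refine ⟨1 * l * h, uA * conj uB, by rw [norm_mul, RCLike.norm_conj, huA, huB, one_mul], ?_, fun y => ?_⟩
    · rw [hh', one_mul, abs_mul, abs_mul, Nat.abs_cast, abs_of_pos hr]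
      have : (l : ℝ) * |h'| ≤ M * α := mul_le_mul (by exact_mod_cast hlM) hh (abs_nonneg _) (by positivity)
      calc (l : ℝ) * (r * |h'|) = (l * |h'|) * r := by ring
        _ ≤ _ := by gcongr
    · have e2 : uA * conj uB * ee ((l : ℝ) * σ * y) * G y =
          1 * ((uA * ee (1 * l * ΩA * y) * A.eval y) * conj (uB * ee (1 * l * ΩB * y) * B.eval y)) := by
        have e3 : ee (1 * l * ΩA * y) * ee (-(1 * l * ΩB * y)) = ee ((l : ℝ) * σ * y) := by
          rw [← s4a_ee_add]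
          congr 1
          simp only [hσ]; ring
        simp only [hG, map_mul, s4a_ee_conj]
        linear_combination (-(uA * conj uB * A.eval y * conj (B.eval y))) * e3
      have e1 : G (y + 1 * l * h) = 1 * (A.eval (y + 1 * l * h) * conj (B.eval (y + 1 * l * h))) := by
        simp only [hG, one_mul]
      rw [e1, e2]
      have hAt : ‖uA * ee (1 * l * ΩA * y) * A.eval y‖ ≤ 1 := by
        rw [norm_mul, norm_mul, huA, s4a_ee_norm, one_mul, one_mul]; exact hAb _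
      have hB3 : ‖conj (B.eval (y + 1 * l * h)) - conj (uB * ee (1 * l * ΩB * y) * B.eval y)‖ ≤
          retD Hc * (3 * M * α) := by
        rw [← map_sub, RCLike.norm_conj]; exact hyB y
      have := s6a_tele3 1 1 0 (A.eval (y + 1 * l * h)) (uA * ee (1 * l * ΩA * y) * A.eval y)
        (conj (B.eval (y + 1 * l * h))) (conj (uB * ee (1 * l * ΩB * y) * B.eval y)) 1 0 _ _ (by simp) (hAb _)
        (by rw [RCLike.norm_conj]; exact hBb _) hAt (by simp) (hyA y) hB3 rfl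
      refine this.trans (le_of_eq ?_)
      ring
  have key := s6a_same_abs I.left r hr G hGc 1 hGb M hM σ _ _ hσ1 hK
  have hset : I.set = Set.Ico I.left (I.left + r) := by
    unfold Cell.set; rw [cell_right_eq]
  unfold smom
  rw [hset, norm_mul, Complex.norm_real, Real.norm_eq_abs, abs_of_pos (by positivity : 0 < r⁻¹)]
  calc r⁻¹ * ‖∫ y in Set.Ico I.left (I.left + r), A.eval y * conj (B.eval y)‖
      ≤ r⁻¹ * ((6 * retD Hc * (M * α) + 2 * (M * α) * 1 + 1 * Real.sqrt (2 / M)) * r) := by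
        gcongr
    _ = _ := by field_simp

end Claimed.Agent.R258
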