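/-
Row 258 (S0498), block [S6a] (architect helper70).  LEAF P-S6A-TMPL (PROVED, helper70).  Mathlib + S6a/Defs (`tmpl`, `IsPou`, `LocTag`, `slotC`, `Chart.tag`) + the STATEMENTS of S4a/Br, S4a/Gev.

THE TEMPLATE CHARTS OF LEMMA 6.6:  `tmpl ρ v j P0 l β` has the tag `v` in the slot `j`, amplitude `ρ_d(x) e(l·x/P0)`, `ρ_d(x) = ∏_c ρ(x_c)`, modulation `β`.

PLAN.
 * `s6a_tmpl_tag`: unfold `Chart.tag`, `tmpl`; `(c_j)⁻¹ • (c_j • C) = C` (`inv_smul_smul₀`, `slotC j ≠ 0` by `fin_cases j`), `c_j λ / c_j = λ`; the structure `LocTag` has eta (`cases v; simp`).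
 * `s6a_pou_prod`: `∑'_{n ∈ ℤ^d} ∏_c ρ(x_c - n_c) = ∏_c ∑'_{n_c} ρ(x_c - n_c) = 1`.  All sums have finite support (`|x_c - n_c| ≤ 1`): restrict to
   `Fintype.piFinset fun c => Finset.Icc (⌈x c⌉ - 1) (⌊x c⌋ + 1)` (`tsum_eq_sum`), `Finset.prod_univ_sum`.  The statement is given as `HasSum`.
 * `s6a_tmpl_bdd`: `‖eval y‖ ≤ ∑' ‖ρ_d(θy - n) e(..) e(..)‖ = ∑' ρ_d(θy - n) = 1` (`norm_tsum_le_tsum_norm`, `s4a_ee_norm`, `ρ ≥ 0`).
 * `s6a_tmpl_cplx`: field by field; the amplitude is the function of `TmplAmpOk` with `s c = l c / P0 ∈ [0,1)` (`l c * x c / P0 = (l c / P0) * x c`: rewrite the function by `funext`);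
   support: a nonzero product has all factors nonzero, `IsPou.supp`, `1 ≤ H`; `unit = 1`.
 * `s6a_tmpl_mod`: `s4a_eval_eq`-style unfolding, `s4a_ee_add`: only `bet` changes.
 * `s6a_tmpl_conj`: with `d = θy - n`, `ℓ = resN P0 μ ≡ μ (mod P0)`:
     `conj (eval y) = e(-c_j λ y² - β y) ∑'_n ρ_d(d) e(-ℓ·d/P0) e(-c_j (θy)ᵀC d)`  (`Complex.conj_tsum`/`tsum_star`-type lemma or pass to the finite sum first; `s4a_ee_conj`; `ρ` real),
     `-ℓ·d/P0 = -ℓ·θ y/P0 + ℓ·n/P0`, `e(ℓ·n/P0) = e(μ·n/P0)` (`(μ_c - ℓ_c)/P0 ∈ ℤ`, `s4a_ee_add_int`), `β = -τ - ℓ·θ/P0`.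
     The `tsum` equals the sum over `N` because the terms vanish outside `N` (`hN`, `IsPou.supp`).
-/
import Claimed.Agent.R258.Pack004
import Claimed.Agent.R258.S4a.Br

set_option autoImplicit false
open MeasureTheory
open scoped ComplexConjugate ContDiff

namespace Claimed.Agent.R258

/-- the normalized phase `φ(y,n) = λ y² + (θy)ᵀ C (θy - n)` of a tag -/
noncomputable def tagPh (v : LocTag) (y : ℝ) (n : Fin v.dim → ℤ) : ℝ :=
  v.lam * y ^ 2 + s4a_bil v.C (fun c => v.th c * y) fun c => v.th c * y - (n c : ℝ)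

/-- residues modulo `P0` -/
def resN {d : ℕ} (P0 : ℕ) (μ : Fin d → ℤ) : Fin d → ℕ := fun c => (μ c % (P0 : ℤ)).toNat

/-- the Gevrey bounds of the template amplitudes in dimension `d` (clauses `smooth`, `deriv` of `Chart.Cplx`; supplied by block [GEV]: `gev_S6_G2`) -/
def TmplAmpOk (ρ : ℝ → ℝ) (H : ℝ) (d : ℕ) : Prop :=
  ∀ s : Fin d → ℝ, (∀ c, |s c| ≤ 1) →
    ContDiff ℝ ∞ (fun x : Fin d → ℝ => ((∏ c, ρ (x c) : ℝ) : ℂ) * ee (∑ c, s c * x c)) ∧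
    ∀ (n : ℕ) (x : Fin d → ℝ),
      ‖iteratedFDeriv ℝ n (fun x : Fin d → ℝ => ((∏ c, ρ (x c) : ℝ) : ℂ) * ee (∑ c, s c * x c)) x‖
        ≤ H ^ (cGev * ((n : ℝ) + 1)) * ((n : ℝ) + 1) ^ (cGev * ((n : ℝ) + 1))

theorem s6a_resN_lt {d : ℕ} (P0 : ℕ) (hP0 : 0 < P0) (μ : Fin d → ℤ) (c : Fin d) : resN P0 μ c < P0 := by
  have hp : (0 : ℤ) < P0 := by exact_mod_cast hP0
  have h1 := Int.emod_nonneg (μ c) hp.ne'
  have h2 := Int.emod_lt_of_pos (μ c) hp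
  unfold resN
  omega

theorem s6a_slotC_ne0 (j : Fin 4) : slotC j ≠ 0 := by
  fin_cases j <;> simp [slotC]

theorem s6a_tmpl_tag (ρ : ℝ → ℝ) (v : LocTag) (j : Fin 4) (P0 : ℕ) (l : Fin v.dim → ℕ) (β : ℝ) :
    (tmpl ρ v j P0 l β).tag j = v := by
  have h0 := s6a_slotC_ne0 j
  have h1 : ((slotC j : ℚ) : ℝ) ≠ 0 := by exact_mod_cast h0
  cases v with
  | mk dim th C lam =>
    simp only [Chart.tag, tmpl]
    congr 1
    · exact inv_smul_smul₀ h0 C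
    · field_simp

/-- the unit box of lattice points around `x` -/
noncomputable def pouBox {d : ℕ} (x : Fin d → ℝ) : Finset (Fin d → ℤ) :=
  Fintype.piFinset fun c => Finset.Icc (⌈x c⌉ - 1) (⌊x c⌋ + 1)

theorem s6a_pou_zero {ρ : ℝ → ℝ} (hρ : IsPou ρ) {d : ℕ} (x : Fin d → ℝ) (n : Fin d → ℤ)
    (hn : ¬ ∀ c, |x c - (n c : ℝ)| ≤ 1) : ∏ c, ρ (x c - (n c : ℝ)) = 0 := by
  push Not at hn
  obtain ⟨c, hc⟩ := hn
  apply Finset.prod_eq_zero (Finset.mem_univ c)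
  by_contra h
  exact absurd (hρ.supp _ h) (not_le.mpr hc)

theorem s6a_mem_Icc_of_abs (u : ℝ) (k : ℤ) (h : |u - (k : ℝ)| ≤ 1) : k ∈ Finset.Icc (⌈u⌉ - 1) (⌊u⌋ + 1) := by
  obtain ⟨h1, h2⟩ := abs_le.mp h
  rw [Finset.mem_Icc]
  constructor
  · have : ⌈u⌉ ≤ k + 1 := Int.ceil_le.mpr (by push_cast; linarith)
    omega
  · have : k - 1 ≤ ⌊u⌋ := Int.le_floor.mpr (by push_cast; linarith)
    omega

theorem s6a_pou_prod {ρ : ℝ → ℝ} (hρ : IsPou ρ) {d : ℕ} (x : Fin d → ℝ) :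
    HasSum (fun n : Fin d → ℤ => ∏ c, ρ (x c - (n c : ℝ))) 1 := by
  have h1 : ∀ n ∉ pouBox x, ∏ c, ρ (x c - (n c : ℝ)) = 0 := by
    intro n hn
    apply s6a_pou_zero hρ
    intro h
    apply hn
    rw [pouBox, Fintype.mem_piFinset]
    exact fun c => s6a_mem_Icc_of_abs _ _ (h c)
  have h2 : HasSum (fun n : Fin d → ℤ => ∏ c, ρ (x c - (n c : ℝ))) (∑ n ∈ pouBox x, ∏ c, ρ (x c - (n c : ℝ))) :=
    hasSum_sum_of_ne_finset_zero h1
  have h3 : ∑ n ∈ pouBox x, ∏ c, ρ (x c - (n c : ℝ)) = 1 := by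
    rw [pouBox, ← Finset.prod_univ_sum (fun c => Finset.Icc (⌈x c⌉ - 1) (⌊x c⌋ + 1)) (fun c k => ρ (x c - (k : ℝ)))]
    apply Finset.prod_eq_one
    intro c _
    rw [← hρ.sum_one (x c)]
    symm
    apply tsum_eq_sum
    intro k hk
    by_contra h
    exact hk (s6a_mem_Icc_of_abs _ _ (hρ.supp _ h))
  rwa [h3] at h2

theorem s6a_pou_sum {ρ : ℝ → ℝ} (hρ : IsPou ρ) {d : ℕ} (x : Fin d → ℝ) (N : Finset (Fin d → ℤ))
    (hN : ∀ n : Fin d → ℤ, (∀ c, |x c - (n c : ℝ)| ≤ 1) → n ∈ N) :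
    ∑ n ∈ N, ((∏ c, ρ (x c - (n c : ℝ)) : ℝ) : ℂ) = 1 := by
  have h1 : ∀ n ∉ N, ∏ c, ρ (x c - (n c : ℝ)) = 0 := fun n hn => s6a_pou_zero hρ x n fun h => hn (hN n h)
  have h2' : HasSum (fun n : Fin d → ℤ => ∏ c, ρ (x c - (n c : ℝ))) (∑ n ∈ N, ∏ c, ρ (x c - (n c : ℝ))) :=
    hasSum_sum_of_ne_finset_zero h1
  have h2 := h2'.unique (s6a_pou_prod hρ x)
  rw [← Complex.ofReal_sum, h2, Complex.ofReal_one]

theorem s6a_tmpl_bdd {ρ : ℝ → ℝ} (hρ : IsPou ρ) (v : LocTag) (j : Fin 4) (P0 : ℕ) (l : Fin v.dim → ℕ) (β : ℝ) :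
    (tmpl ρ v j P0 l β).Bdd := by
  intro y
  have hs := s6a_pou_prod hρ (fun c => v.th c * y)
  show ‖(1 : ℂ) * ee _ * ∑' n : Fin v.dim → ℤ, (((∏ c, ρ (v.th c * y - (n c : ℝ)) : ℝ) : ℂ) * ee _) * ee _‖ ≤ 1
  rw [norm_mul, norm_mul, norm_one, s4a_ee_norm, one_mul, one_mul]
  have hn : ∀ n : Fin v.dim → ℤ, ‖(((∏ c, ρ (v.th c * y - (n c : ℝ)) : ℝ) : ℂ) *
      ee (∑ c, (l c : ℝ) * (v.th c * y - (n c : ℝ)) / (P0 : ℝ))) * ee ((tmpl ρ v j P0 l β).phase y n)‖ =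
      ∏ c, ρ (v.th c * y - (n c : ℝ)) := by
    intro n
    rw [norm_mul, norm_mul, s4a_ee_norm, s4a_ee_norm, mul_one, mul_one, Complex.norm_real, Real.norm_eq_abs,
      abs_of_nonneg (Finset.prod_nonneg fun c _ => hρ.nonneg _)]
  refine (norm_tsum_le_tsum_norm ?_).trans ?_
  · exact hs.summable.congr fun n => (hn n).symm
  · refine le_of_eq ?_
    rw [← hs.tsum_eq]
    exact tsum_congr hn


theorem s6a_eval_continuous (a : Chart) (K : ℝ) (hc : Continuous a.chi) (hs : ∀ x, a.chi x ≠ 0 → ∀ i, |x i| ≤ K) :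
    Continuous a.eval := by
  have hee : Continuous ee := s4a_ee_continuous
  set f : (Fin a.d → ℤ) → ℝ → ℂ := fun n y => a.chi (fun i => a.th i * y - (n i : ℝ)) * ee (a.phase y n) with hf
  have hfc : ∀ n, Continuous (f n) := by
    intro n
    apply Continuous.mul
    · exact hc.comp (continuous_pi fun i => (continuous_const.mul continuous_id).sub continuous_const)
    · apply hee.comp
      unfold Chart.phase
      fun_prop
  have hlf : LocallyFinite fun n => Function.support (f n) := by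
    intro y₀
    refine ⟨Metric.ball y₀ 1, Metric.ball_mem_nhds y₀ one_pos, ?_⟩
    refine (s4a_lat_box_finite (K + ∑ i, |a.th i|) (fun i => a.th i * y₀)).subset ?_
    rintro n ⟨y, hy, hyb⟩
    have hy1 : a.chi (fun i => a.th i * y - (n i : ℝ)) ≠ 0 := by
      intro h0
      apply hy
      simp only [hf, h0, zero_mul]
    intro i
    have h1 := hs _ hy1 i
    have h2 : |y₀ - y| ≤ 1 := by
      rw [Metric.mem_ball, Real.dist_eq] at hyb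
      rw [abs_sub_comm]; exact hyb.le
    have h3 : |a.th i| ≤ ∑ i, |a.th i| :=
      Finset.single_le_sum (f := fun i => |a.th i|) (fun _ _ => abs_nonneg _) (Finset.mem_univ i)
    have e : a.th i * y₀ - (n i : ℝ) = (a.th i * y - (n i : ℝ)) + a.th i * (y₀ - y) := by ring
    rw [e]
    calc |(a.th i * y - (n i : ℝ)) + a.th i * (y₀ - y)| ≤ |a.th i * y - (n i : ℝ)| + |a.th i * (y₀ - y)| :=
          abs_add_le _ _
      _ ≤ K + |a.th i| * 1 := by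
        rw [abs_mul]
        gcongr
      _ ≤ K + ∑ i, |a.th i| := by linarith
  have hfin : ∀ y, (Function.support fun n => f n y).Finite := by
    intro y
    exact hlf.point_finite y
  have hS : Continuous fun y => ∑' n, f n y := by
    have : (fun y => ∑' n, f n y) = fun y => ∑ᶠ n, f n y := by
      funext y
      exact tsum_eq_finsum (hfin y)
    rw [this]
    exact continuous_finsum hfc hlf
  have : a.eval = fun y => a.unit * ee (a.lam * y ^ 2 + a.bet * y) * ∑' n, f n y := rfl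
  rw [this]
  apply Continuous.mul _ hS
  apply continuous_const.mul
  apply hee.comp
  fun_prop

theorem s6a_tmpl_supp {ρ : ℝ → ℝ} (hρ : IsPou ρ) (v : LocTag) (j : Fin 4) (P0 : ℕ) (l : Fin v.dim → ℕ) (β : ℝ)
    (x : Fin v.dim → ℝ) (hx : (tmpl ρ v j P0 l β).chi x ≠ 0) (i : Fin v.dim) : |x i| ≤ 1 := by
  apply hρ.supp
  intro h0
  apply hx
  show ((∏ c, ρ (x c) : ℝ) : ℂ) * _ = 0
  rw [Finset.prod_eq_zero (Finset.mem_univ i) h0]
  simp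

theorem s6a_tmpl_continuous {ρ : ℝ → ℝ} (hρ : IsPou ρ) (v : LocTag) (j : Fin 4) (P0 : ℕ) (l : Fin v.dim → ℕ) (β : ℝ) :
    Continuous (tmpl ρ v j P0 l β).eval := by
  apply s6a_eval_continuous _ 1 _ (s6a_tmpl_supp hρ v j P0 l β)
  show Continuous fun x : Fin v.dim → ℝ => ((∏ c, ρ (x c) : ℝ) : ℂ) * ee (∑ c, (l c : ℝ) * x c / (P0 : ℝ))
  have hc := hρ.smooth.continuous
  apply Continuous.mul
  · apply Complex.continuous_ofReal.comp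
    exact continuous_finsetProd _ fun c _ => hc.comp (continuous_apply c)
  · apply s4a_ee_continuous.comp
    fun_prop

theorem s6a_tmpl_cplx {ρ : ℝ → ℝ} {H : ℝ} (hρ0 : IsPou ρ) (v : LocTag) (hρ : TmplAmpOk ρ H v.dim)
    (hH : Real.exp 2 ≤ H) (j : Fin 4) (hd : (v.dim : ℝ) ≤ Real.log H) (hh : ∀ x y, (qHeight ((slotC j • v.C) x y) : ℝ) ≤ H) (P0 : ℕ) (hP0 : 0 < P0)
    (l : Fin v.dim → ℕ) (hl : ∀ c, l c < P0) (β : ℝ) : (tmpl ρ v j P0 l β).Cplx H := by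
  have hP : (0 : ℝ) < P0 := by exact_mod_cast hP0
  have hs : ∀ c, |(l c : ℝ) / (P0 : ℝ)| ≤ 1 := by
    intro c
    rw [abs_of_nonneg (by positivity), div_le_one hP]
    exact_mod_cast (hl c).le
  have e : (tmpl ρ v j P0 l β).chi =
      fun x : Fin v.dim → ℝ => ((∏ c, ρ (x c) : ℝ) : ℂ) * ee (∑ c, ((l c : ℝ) / (P0 : ℝ)) * x c) := by
    funext x
    show ((∏ c, ρ (x c) : ℝ) : ℂ) * ee (∑ c, (l c : ℝ) * x c / (P0 : ℝ)) = _
    congr 2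
    apply Finset.sum_congr rfl
    intro c _
    ring
  obtain ⟨h1, h2⟩ := hρ _ hs
  have hH1 : (1 : ℝ) ≤ H := le_trans (by
    have := Real.add_one_le_exp (2 : ℝ); linarith) hH
  refine ⟨hH, hd, hh, ?_, fun x hx i => (s6a_tmpl_supp hρ0 v j P0 l β x hx i).trans hH1, ?_, ?_⟩
  · rw [e]; exact h1
  · rw [e]; exact h2
  · show ‖(1 : ℂ)‖ = 1
    exact norm_one

theorem s6a_tmpl_mod (ρ : ℝ → ℝ) (v : LocTag) (j : Fin 4) (P0 : ℕ) (l : Fin v.dim → ℕ) (β ξ y : ℝ) :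
    (tmpl ρ v j P0 l β).eval y * ee (ξ * y) = (tmpl ρ v j P0 l (β + ξ)).eval y := by
  show (1 : ℂ) * ee (((slotC j : ℚ) : ℝ) * v.lam * y ^ 2 + β * y) * _ * ee (ξ * y) =
    (1 : ℂ) * ee (((slotC j : ℚ) : ℝ) * v.lam * y ^ 2 + (β + ξ) * y) * _
  have : ee (((slotC j : ℚ) : ℝ) * v.lam * y ^ 2 + (β + ξ) * y) =
      ee (((slotC j : ℚ) : ℝ) * v.lam * y ^ 2 + β * y) * ee (ξ * y) := by
    rw [← s4a_ee_add]; congr 1; ring
  rw [this]
  have e : ∀ (A B S S' : ℂ), S = S' → 1 * A * S * B = 1 * (A * B) * S' := by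
    intro A B S S' h; rw [h]; ring
  exact e _ _ _ _ rfl


/-- characters only see the residue -/
theorem s6a_ee_res {d : ℕ} (P0 : ℕ) (hP0 : 0 < P0) (μ n : Fin d → ℤ) :
    ee ((∑ c, (μ c : ℝ) * (n c : ℝ)) / (P0 : ℝ)) = ee ((∑ c, (resN P0 μ c : ℝ) * (n c : ℝ)) / (P0 : ℝ)) := by
  have hp : (0 : ℤ) < P0 := by exact_mod_cast hP0
  have hP : (P0 : ℝ) ≠ 0 := by
    have : (0 : ℝ) < P0 := by exact_mod_cast hP0
    exact this.ne'
  have h : (∑ c, (μ c : ℝ) * (n c : ℝ)) / (P0 : ℝ) =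
      (∑ c, (resN P0 μ c : ℝ) * (n c : ℝ)) / (P0 : ℝ) + ((∑ c, (μ c / (P0 : ℤ)) * n c : ℤ) : ℝ) := by
    rw [div_add' _ _ _ hP]
    congr 1
    push_cast
    rw [Finset.sum_mul, ← Finset.sum_add_distrib]
    apply Finset.sum_congr rfl
    intro c _
    have h1 : ((resN P0 μ c : ℕ) : ℤ) = μ c % (P0 : ℤ) := by
      unfold resN
      exact Int.toNat_of_nonneg (Int.emod_nonneg _ hp.ne')
    have h2 : μ c = μ c % (P0 : ℤ) + (P0 : ℤ) * (μ c / (P0 : ℤ)) := (Int.emod_add_mul_ediv _ _).symm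
    have h3 : (μ c : ℝ) = ((resN P0 μ c : ℕ) : ℝ) + (P0 : ℝ) * ((μ c / (P0 : ℤ) : ℤ) : ℝ) := by
      have : (μ c : ℝ) = ((μ c % (P0 : ℤ) + (P0 : ℤ) * (μ c / (P0 : ℤ)) : ℤ) : ℝ) := by rw [← h2]
      rw [this, ← h1]
      push_cast
      ring
    rw [h3]
    ring
  rw [h, s4a_ee_add_int]

theorem s6a_tmpl_conj {ρ : ℝ → ℝ} (hρ : IsPou ρ) (v : LocTag) (j : Fin 4) (P0 : ℕ) (hP0 : 0 < P0)
    (μ : Fin v.dim → ℤ) (τ y : ℝ) (N : Finset (Fin v.dim → ℤ))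
    (hN : ∀ n : Fin v.dim → ℤ, (∀ c, |v.th c * y - (n c : ℝ)| ≤ 1) → n ∈ N) :
    ee (τ * y) * ∑ n ∈ N, ((∏ c, ρ (v.th c * y - (n c : ℝ)) : ℝ) : ℂ) * ee (-(((slotC j : ℚ) : ℝ) * tagPh v y n)) *
        ee ((∑ c, (μ c : ℝ) * (n c : ℝ)) / (P0 : ℝ)) =
      conj ((tmpl ρ v j P0 (resN P0 μ) (-τ - (∑ c, (resN P0 μ c : ℝ) * v.th c) / (P0 : ℝ))).eval y) := by
  set ℓ := resN P0 μ with hℓ
  set β := -τ - (∑ c, (ℓ c : ℝ) * v.th c) / (P0 : ℝ) with hβ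
  have hev : (tmpl ρ v j P0 ℓ β).eval y = (1 : ℂ) * ee (((slotC j : ℚ) : ℝ) * v.lam * y ^ 2 + β * y) *
      ∑' n : Fin v.dim → ℤ, (((∏ c, ρ (v.th c * y - (n c : ℝ)) : ℝ) : ℂ) *
        ee (∑ c, (ℓ c : ℝ) * (v.th c * y - (n c : ℝ)) / (P0 : ℝ))) *
        ee (s4a_bil (slotC j • v.C) (fun c => v.th c * y) fun c => v.th c * y - (n c : ℝ)) := rfl
  have hts : (∑' n : Fin v.dim → ℤ, (((∏ c, ρ (v.th c * y - (n c : ℝ)) : ℝ) : ℂ) *
        ee (∑ c, (ℓ c : ℝ) * (v.th c * y - (n c : ℝ)) / (P0 : ℝ))) *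
        ee (s4a_bil (slotC j • v.C) (fun c => v.th c * y) fun c => v.th c * y - (n c : ℝ))) =
      ∑ n ∈ N, (((∏ c, ρ (v.th c * y - (n c : ℝ)) : ℝ) : ℂ) *
        ee (∑ c, (ℓ c : ℝ) * (v.th c * y - (n c : ℝ)) / (P0 : ℝ))) *
        ee (s4a_bil (slotC j • v.C) (fun c => v.th c * y) fun c => v.th c * y - (n c : ℝ)) := by
    apply tsum_eq_sum
    intro n hn
    rw [s6a_pou_zero hρ (fun c => v.th c * y) n fun h => hn (hN n h)]
    simp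
  rw [hev, hts, map_mul, map_mul, map_one, one_mul, s4a_ee_conj, map_sum, Finset.mul_sum, Finset.mul_sum]
  apply Finset.sum_congr rfl
  intro n _
  rw [map_mul, map_mul, s4a_ee_conj, s4a_ee_conj, Complex.conj_ofReal, s6a_ee_res P0 hP0 μ n, s4a_bil_qsmul]
  have hP : (P0 : ℝ) ≠ 0 := by
    have : (0 : ℝ) < P0 := by exact_mod_cast hP0
    exact this.ne'
  have key : ee (τ * y) * (ee (-(((slotC j : ℚ) : ℝ) * tagPh v y n)) *
      ee ((∑ c, (ℓ c : ℝ) * (n c : ℝ)) / (P0 : ℝ))) =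
      ee (-(((slotC j : ℚ) : ℝ) * v.lam * y ^ 2 + β * y)) *
      (ee (-(∑ c, (ℓ c : ℝ) * (v.th c * y - (n c : ℝ)) / (P0 : ℝ))) *
        ee (-(((slotC j : ℚ) : ℝ) * s4a_bil v.C (fun c => v.th c * y) fun c => v.th c * y - (n c : ℝ)))) := by
    rw [← s4a_ee_add, ← s4a_ee_add, ← s4a_ee_add, ← s4a_ee_add]
    congr 1
    have e1 : ∑ c, (ℓ c : ℝ) * (v.th c * y - (n c : ℝ)) / (P0 : ℝ) =
        (∑ c, (ℓ c : ℝ) * v.th c) / (P0 : ℝ) * y - (∑ c, (ℓ c : ℝ) * (n c : ℝ)) / (P0 : ℝ) := by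
      rw [Finset.sum_div, Finset.sum_div, Finset.sum_mul, ← Finset.sum_sub_distrib]
      apply Finset.sum_congr rfl
      intro c _
      ring
    rw [e1, hβ]
    unfold tagPh
    ring
  linear_combination ((∏ c, ρ (v.th c * y - (n c : ℝ)) : ℝ) : ℂ) * key

end Claimed.Agent.R258
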