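/-
Row 258 (S0498), block [S6a] (architect helper70).  LEAF P-S6A-CARRY (PROVED, helper70).  Mathlib + S6a/Defs, S6a/Tmpl (`tagPh`), `s4a_bil`, `s4a_ee_*` (S4a/Br, black boxes).  No paper.

THE CARRY IDENTITY AND THE EXACT DECOUPLING OF THE FOUR LIFTS (Lemma 6.6).
On a progression `y_l = x + l t` (`l = 0..3`) with lifts `n_l ∈ ℤ^d`, `u_l = θ y_l`, `d_l = u_l - n_l`:
   `d_l = (1-l) d_0 + l d_1 + k_l`,  `k_l = carryK n l = (1-l) n_0 + l n_1 - n_l ∈ ℤ^d`  (`k_0 = k_1 = 0`),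
   `∑_l c_l φ(y_l, n_l) = ∑_l c_l u_lᵀ C k_l`        (`s6a_carry_id`; `c = (-1,3,-3,1)`, `∑ c_l l^j = 0`, `j = 0,1,2`).
The equalities `k_2 = κ_2`, `k_3 = κ_3` are imposed by the EXACT finite identity `1[z = 0] = P0^{-d} ∑_{m ∈ [0,P0)^d} e(m·z/P0)` (`z ∈ ℤ^d`, `|z|_∞ < P0`), and
   `m_2·k_2 + m_3·k_3 = ∑_l μ_l·n_l`,  `μ = carryMu m`.

PLAN.
 * `s6a_carry_id`: `Fin.sum_univ_four`, unfold `tagPh`, `s4a_bil`, `carryK`, `slotC`; move everything into ONE double sum `∑_a ∑_b` (`Finset.sum_add_distrib`, `Finset.mul_sum`, or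
   `simp only [← Finset.sum_add_distrib, ← Finset.sum_sub_distrib, Finset.mul_sum]`), then `Finset.sum_congr`, `push_cast`, `ring`; the `λ`-part: `-x² + 3(x+t)² - 3(x+2t)² + (x+3t)² = 0`.
 * `s6a_carry_mu`: `Fin.sum_univ_four`, `Finset.sum_add_distrib`, `ring`.
 * `s6a_carry_bound`: `(carryK n l c : ℝ) = d_l - (1-l) d_0 - l d_1` (the `u`'s cancel), `fin_cases l`, triangle inequality; the worst case is `1 + 2 + 3 = 6`.
 * `s6a_root_sum`: `ζ = ee (z/P0)`, `ζ^P0 = ee z = 1`, `ζ ≠ 1` when `P0 ∤ z` (`0 < |z| < P0`): `ee s = 1 ↔ s ∈ ℤ` (`Complex.exp_eq_one_iff`); geometric sum `(ζ - 1) ∑_{m<P0} ζ^m = ζ^P0 - 1 = 0` (`mul_geom_sum`);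
   `ee (m z/P0) = ζ^m` (`s4a_ee_add` + induction, or `Complex.exp_nat_mul`).  `Fin.sum_univ_eq_sum_range`.
 * `s6a_root_sum_d`: `e(∑_c ..) = ∏_c e(..)`, `Finset.prod_univ_sum` (with `Fintype.piFinset fun _ => univ = univ`: `Fintype.piFinset_univ`), `s6a_root_sum` in each coordinate, `Finset.prod_ite_zero`-type lemma.
 * `s6a_se0`:  RHS: `Finset.prod_mul_distrib`, `Finset.prod_univ_sum` turn `∏_l ∑_{n ∈ N l}` into `∑_{n ∈ piFinset N} ∏_l`; exchange the sums (`Finset.sum_comm`); for a fixed `n` the total phase is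
   `e(∑_l τ_l y_l - ∑_l c_l φ(y_l,n_l)) · e((m_2·(k_2 - κ_2) + m_3·(k_3 - κ_3))/P0)`; the sum over `m` gives `1[κ = (k_2,k_3)]` (`s6a_root_sum_d` twice, `|k - κ| ≤ 2K < P0`), the sum over `κ` picks
   `κ = (k_2(n), k_3(n))`, which lies in the box by `hk`; there `∑_l τ_l y_l = ∑_l c_l u_lᵀ C k_l` and `s6a_carry_id` kills the phase.  LHS: `Finset.prod_univ_sum`.
-/
import Claimed.Agent.R258.S6a.Tmpl

set_option autoImplicit false

namespace Claimed.Agent.R258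

/-- the carries `k_l = (1-l) n_0 + l n_1 - n_l` -/
def carryK {d : ℕ} (n : Fin 4 → Fin d → ℤ) (l : Fin 4) : Fin d → ℤ :=
  fun c => (1 - ((l : ℕ) : ℤ)) * n 0 c + ((l : ℕ) : ℤ) * n 1 c - n l c

/-- `m_2·k_2 + m_3·k_3 = ∑_l μ_l·n_l` -/
def carryMu {d : ℕ} (m2 m3 : Fin d → ℤ) (l : Fin 4) : Fin d → ℤ :=
  fun c => ![-(m2 c) - 2 * m3 c, 2 * m2 c + 3 * m3 c, -(m2 c), -(m3 c)] l

/-- the box of possible carries -/
noncomputable def carryBox (d K : ℕ) : Finset (Fin d → ℤ) := Fintype.piFinset fun _ => Finset.Icc (-(K : ℤ)) (K : ℤ)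

/-- the linear modulation left by the carries `κ = (κ_2, κ_3)` in the slot `l` -/
noncomputable def carryTau (v : LocTag) (κ : (Fin v.dim → ℤ) × (Fin v.dim → ℤ)) (l : Fin 4) : ℝ :=
  ((slotC l : ℚ) : ℝ) * s4a_bil v.C v.th fun c => ((![0, 0, κ.1 c, κ.2 c] l : ℤ) : ℝ)

theorem s6a_carryBox_card (d K : ℕ) : (carryBox d K).card = (2 * K + 1) ^ d := by
  unfold carryBox
  rw [Fintype.card_piFinset]
  simp only [Int.card_Icc, Finset.prod_const, Finset.card_univ, Fintype.card_fin]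
  congr 1
  omega

theorem s6a_sum3 {α β : Type*} [Fintype α] [Fintype β] (F : Fin 4 → α → β → ℝ) :
    ∑ l, ∑ a, ∑ b, F l a b = ∑ a, ∑ b, ∑ l, F l a b := by
  rw [Finset.sum_comm]; exact Finset.sum_congr rfl fun a _ => Finset.sum_comm

theorem s6a_carry_id (v : LocTag) (x t : ℝ) (n : Fin 4 → Fin v.dim → ℤ) :
    ∑ l : Fin 4, ((slotC l : ℚ) : ℝ) * tagPh v (x + ((l : ℕ) : ℝ) * t) (n l) =
      ∑ l : Fin 4, ((slotC l : ℚ) : ℝ) *
        s4a_bil v.C (fun c => v.th c * (x + ((l : ℕ) : ℝ) * t)) fun c => (carryK n l c : ℝ) := by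
  simp only [tagPh, s4a_bil, mul_add, Finset.mul_sum, Finset.sum_add_distrib]
  rw [s6a_sum3, s6a_sum3]
  have hl : ∑ l : Fin 4, ((slotC l : ℚ) : ℝ) * (v.lam * (x + ((l : ℕ) : ℝ) * t) ^ 2) = 0 := by
    simp only [Fin.sum_univ_four, slotC]
    simp only [Matrix.cons_val_zero, Matrix.cons_val_one, Matrix.cons_val]
    have h3 : ((3 : Fin 4) : ℕ) = 3 := rfl
    simp only [Fin.val_zero, Fin.val_one, Fin.val_two, h3]
    push_cast
    ring
  rw [hl, zero_add]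
  apply Finset.sum_congr rfl; intro a _
  apply Finset.sum_congr rfl; intro b _
  simp only [Fin.sum_univ_four, slotC, carryK]
  simp only [Matrix.cons_val_zero, Matrix.cons_val_one, Matrix.cons_val]
  have h3 : ((3 : Fin 4) : ℕ) = 3 := rfl
  simp only [Fin.val_zero, Fin.val_one, Fin.val_two, h3]
  push_cast
  ring

theorem s6a_carry_mu {d : ℕ} (m2 m3 : Fin d → ℤ) (n : Fin 4 → Fin d → ℤ) :
    ∑ c, (m2 c * carryK n 2 c + m3 c * carryK n 3 c) = ∑ l : Fin 4, ∑ c, carryMu m2 m3 l c * n l c := by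
  rw [Finset.sum_comm]
  apply Finset.sum_congr rfl; intro c _
  simp only [Fin.sum_univ_four, carryMu, carryK]
  simp only [Matrix.cons_val_zero, Matrix.cons_val_one, Matrix.cons_val]
  have h3 : ((3 : Fin 4) : ℕ) = 3 := rfl
  simp only [Fin.val_two, h3]
  push_cast
  ring

theorem s6a_carry_bound (v : LocTag) (x t : ℝ) (K : ℕ) (n : Fin 4 → Fin v.dim → ℤ)
    (hn : ∀ (l : Fin 4) (c : Fin v.dim), |v.th c * (x + ((l : ℕ) : ℝ) * t) - (n l c : ℝ)| ≤ K) (l : Fin 4) (c : Fin v.dim) :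
    |carryK n l c| ≤ ((6 * K : ℕ) : ℤ) := by
  have h0 := abs_le.mp (hn 0 c)
  have h1 := abs_le.mp (hn 1 c)
  have hl := abs_le.mp (hn l c)
  have key : |(carryK n l c : ℝ)| ≤ ((6 * K : ℕ) : ℝ) := by
    have e : (carryK n l c : ℝ) = (v.th c * (x + ((l : ℕ) : ℝ) * t) - (n l c : ℝ))
        - (1 - ((l : ℕ) : ℝ)) * (v.th c * (x + (((0 : Fin 4) : ℕ) : ℝ) * t) - (n 0 c : ℝ))
        - ((l : ℕ) : ℝ) * (v.th c * (x + (((1 : Fin 4) : ℕ) : ℝ) * t) - (n 1 c : ℝ)) := by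
      simp only [carryK, Fin.val_zero, Fin.val_one]
      push_cast
      ring
    rw [e, abs_le]
    have hK : (0 : ℝ) ≤ K := Nat.cast_nonneg K
    push_cast
    fin_cases l <;> simp only [Fin.val_zero, Fin.val_one] at * <;>
      constructor <;> norm_num at * <;> nlinarith
  exact_mod_cast key

theorem s6a_ee_nat_mul (m : ℕ) (t : ℝ) : ee ((m : ℝ) * t) = ee t ^ m := by
  unfold ee
  rw [← Complex.exp_nat_mul]
  congr 1
  push_cast
  ring

theorem s6a_ee_eq_one_iff (t : ℝ) : ee t = 1 ↔ ∃ n : ℤ, t = n := by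
  unfold ee
  rw [Complex.exp_eq_one_iff]
  constructor
  · rintro ⟨n, hn⟩
    refine ⟨n, ?_⟩
    have h2 : (2 * (Real.pi : ℂ) * Complex.I) ≠ 0 := by
      simp [Real.pi_ne_zero, Complex.I_ne_zero]
    have : (t : ℂ) * (2 * Real.pi * Complex.I) = (n : ℂ) * (2 * Real.pi * Complex.I) := by
      rw [← hn]; ring
    have := mul_right_cancel₀ h2 this
    exact_mod_cast this
  · rintro ⟨n, hn⟩
    refine ⟨n, ?_⟩
    rw [hn]; push_cast; ring

theorem s6a_root_sum (P0 : ℕ) (z : ℤ) (hz : |z| < (P0 : ℤ)) :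
    ∑ m : Fin P0, ee (((m : ℕ) : ℝ) * (z : ℝ) / (P0 : ℝ)) = if z = 0 then (P0 : ℂ) else 0 := by
  have hP : (0 : ℤ) < P0 := lt_of_le_of_lt (abs_nonneg z) hz
  have hPr : (P0 : ℝ) ≠ 0 := by
    have : (0 : ℝ) < P0 := by exact_mod_cast hP
    exact this.ne'
  split_ifs with h0
  · subst h0
    simp [s4a_ee_zero]
  · set ζ := ee ((z : ℝ) / (P0 : ℝ)) with hζ
    have e : ∀ m : Fin P0, ee (((m : ℕ) : ℝ) * (z : ℝ) / (P0 : ℝ)) = ζ ^ (m : ℕ) := by
      intro m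
      rw [hζ, ← s6a_ee_nat_mul]; congr 1; ring
    simp only [e]
    rw [Fin.sum_univ_eq_sum_range (fun m => ζ ^ m) P0]
    have h1 : ζ ≠ 1 := by
      intro h
      obtain ⟨n, hn⟩ := (s6a_ee_eq_one_iff _).mp h
      rw [div_eq_iff hPr] at hn
      have hn' : z = n * P0 := by exact_mod_cast hn
      have hn0 : n ≠ 0 := by
        rintro rfl; apply h0; simpa using hn'
      have : (P0 : ℤ) ≤ |z| := by
        rw [hn', abs_mul, abs_of_pos hP]
        have : 1 ≤ |n| := Int.one_le_abs hn0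
        nlinarith
      omega
    have h2 : ζ ^ P0 = 1 := by
      rw [hζ, ← s6a_ee_nat_mul, mul_div_cancel₀ _ hPr]
      exact s4a_ee_int z
    have h3 := mul_geom_sum ζ P0
    rw [h2, sub_self] at h3
    exact (mul_eq_zero.mp h3).resolve_left (sub_ne_zero.mpr h1)

theorem s6a_ee_sum {ι : Type*} (s : Finset ι) (f : ι → ℝ) : ee (∑ c ∈ s, f c) = ∏ c ∈ s, ee (f c) := by
  classical
  induction s using Finset.induction_on with
  | empty => simp [s4a_ee_zero]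
  | insert a s ha ih => rw [Finset.sum_insert ha, Finset.prod_insert ha, s4a_ee_add, ih]

theorem s6a_root_sum_d {d : ℕ} (P0 : ℕ) (z : Fin d → ℤ) (hz : ∀ c, |z c| < (P0 : ℤ)) :
    ∑ m : Fin d → Fin P0, ee ((∑ c, ((m c : ℕ) : ℝ) * (z c : ℝ)) / (P0 : ℝ)) = if z = 0 then (P0 : ℂ) ^ d else 0 := by
  have e : ∀ m : Fin d → Fin P0, ee ((∑ c, ((m c : ℕ) : ℝ) * (z c : ℝ)) / (P0 : ℝ)) =
      ∏ c, ee (((m c : ℕ) : ℝ) * (z c : ℝ) / (P0 : ℝ)) := by
    intro m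
    rw [Finset.sum_div, s6a_ee_sum]
  simp only [e]
  have h := (Finset.prod_univ_sum (fun _ : Fin d => (Finset.univ : Finset (Fin P0)))
    (fun c m => ee (((m : ℕ) : ℝ) * (z c : ℝ) / (P0 : ℝ)))).symm
  rw [Fintype.piFinset_univ] at h
  rw [h]
  simp only [s6a_root_sum P0 _ (hz _)]
  split_ifs with h0
  · subst h0
    simp
  · have : ∃ c, z c ≠ 0 := by
      by_contra hc
      push Not at hc
      exact h0 (funext hc)
    obtain ⟨c, hc⟩ := this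
    apply Finset.prod_eq_zero (Finset.mem_univ c)
    rw [if_neg hc]

theorem s6a_se0 (v : LocTag) (x t : ℝ) (P0 K : ℕ) (hP0 : 2 * K < P0) (N : Fin 4 → Finset (Fin v.dim → ℤ))
    (F : Fin 4 → (Fin v.dim → ℤ) → ℂ) (hk : ∀ n ∈ Fintype.piFinset N, ∀ l c, |carryK n l c| ≤ (K : ℤ)) :
    ∏ l, ∑ n ∈ N l, F l n =
      ∑ κ ∈ carryBox v.dim K ×ˢ carryBox v.dim K, ∑ m : (Fin v.dim → Fin P0) × (Fin v.dim → Fin P0),
        (((P0 : ℂ) ^ (2 * v.dim))⁻¹ *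
          ee (-(∑ c, (((m.1 c : ℕ) : ℝ) * (κ.1 c : ℝ) + ((m.2 c : ℕ) : ℝ) * (κ.2 c : ℝ))) / (P0 : ℝ))) *
        ∏ l : Fin 4, (ee (carryTau v κ l * (x + ((l : ℕ) : ℝ) * t)) *
          ∑ n ∈ N l, F l n * ee (-(((slotC l : ℚ) : ℝ) * tagPh v (x + ((l : ℕ) : ℝ) * t) n)) *
            ee ((∑ c, (carryMu (fun c => ((m.1 c : ℕ) : ℤ)) (fun c => ((m.2 c : ℕ) : ℤ)) l c : ℝ) * (n c : ℝ)) / (P0 : ℝ))) := by
  classical
  have hP0pos : (0 : ℝ) < (P0 : ℝ) := by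
    have : 0 < P0 := by omega
    exact_mod_cast this
  have hP0c : (P0 : ℂ) ≠ 0 := by
    have : P0 ≠ 0 := by omega
    exact_mod_cast this
  -- the weight of a fixed quadruple of lifts
  let W : ((Fin v.dim → ℤ) × (Fin v.dim → ℤ)) → ((Fin v.dim → Fin P0) × (Fin v.dim → Fin P0)) →
      (Fin 4 → Fin v.dim → ℤ) → ℂ := fun κ m n =>
    (((P0 : ℂ) ^ (2 * v.dim))⁻¹ *
      ee (-(∑ c, (((m.1 c : ℕ) : ℝ) * (κ.1 c : ℝ) + ((m.2 c : ℕ) : ℝ) * (κ.2 c : ℝ))) / (P0 : ℝ))) *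
    ((∏ l : Fin 4, ee (carryTau v κ l * (x + ((l : ℕ) : ℝ) * t))) *
      (∏ l : Fin 4, ee (-(((slotC l : ℚ) : ℝ) * tagPh v (x + ((l : ℕ) : ℝ) * t) (n l)))) *
      ∏ l : Fin 4, ee ((∑ c, (carryMu (fun c => ((m.1 c : ℕ) : ℤ)) (fun c => ((m.2 c : ℕ) : ℤ)) l c : ℝ) *
        (n l c : ℝ)) / (P0 : ℝ)))
  have hfac : ∀ κ m, (((P0 : ℂ) ^ (2 * v.dim))⁻¹ *
          ee (-(∑ c, (((m.1 c : ℕ) : ℝ) * (κ.1 c : ℝ) + ((m.2 c : ℕ) : ℝ) * (κ.2 c : ℝ))) / (P0 : ℝ))) *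
        ∏ l : Fin 4, (ee (carryTau v κ l * (x + ((l : ℕ) : ℝ) * t)) *
          ∑ n ∈ N l, F l n * ee (-(((slotC l : ℚ) : ℝ) * tagPh v (x + ((l : ℕ) : ℝ) * t) n)) *
            ee ((∑ c, (carryMu (fun c => ((m.1 c : ℕ) : ℤ)) (fun c => ((m.2 c : ℕ) : ℤ)) l c : ℝ) * (n c : ℝ)) / (P0 : ℝ))) =
      ∑ n ∈ Fintype.piFinset N, (∏ l, F l (n l)) * W κ m n := by
    intro κ m
    rw [Finset.prod_mul_distrib, Finset.prod_univ_sum, Finset.mul_sum, Finset.mul_sum]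
    apply Finset.sum_congr rfl
    intro n _
    simp only [Finset.prod_mul_distrib, W]
    ring
  simp only [hfac]
  have hswap : ∑ κ ∈ carryBox v.dim K ×ˢ carryBox v.dim K, ∑ m : (Fin v.dim → Fin P0) × (Fin v.dim → Fin P0),
      ∑ n ∈ Fintype.piFinset N, (∏ l, F l (n l)) * W κ m n =
      ∑ n ∈ Fintype.piFinset N, (∏ l, F l (n l)) *
        ∑ κ ∈ carryBox v.dim K ×ˢ carryBox v.dim K, ∑ m : (Fin v.dim → Fin P0) × (Fin v.dim → Fin P0), W κ m n := by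
    simp only [Finset.mul_sum]
    symm
    rw [Finset.sum_comm]
    apply Finset.sum_congr rfl
    intro κ _
    exact Finset.sum_comm
  rw [hswap, Finset.prod_univ_sum]
  apply Finset.sum_congr rfl
  intro n hn
  -- the total weight is one
  set k2 := carryK n 2 with hk2
  set k3 := carryK n 3 with hk3
  have hmem : (k2, k3) ∈ carryBox v.dim K ×ˢ carryBox v.dim K := by
    simp only [Finset.mem_product, carryBox, Fintype.mem_piFinset, Finset.mem_Icc]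
    exact ⟨fun c => abs_le.mp (hk n hn 2 c), fun c => abs_le.mp (hk n hn 3 c)⟩
  have hm : ∀ κ ∈ carryBox v.dim K ×ˢ carryBox v.dim K,
      ∑ m : (Fin v.dim → Fin P0) × (Fin v.dim → Fin P0), W κ m n =
      ((∏ l : Fin 4, ee (carryTau v κ l * (x + ((l : ℕ) : ℝ) * t))) *
        (∏ l : Fin 4, ee (-(((slotC l : ℚ) : ℝ) * tagPh v (x + ((l : ℕ) : ℝ) * t) (n l))))) *
        (if κ = (k2, k3) then 1 else 0) := by
    intro κ hκ
    simp only [Finset.mem_product, carryBox, Fintype.mem_piFinset, Finset.mem_Icc] at hκ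
    have hW : ∀ m : (Fin v.dim → Fin P0) × (Fin v.dim → Fin P0), W κ m n =
        (((∏ l : Fin 4, ee (carryTau v κ l * (x + ((l : ℕ) : ℝ) * t))) *
        (∏ l : Fin 4, ee (-(((slotC l : ℚ) : ℝ) * tagPh v (x + ((l : ℕ) : ℝ) * t) (n l))))) *
          ((P0 : ℂ) ^ (2 * v.dim))⁻¹) *
        (ee ((∑ c, ((m.1 c : ℕ) : ℝ) * (((k2 - κ.1) c : ℤ) : ℝ)) / (P0 : ℝ)) *
          ee ((∑ c, ((m.2 c : ℕ) : ℝ) * (((k3 - κ.2) c : ℤ) : ℝ)) / (P0 : ℝ))) := by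
      intro m
      have e1 : ∏ l : Fin 4, ee ((∑ c, (carryMu (fun c => ((m.1 c : ℕ) : ℤ)) (fun c => ((m.2 c : ℕ) : ℤ)) l c : ℝ) *
          (n l c : ℝ)) / (P0 : ℝ)) =
          ee ((∑ c, (((m.1 c : ℕ) : ℝ) * (k2 c : ℝ) + ((m.2 c : ℕ) : ℝ) * (k3 c : ℝ))) / (P0 : ℝ)) := by
        rw [← s6a_ee_sum, ← Finset.sum_div]
        congr 2
        have := s6a_carry_mu (fun c => ((m.1 c : ℕ) : ℤ)) (fun c => ((m.2 c : ℕ) : ℤ)) n
        have h2 := congrArg (fun z : ℤ => (z : ℝ)) this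
        push_cast at h2
        rw [← h2]
      have e2 : ee (-(∑ c, (((m.1 c : ℕ) : ℝ) * (κ.1 c : ℝ) + ((m.2 c : ℕ) : ℝ) * (κ.2 c : ℝ))) / (P0 : ℝ)) *
          ee ((∑ c, (((m.1 c : ℕ) : ℝ) * (k2 c : ℝ) + ((m.2 c : ℕ) : ℝ) * (k3 c : ℝ))) / (P0 : ℝ)) =
          ee ((∑ c, ((m.1 c : ℕ) : ℝ) * (((k2 - κ.1) c : ℤ) : ℝ)) / (P0 : ℝ)) *
          ee ((∑ c, ((m.2 c : ℕ) : ℝ) * (((k3 - κ.2) c : ℤ) : ℝ)) / (P0 : ℝ)) := by
        rw [← s4a_ee_add, ← s4a_ee_add]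
        congr 1
        rw [← add_div, ← add_div, ← Finset.sum_add_distrib, ← Finset.sum_neg_distrib, ← Finset.sum_add_distrib]
        congr 1
        apply Finset.sum_congr rfl
        intro c _
        simp only [Pi.sub_apply]
        push_cast
        ring
      simp only [W]
      rw [e1]
      linear_combination ((P0 : ℂ) ^ (2 * v.dim))⁻¹ * ((∏ l : Fin 4, ee (carryTau v κ l * (x + ((l : ℕ) : ℝ) * t))) *
        (∏ l : Fin 4, ee (-(((slotC l : ℚ) : ℝ) * tagPh v (x + ((l : ℕ) : ℝ) * t) (n l))))) * e2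
    simp only [hW]
    rw [← Finset.mul_sum, Fintype.sum_prod_type]
    simp only [← Finset.mul_sum]
    rw [← Finset.sum_mul]
    have hz2 : ∀ c, |(k2 - κ.1) c| < (P0 : ℤ) := by
      intro c
      have h1 : -(K : ℤ) ≤ k2 c ∧ k2 c ≤ K := abs_le.mp (hk n hn 2 c)
      have h2 := hκ.1 c
      simp only [Pi.sub_apply, abs_lt]
      constructor <;> omega
    have hz3 : ∀ c, |(k3 - κ.2) c| < (P0 : ℤ) := by
      intro c
      have h1 : -(K : ℤ) ≤ k3 c ∧ k3 c ≤ K := abs_le.mp (hk n hn 3 c)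
      have h2 := hκ.2 c
      simp only [Pi.sub_apply, abs_lt]
      constructor <;> omega
    rw [s6a_root_sum_d P0 _ hz2, s6a_root_sum_d P0 _ hz3]
    by_cases h : κ = (k2, k3)
    · have h1 : k2 - κ.1 = 0 := by rw [h]; simp
      have h2 : k3 - κ.2 = 0 := by rw [h]; simp
      rw [if_pos h1, if_pos h2, if_pos h, mul_assoc, ← pow_add]
      congr 1
      rw [two_mul, inv_mul_cancel₀ (pow_ne_zero _ hP0c)]
    · rw [if_neg h]
      have : ¬ (k2 - κ.1 = 0 ∧ k3 - κ.2 = 0) := by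
        rintro ⟨h1, h2⟩
        apply h
        ext1
        · exact (sub_eq_zero.mp h1).symm
        · exact (sub_eq_zero.mp h2).symm
      rw [not_and_or] at this
      rcases this with h1 | h1
      · rw [if_neg h1]; ring
      · rw [if_neg h1]; ring
  rw [Finset.sum_congr rfl hm, Finset.sum_eq_single_of_mem (k2, k3) hmem
    (fun κ _ hne => by rw [if_neg hne, mul_zero]), if_pos rfl, mul_one, ← s6a_ee_sum, ← s6a_ee_sum, ← s4a_ee_add]
  have hzero : ∑ l : Fin 4, carryTau v (k2, k3) l * (x + ((l : ℕ) : ℝ) * t) +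
      ∑ l : Fin 4, -(((slotC l : ℚ) : ℝ) * tagPh v (x + ((l : ℕ) : ℝ) * t) (n l)) = 0 := by
    rw [Finset.sum_neg_distrib, s6a_carry_id, ← sub_eq_add_neg, sub_eq_zero]
    apply Finset.sum_congr rfl
    intro l _
    have hkl : (fun c => ((![0, 0, k2 c, k3 c] l : ℤ) : ℝ)) = fun c => (carryK n l c : ℝ) := by
      funext c
      fin_cases l
      · simp [carryK]
      · simp [carryK]
      · simp [hk2]
      · simp [hk3]
    simp only [carryTau]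
    rw [hkl, mul_assoc]
    congr 1
    have := s4a_bil_smul_left v.C (x + ((l : ℕ) : ℝ) * t) v.th (fun c => (carryK n l c : ℝ))
    rw [mul_comm, ← this]
    congr 1
    funext c
    ring
  rw [hzero, s4a_ee_zero, mul_one]

end Claimed.Agent.R258
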