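/-
Row 258 (S0498), block [S6a] (architect helper70).  LEAVES P-S6A-SRCBASIC (first four statements) and P-S6A-SRCFOURIER (`s6a_src_fourier`).
Mathlib + S6a/Defs, Tmpl + the STATEMENTS of S4a/{Br, Gev, Lat, LatFourier}.lean (black boxes).  No paper.

THE SOURCE FACTOR OF LEMMA 6.6.  `a` = source chart in the slot `i`, `v = a.tag i` (so `c_i v.C = a.C`, `c_i v.lam = a.lam`, `v.th = a.th`, `v.dim = a.d` by `rfl`).

PLAN.
 * `s6a_mem_boxN`: `Fintype.mem_piFinset`, `Finset.mem_Icc`, `abs_le`; `⌈u⌉ - K ≤ n ↔ u - K ≤ n` (`Int.ceil_le`, `Int.le_floor`, push_cast).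
 * `s6a_src_eval`: `c_i * tagPh (a.tag i) y n = a.lam y² + a.phase y n` (`s4a_bil_qsmul`, `slotC i ≠ 0`; `a.phase y n = s4a_bil a.C (θy) (θy - n)` by `rfl`); `Chart.eval` unfolds to
   `unit * ee (lam y² + bet y) * ∑' n, chi (θy - n) * ee (phase)`; the `tsum` is the sum over `N` (`tsum_eq_sum`, terms vanish off `N` by `Cplx.supp` and `hN`); `s4a_ee_add`, `Finset.mul_sum`.
 * `s6a_src_factor`: the two phases cancel (`s4a_ee_add`, `s4a_ee_zero`), `e(μ·n/P0) = e(ℓ·n/P0)` (`ℓ = resN P0 μ ≡ μ`), `ℓ·n/P0 = ℓ·θ y/P0 - ℓ·(θy - n)/P0`; `tsum_eq_sum` again.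
 * `s6a_src_fourier`: `perS a P0 ℓ y = s4a_latsum (fun _ => χ_ℓ) (θ y)`, `χ_ℓ x = chi x * ee (-(ℓ·x)/P0)`.  `s4a_cplx_iff` gives `s4a_Amp H (H^10) (H^10) chi`; `s4a_gev_ee_lin` with `σ = -ℓ/P0`, `D = max 1 d`
   (`∑|σ_c| ≤ d`); `s4a_Gev.mul`: `χ_ℓ ∈ Gev(univ, H^10 + 2π D, H^10)`.  `s4a_lattice_fourier` with `R = 1`, `K = H`, `m = 2 d`, `X = H^10 (H^10 + 2πD)^(2d) w(2d)` (also `≥ sup ‖χ_ℓ‖`);
   `s4a_lat_weighted` with `M = 0`: `∑ ‖A q‖ ≤ 4^d (2H+3)^d X`.  Arithmetic with `L = log H ≥ 2`, `d ≤ L`: `4^d (2H+3)^d ≤ exp (1.4 L + 2L²)`, `H^10 + 2πD ≤ H^11`, `(H^11)^(2d) ≤ exp (22 L²)`,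
   `w(2d) ≤ exp (10 (2L+1)²)` (`s4a_w_le_exp`); total `≤ exp (100 L²)`.
-/
import Claimed.Agent.R258.S6a.Tmpl
import Claimed.Agent.R258.S4a.LatFourier

set_option autoImplicit false
open scoped ComplexConjugate

namespace Claimed.Agent.R258

/-- the lattice points `n` with `|θ y - n|_∞ ≤ K` -/
noncomputable def boxN (v : LocTag) (K : ℕ) (y : ℝ) : Finset (Fin v.dim → ℤ) :=
  Fintype.piFinset fun c => Finset.Icc (⌈v.th c * y⌉ - (K : ℤ)) (⌊v.th c * y⌋ + (K : ℤ))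

/-- the periodized source amplitude twisted by a character -/
noncomputable def perS (a : Chart) (P0 : ℕ) (l : Fin a.d → ℕ) (y : ℝ) : ℂ :=
  ∑' n : Fin a.d → ℤ, a.chi (fun c => a.th c * y - (n c : ℝ)) *
    ee (-(∑ c, (l c : ℝ) * (a.th c * y - (n c : ℝ))) / (P0 : ℝ))

/-- `ℓ¹` bound of the Fourier coefficients of the source factor -/
noncomputable def srcA (H : ℝ) : ℝ := Real.exp (100 * (Real.log H) ^ 2)

theorem s6a_mem_boxN (v : LocTag) (K : ℕ) (y : ℝ) (n : Fin v.dim → ℤ) :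
    n ∈ boxN v K y ↔ ∀ c, |v.th c * y - (n c : ℝ)| ≤ K := by
  unfold boxN
  rw [Fintype.mem_piFinset]
  refine forall_congr' fun c => ?_
  rw [Finset.mem_Icc, abs_le, sub_le_iff_le_add, Int.ceil_le, ← sub_le_iff_le_add, Int.le_floor]
  push_cast
  constructor
  · rintro ⟨h1, h2⟩; constructor <;> linarith
  · rintro ⟨h1, h2⟩; constructor <;> linarith

theorem s6a_tagPh_mul (a : Chart) (i : Fin 4) (y : ℝ) (n : Fin a.d → ℤ) :
    ((slotC i : ℚ) : ℝ) * tagPh (a.tag i) y n = a.lam * y ^ 2 + a.phase y n := by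
  have hc : ((slotC i : ℚ) : ℝ) ≠ 0 := by
    fin_cases i <;> norm_num [slotC]
  have e1 : tagPh (a.tag i) y n = a.lam / ((slotC i : ℚ) : ℝ) * y ^ 2 +
      s4a_bil ((slotC i)⁻¹ • a.C) (fun c => a.th c * y) (fun c => a.th c * y - (n c : ℝ)) := rfl
  have e2 : a.phase y n = s4a_bil a.C (fun c => a.th c * y) (fun c => a.th c * y - (n c : ℝ)) := rfl
  rw [e1, e2, s4a_bil_qsmul]
  push_cast
  field_simp

theorem s6a_src_eval (a : Chart) (H : ℝ) (ha : a.Cplx H) (i : Fin 4) (y : ℝ) (N : Finset (Fin a.d → ℤ))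
    (hN : ∀ n : Fin a.d → ℤ, (∀ c, |a.th c * y - (n c : ℝ)| ≤ H) → n ∈ N) :
    a.eval y = a.unit * ee (a.bet * y) * ∑ n ∈ N, a.chi (fun c => a.th c * y - (n c : ℝ)) *
      ee (((slotC i : ℚ) : ℝ) * tagPh (a.tag i) y n) := by
  have hz : ∀ n ∉ N, a.chi (fun c => a.th c * y - (n c : ℝ)) * ee (a.phase y n) = 0 := by
    intro n hn
    have : a.chi (fun c => a.th c * y - (n c : ℝ)) = 0 := by
      by_contra hne
      exact hn (hN n (ha.supp _ hne))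
    rw [this, zero_mul]
  unfold Chart.eval
  rw [tsum_eq_sum hz, s4a_ee_add, Finset.mul_sum, Finset.mul_sum]
  refine Finset.sum_congr rfl fun n _ => ?_
  rw [s6a_tagPh_mul a i y n, s4a_ee_add]
  ring

theorem s6a_src_factor (a : Chart) (H : ℝ) (ha : a.Cplx H) (i : Fin 4) (P0 : ℕ) (hP0 : 0 < P0) (μ : Fin a.d → ℤ)
    (τ y : ℝ) (N : Finset (Fin a.d → ℤ)) (hN : ∀ n : Fin a.d → ℤ, (∀ c, |a.th c * y - (n c : ℝ)| ≤ H) → n ∈ N) :
    ee (τ * y) * ∑ n ∈ N, (a.chi (fun c => a.th c * y - (n c : ℝ)) * ee (((slotC i : ℚ) : ℝ) * tagPh (a.tag i) y n)) *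
        ee (-(((slotC i : ℚ) : ℝ) * tagPh (a.tag i) y n)) * ee ((∑ c, (μ c : ℝ) * (n c : ℝ)) / (P0 : ℝ)) =
      ee ((τ + (∑ c, (resN P0 μ c : ℝ) * a.th c) / (P0 : ℝ)) * y) * perS a P0 (resN P0 μ) y := by
  have hP : (P0 : ℝ) ≠ 0 := by exact_mod_cast hP0.ne'
  have hz : ∀ n ∉ N, a.chi (fun c => a.th c * y - (n c : ℝ)) *
      ee (-(∑ c, (resN P0 μ c : ℝ) * (a.th c * y - (n c : ℝ))) / (P0 : ℝ)) = 0 := by
    intro n hn
    have : a.chi (fun c => a.th c * y - (n c : ℝ)) = 0 := by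
      by_contra hne
      exact hn (hN n (ha.supp _ hne))
    rw [this, zero_mul]
  unfold perS
  rw [tsum_eq_sum hz, Finset.mul_sum, Finset.mul_sum]
  refine Finset.sum_congr rfl fun n _ => ?_
  -- the integer part
  have hres : ∀ c, (μ c : ℝ) = (resN P0 μ c : ℝ) + (P0 : ℝ) * ((μ c / (P0 : ℤ) : ℤ) : ℝ) := by
    intro c
    have h0 : 0 ≤ μ c % (P0 : ℤ) := Int.emod_nonneg _ (by exact_mod_cast hP0.ne')
    have h1 : ((resN P0 μ c : ℕ) : ℤ) = μ c % (P0 : ℤ) := Int.toNat_of_nonneg h0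
    have h2 : μ c = ((resN P0 μ c : ℕ) : ℤ) + (P0 : ℤ) * (μ c / (P0 : ℤ)) := by
      rw [h1]; exact (Int.emod_add_mul_ediv _ _).symm
    have h3 : ((μ c : ℤ) : ℝ) = ((((resN P0 μ c : ℕ) : ℤ) + (P0 : ℤ) * (μ c / (P0 : ℤ)) : ℤ) : ℝ) := by rw [← h2]
    rw [h3]
    push_cast
    ring
  have e1 : (∑ c, (μ c : ℝ) * (n c : ℝ)) / (P0 : ℝ) =
      (∑ c, (resN P0 μ c : ℝ) * (n c : ℝ)) / (P0 : ℝ) + ((∑ c, (μ c / (P0 : ℤ)) * n c : ℤ) : ℝ) := by
    push_cast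
    rw [div_add' _ _ _ hP, Finset.sum_mul, ← Finset.sum_add_distrib]
    congr 1
    refine Finset.sum_congr rfl fun c _ => ?_
    rw [hres c]
    ring
  rw [e1, s4a_ee_add_int]
  have e2 : (∑ c, (resN P0 μ c : ℝ) * (n c : ℝ)) / (P0 : ℝ) =
      (∑ c, (resN P0 μ c : ℝ) * a.th c) / (P0 : ℝ) * y +
        -(∑ c, (resN P0 μ c : ℝ) * (a.th c * y - (n c : ℝ))) / (P0 : ℝ) := by
    rw [div_mul_eq_mul_div, ← add_div, Finset.sum_mul, ← Finset.sum_neg_distrib, ← Finset.sum_add_distrib]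
    congr 1
    refine Finset.sum_congr rfl fun c _ => ?_
    ring
  rw [e2, add_mul, s4a_ee_add, s4a_ee_add]
  have e3 : ee (((slotC i : ℚ) : ℝ) * tagPh (a.tag i) y n) * ee (-(((slotC i : ℚ) : ℝ) * tagPh (a.tag i) y n)) = 1 := by
    rw [← s4a_ee_add, add_neg_cancel, s4a_ee_zero]
  calc ee (τ * y) * (a.chi (fun c => a.th c * y - (n c : ℝ)) * ee (((slotC i : ℚ) : ℝ) * tagPh (a.tag i) y n) *
        ee (-(((slotC i : ℚ) : ℝ) * tagPh (a.tag i) y n)) *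
        (ee ((∑ c, (resN P0 μ c : ℝ) * a.th c) / (P0 : ℝ) * y) *
          ee (-(∑ c, (resN P0 μ c : ℝ) * (a.th c * y - (n c : ℝ))) / (P0 : ℝ))))
      = ee (τ * y) * (a.chi (fun c => a.th c * y - (n c : ℝ)) * (ee (((slotC i : ℚ) : ℝ) * tagPh (a.tag i) y n) *
        ee (-(((slotC i : ℚ) : ℝ) * tagPh (a.tag i) y n))) *
        (ee ((∑ c, (resN P0 μ c : ℝ) * a.th c) / (P0 : ℝ) * y) *
          ee (-(∑ c, (resN P0 μ c : ℝ) * (a.th c * y - (n c : ℝ))) / (P0 : ℝ)))) := by ring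
    _ = _ := by rw [e3]; ring

/-- the twisted amplitude `χ_ℓ x = chi x * e(-(ℓ·x)/P0)` -/
noncomputable def srcChi (a : Chart) (P0 : ℕ) (l : Fin a.d → ℕ) (x : Fin a.d → ℝ) : ℂ :=
  a.chi x * ee (-(∑ c, (l c : ℝ) * x c) / (P0 : ℝ))

theorem s6a_perS_eq (a : Chart) (P0 : ℕ) (l : Fin a.d → ℕ) (y : ℝ) :
    perS a P0 l y = s4a_latsum (fun _ => srcChi a P0 l) (fun c => a.th c * y) := rfl

theorem s6a_srcChi_supp (a : Chart) (H : ℝ) (ha : a.Cplx H) (P0 : ℕ) (l : Fin a.d → ℕ) (x : Fin a.d → ℝ)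
    (hx : srcChi a P0 l x ≠ 0) : ∀ i, |x i| ≤ H := by
  apply ha.supp x
  intro h0
  apply hx
  unfold srcChi
  rw [h0, zero_mul]

theorem s6a_srcChi_ee (a : Chart) (P0 : ℕ) (l : Fin a.d → ℕ) (x : Fin a.d → ℝ) :
    -(∑ c, (l c : ℝ) * x c) / (P0 : ℝ) = s4a_dot (fun c => -(l c : ℝ) / (P0 : ℝ)) x + 0 := by
  unfold s4a_dot
  rw [add_zero, ← Finset.sum_neg_distrib, Finset.sum_div]
  refine Finset.sum_congr rfl fun c _ => ?_
  ring

theorem s6a_srcChi_gev (a : Chart) (H : ℝ) (ha : a.Cplx H) (P0 : ℕ) (hP0 : 0 < P0) (l : Fin a.d → ℕ)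
    (hl : ∀ c, l c < P0) :
    s4a_Gev (Set.univ : Set (Fin a.d → ℝ)) (H ^ 10 + 2 * Real.pi * max 1 (a.d : ℝ)) (H ^ 10) (srcChi a P0 l) := by
  have hH0 : 0 ≤ H := (Real.exp_pos 2).le.trans ha.H_ge
  have hP : (0 : ℝ) < P0 := by exact_mod_cast hP0
  have h1 := ((s4a_cplx_iff a H).1 ha).2.2.2.1.gev
  have hs : ∑ c, |(-(l c : ℝ) / (P0 : ℝ))| ≤ max 1 (a.d : ℝ) := by
    calc ∑ c, |(-(l c : ℝ) / (P0 : ℝ))| ≤ ∑ _c : Fin a.d, (1 : ℝ) := by
          apply Finset.sum_le_sum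
          intro c _
          rw [abs_div, abs_neg, abs_of_nonneg (Nat.cast_nonneg _), abs_of_pos hP, div_le_one hP]
          exact_mod_cast (hl c).le
      _ = a.d := by simp
      _ ≤ _ := le_max_right _ _
  have h2 := s4a_gev_ee_lin (fun c => -(l c : ℝ) / (P0 : ℝ)) 0 (max 1 (a.d : ℝ)) (le_max_left _ _) hs
  have h3 := h1.mul (by positivity) (by positivity) (by positivity) zero_le_one h2
  rw [mul_one] at h3
  refine s4a_gev_iff.2 (gevw_congr (s4a_gev_iff.1 h3) fun x => ?_)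
  unfold srcChi
  rw [s6a_srcChi_ee]

open scoped ContDiff in
theorem s6a_srcChi_contDiff (a : Chart) (H : ℝ) (ha : a.Cplx H) (P0 : ℕ) (l : Fin a.d → ℕ) :
    ContDiff ℝ ∞ (srcChi a P0 l) := by
  unfold srcChi
  refine ha.smooth.mul (gev_ee_contDiff.comp ?_)
  fun_prop

theorem s6a_perS_continuous (a : Chart) (H : ℝ) (ha : a.Cplx H) (P0 : ℕ) (l : Fin a.d → ℕ) :
    Continuous (perS a P0 l) := by
  have h1 := (s4a_latsum_contDiff H (fun _ => srcChi a P0 l) (fun _ => s6a_srcChi_contDiff a H ha P0 l)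
    (fun _ => s6a_srcChi_supp a H ha P0 l)).continuous
  have h2 : Continuous fun y : ℝ => (fun c => a.th c * y : Fin a.d → ℝ) := by fun_prop
  have h3 := h1.comp h2
  have e : perS a P0 l = (s4a_latsum fun _ => srcChi a P0 l) ∘ fun y : ℝ => (fun c => a.th c * y : Fin a.d → ℝ) :=
    funext fun y => s6a_perS_eq a P0 l y
  rw [e]
  exact h3

theorem s6a_pow_le_exp {a t : ℝ} (ha : 0 ≤ a) (h : a ≤ Real.exp t) (n : ℕ) : a ^ n ≤ Real.exp (n * t) := by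
  rw [Real.exp_nat_mul]
  exact pow_le_pow_left₀ ha h n

/-- the numerical part of `s6a_src_fourier` -/
theorem s6a_src_num {d : ℕ} {H : ℝ} (hH : Real.exp 2 ≤ H) (hd : (d : ℝ) ≤ Real.log H) :
    4 ^ d * ((2 * H + 3) ^ d * (H ^ 10 * (H ^ 10 + 2 * Real.pi * max 1 (d : ℝ)) ^ (2 * d) * s4a_w (2 * d))) ≤ srcA H := by
  have hd0 : (0 : ℝ) ≤ d := Nat.cast_nonneg d
  have hH1 : 1 ≤ H := le_trans (Real.one_le_exp (by norm_num)) hH
  have hH0 : 0 < H := by linarith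
  set L := Real.log H with hL
  have hHL : H = Real.exp L := (Real.exp_log hH0).symm
  have hL2 : 2 ≤ L := by
    rw [hL, Real.le_log_iff_exp_le hH0]; exact hH
  have he2 : (7 : ℝ) ≤ Real.exp 2 := by
    have h27 : (2.7 : ℝ) ≤ Real.exp 1 := by have := Real.exp_one_gt_d9; linarith
    have : Real.exp 2 = Real.exp 1 * Real.exp 1 := by rw [← Real.exp_add]; norm_num
    rw [this]
    nlinarith
  have hH7 : 7 ≤ H := he2.trans hH
  have f1 : (4 : ℝ) ^ d ≤ Real.exp (d * 2) := s6a_pow_le_exp (by norm_num) (by linarith) d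
  have h2H : 2 * H + 3 ≤ Real.exp (2 * L) := by
    have : Real.exp (2 * L) = H * H := by rw [two_mul, Real.exp_add, ← hHL]
    rw [this]; nlinarith
  have f2 : (2 * H + 3) ^ d ≤ Real.exp (d * (2 * L)) := s6a_pow_le_exp (by positivity) h2H d
  have f3 : H ^ 10 ≤ Real.exp ((10 : ℕ) * L) := s6a_pow_le_exp hH0.le (le_of_eq hHL) 10
  have hA : H ^ 10 + 2 * Real.pi * max 1 (d : ℝ) ≤ Real.exp (11 * L) := by
    have e11 : Real.exp (11 * L) = H ^ 10 * H := by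
      rw [← pow_succ, hHL, ← Real.exp_nat_mul]; norm_num
    rw [e11]
    have hpi : 2 * Real.pi ≤ 7 := by linarith [Real.pi_lt_d2]
    have hm : max 1 (d : ℝ) ≤ H := by
      apply max_le hH1
      have := Real.add_one_le_exp L
      rw [← hHL] at this
      linarith
    have b1 : 2 * Real.pi * max 1 (d : ℝ) ≤ 7 * H := mul_le_mul hpi hm (by positivity) (by norm_num)
    have b2 : H ^ 2 ≤ H ^ 10 := pow_le_pow_right₀ hH1 (by norm_num)
    have b3 : 7 * H ≤ H ^ 2 := by nlinarith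
    have b4 : H ^ 10 * 6 ≤ H ^ 10 * (H - 1) := mul_le_mul_of_nonneg_left (by linarith) (by positivity)
    nlinarith
  have f4 : (H ^ 10 + 2 * Real.pi * max 1 (d : ℝ)) ^ (2 * d) ≤ Real.exp (((2 * d : ℕ) : ℝ) * (11 * L)) :=
    s6a_pow_le_exp (by positivity) hA (2 * d)
  have f5 := s4a_w_le_exp (2 * d)
  have hw0 := (s4a_w_pos (2 * d)).le
  have hprod : 4 ^ d * ((2 * H + 3) ^ d * (H ^ 10 * (H ^ 10 + 2 * Real.pi * max 1 (d : ℝ)) ^ (2 * d) * s4a_w (2 * d))) ≤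
      Real.exp (d * 2) * (Real.exp (d * (2 * L)) * (Real.exp ((10 : ℕ) * L) *
        Real.exp (((2 * d : ℕ) : ℝ) * (11 * L)) * Real.exp (10 * (((2 * d : ℕ) : ℝ) + 1) ^ 2))) := by
    gcongr
  refine hprod.trans ?_
  rw [← Real.exp_add, ← Real.exp_add, ← Real.exp_add, ← Real.exp_add]
  unfold srcA
  apply Real.exp_le_exp.mpr
  have hdL : (d : ℝ) * L ≤ L * L := mul_le_mul_of_nonneg_right hd (by linarith)
  have hdd : (d : ℝ) * d ≤ L * L := mul_le_mul hd hd hd0 (by linarith)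
  have hLL : 2 * L ≤ L * L := by nlinarith
  push_cast
  nlinarith

/-- the source factor is an absolutely convergent sum of linear modulations, uniformly in `P0` and the residue -/
theorem s6a_src_fourier (a : Chart) (H : ℝ) (ha : a.Cplx H) (P0 : ℕ) (hP0 : 0 < P0) (l : Fin a.d → ℕ)
    (hl : ∀ c, l c < P0) :
    ∃ A : (Fin a.d → ℤ) → ℂ, Summable (fun q => ‖A q‖) ∧ ∑' q, ‖A q‖ ≤ srcA H ∧
      ∀ y, HasSum (fun q : Fin a.d → ℤ => A q * ee ((∑ c, (q c : ℝ) * a.th c) * y)) (perS a P0 l y) := by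
  have hH0 : 0 < H := (Real.exp_pos 2).trans_le ha.H_ge
  have hH1 : 1 ≤ H := le_trans (Real.one_le_exp (by norm_num)) ha.H_ge
  have hg := s6a_srcChi_gev a H ha P0 hP0 l hl
  set A' : ℝ := H ^ 10 + 2 * Real.pi * max 1 (a.d : ℝ) with hA'
  have hA'1 : 1 ≤ A' := by
    have h1 : (1 : ℝ) ≤ H ^ 10 := one_le_pow₀ hH1
    have h2 : 0 ≤ 2 * Real.pi * max 1 (a.d : ℝ) := by positivity
    linarith
  set X : ℝ := H ^ 10 * A' ^ (2 * a.d) * s4a_w (2 * a.d) with hX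
  have hX0 : 0 ≤ X := by have := s4a_w_pos (2 * a.d); positivity
  have hBX : H ^ 10 ≤ X := by
    have h1 : (1 : ℝ) ≤ A' ^ (2 * a.d) := one_le_pow₀ hA'1
    calc H ^ 10 = H ^ 10 * 1 * 1 := by ring
      _ ≤ X := mul_le_mul (mul_le_mul_of_nonneg_left h1 (by positivity)) (s4a_one_le_w _) (by norm_num) (by positivity)
  obtain ⟨A, hA1, hA2⟩ := s4a_lattice_fourier 1 (le_refl 1) H hH0.le (fun _ => srcChi a P0 l) (fun _ _ => rfl)
    (fun _ => hg.smooth) (fun _ => s6a_srcChi_supp a H ha P0 l) (2 * a.d) (by rw [Fintype.card_fin]) X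
    (fun _ x => (gevw_norm_le s4a_wt (s4a_gev_iff.1 hg) (Set.mem_univ x)).trans hBX)
    (fun _ x => hg.bound (2 * a.d) x (Set.mem_univ x))
  simp only [Nat.cast_one, one_pow, mul_one, div_one, Fintype.card_fin] at hA1 hA2
  obtain ⟨hs, ht⟩ := s4a_lat_weighted A 0 ((2 * H + 3) ^ a.d * X) (by positivity) (fun ℓ => by
    rw [zero_add, Fintype.card_fin]; exact hA1 ℓ)
  simp only [pow_zero, mul_one, Fintype.card_fin] at hs ht
  refine ⟨A, hs, ht.trans (s6a_src_num ha.H_ge ha.dim), fun y => ?_⟩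
  have h := hA2 fun c => a.th c * y
  rw [← s6a_perS_eq] at h
  have e : (fun q : Fin a.d → ℤ => A q * ee ((∑ c, (q c : ℝ) * a.th c) * y)) =
      fun ℓ : Fin a.d → ℤ => A ℓ * ee (∑ x, (ℓ x : ℝ) * (a.th x * y)) := by
    funext q
    congr 2
    rw [Finset.sum_mul]
    refine Finset.sum_congr rfl fun c _ => ?_
    ring
  rw [e]
  exact h

end Claimed.Agent.R258
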