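/-
Row 258 (S0498), block [S6a] (architect helper70).  GLUE of Lemma 6.6, part 1: THE SOURCE EXPANSION.
On every progression `y_l = x + l t` the source atom `a.eval y_i` is a finite combination (total weight `(12⌈H⌉+1)^(2d)`) of
   `e(γ y_i) · perS(y_i) · ∏_{l ≠ i} conj (T_l (y_l))`,   `T_l` = templates of the tag `a.tag i` in the slot `l`.
-/
import Claimed.Agent.R258.S6a.Carry
import Claimed.Agent.R258.S6a.SrcBasic

set_option autoImplicit false
open scoped ComplexConjugate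

namespace Claimed.Agent.R258

/-- the period of the templates -/
noncomputable def stP0 (H : ℝ) : ℕ := 12 * ⌈H⌉₊ + 1

theorem s6a_stP0_pos (H : ℝ) : 0 < stP0 H := Nat.succ_pos _

theorem s6a_src_expand {ρ : ℝ → ℝ} (hρ : IsPou ρ) (a : Chart) (H : ℝ) (ha : a.Cplx H) (i : Fin 4) :
    ∃ (σ : Type) (S : Finset σ) (c : σ → ℂ) (γ : σ → ℝ) (ls : σ → Fin a.d → ℕ) (T : σ → Fin 4 → Chart),
      ∑ s ∈ S, ‖c s‖ ≤ ((stP0 H : ℕ) : ℝ) ^ (2 * a.d) ∧ (∀ s c', ls s c' < stP0 H) ∧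
      (∀ s l, ∃ (ℓ : Fin (a.tag i).dim → ℕ) (β : ℝ), (∀ c', ℓ c' < stP0 H) ∧ T s l = tmpl ρ (a.tag i) l (stP0 H) ℓ β) ∧
      ∀ x t : ℝ, a.eval (x + ((i : ℕ) : ℝ) * t) = ∑ s ∈ S, c s *
        (ee (γ s * (x + ((i : ℕ) : ℝ) * t)) * perS a (stP0 H) (ls s) (x + ((i : ℕ) : ℝ) * t)) *
        ∏ l ∈ Finset.univ.erase i, conj ((T s l).eval (x + ((l : ℕ) : ℝ) * t)) := by
  classical
  set v := a.tag i with hv
  set KH := ⌈H⌉₊ with hKH
  set K := 6 * KH with hK
  set P0 := stP0 H with hP0def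
  have hP0 : 0 < P0 := s6a_stP0_pos H
  have hP0K : P0 = 2 * K + 1 := by rw [hP0def, stP0, hK]; ring
  have hH0 : 0 < H := lt_of_lt_of_le (Real.exp_pos 2) ha.H_ge
  have hKH1 : 1 ≤ KH := Nat.one_le_iff_ne_zero.mpr (by
    rw [hKH]; exact (Nat.ceil_pos.mpr hH0).ne')
  have hHK : H ≤ (KH : ℝ) := Nat.le_ceil H
  let mu : ((Fin v.dim → Fin P0) × (Fin v.dim → Fin P0)) → Fin 4 → Fin v.dim → ℤ :=
    fun m l => carryMu (fun c => ((m.1 c : ℕ) : ℤ)) (fun c => ((m.2 c : ℕ) : ℤ)) l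
  let σ := ((Fin v.dim → ℤ) × (Fin v.dim → ℤ)) × ((Fin v.dim → Fin P0) × (Fin v.dim → Fin P0))
  let S : Finset σ := (carryBox v.dim K ×ˢ carryBox v.dim K) ×ˢ Finset.univ
  let c0 : σ → ℂ := fun s => ((P0 : ℂ) ^ (2 * v.dim))⁻¹ *
      ee (-(∑ c, (((s.2.1 c : ℕ) : ℝ) * (s.1.1 c : ℝ) + ((s.2.2 c : ℕ) : ℝ) * (s.1.2 c : ℝ))) / (P0 : ℝ))
  let bt : σ → Fin 4 → ℝ := fun s l => (∑ c, (resN P0 (mu s.2 l) c : ℝ) * v.th c) / (P0 : ℝ)
  refine ⟨σ, S, fun s => a.unit * c0 s, fun s => a.bet + (carryTau v s.1 i + bt s i), fun s => resN P0 (mu s.2 i),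
    fun s l => tmpl ρ v l P0 (resN P0 (mu s.2 l)) (-carryTau v s.1 l - bt s l), ?_, ?_, ?_, ?_⟩
  · -- total weight
    have hn : ∀ s ∈ S, ‖a.unit * c0 s‖ = (((P0 : ℝ) ^ (2 * v.dim))⁻¹) := by
      intro s _
      simp only [c0, norm_mul, ha.unit, one_mul, s4a_ee_norm, mul_one, norm_inv, norm_pow, Complex.norm_natCast]
    rw [Finset.sum_congr rfl hn, Finset.sum_const, nsmul_eq_mul]
    have hcard : S.card = ((2 * K + 1) ^ v.dim * (2 * K + 1) ^ v.dim) * (P0 ^ v.dim * P0 ^ v.dim) := by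
      show ((carryBox v.dim K ×ˢ carryBox v.dim K) ×ˢ
        (Finset.univ : Finset ((Fin v.dim → Fin P0) × (Fin v.dim → Fin P0)))).card = _
      rw [Finset.card_product, Finset.card_product, s6a_carryBox_card, Finset.card_univ, Fintype.card_prod,
        Fintype.card_fun, Fintype.card_fin, Fintype.card_fin]
    rw [hcard, ← hP0K]
    have hP0r : (0 : ℝ) < (P0 : ℝ) := by exact_mod_cast hP0
    push_cast
    have e : ((P0 : ℝ) ^ v.dim * (P0 : ℝ) ^ v.dim) = (P0 : ℝ) ^ (2 * v.dim) := by rw [← pow_add]; congr 1; ring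
    rw [e]
    have hne : (P0 : ℝ) ^ (2 * v.dim) ≠ 0 := (pow_pos hP0r _).ne'
    rw [mul_assoc, mul_inv_cancel₀ hne, mul_one]
    exact le_of_eq rfl
  · intro s c'
    exact s6a_resN_lt P0 hP0 _ c'
  · intro s l
    exact ⟨_, _, fun c' => s6a_resN_lt P0 hP0 _ c', rfl⟩
  · intro x t
    set y : Fin 4 → ℝ := fun l => x + ((l : ℕ) : ℝ) * t with hy
    let N : Fin 4 → Finset (Fin v.dim → ℤ) := fun l => boxN v KH (y l)
    let F : Fin 4 → (Fin v.dim → ℤ) → ℂ := fun l n =>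
      if l = i then a.chi (fun c => a.th c * y i - (n c : ℝ)) * ee (((slotC i : ℚ) : ℝ) * tagPh v (y i) n)
      else ((∏ c, ρ (v.th c * y l - (n c : ℝ)) : ℝ) : ℂ)
    have hk : ∀ n ∈ Fintype.piFinset N, ∀ l c, |carryK n l c| ≤ (K : ℤ) := by
      intro n hn l c
      rw [Fintype.mem_piFinset] at hn
      exact s6a_carry_bound v x t KH n (fun l' c' => (s6a_mem_boxN v KH (y l') (n l')).mp (hn l') c') l c
    have key := s6a_se0 v x t P0 K (by omega) N F hk
    have hNH : ∀ n : Fin a.d → ℤ, (∀ c, |a.th c * y i - (n c : ℝ)| ≤ H) → n ∈ N i := by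
      intro n hn
      exact (s6a_mem_boxN v KH (y i) n).mpr fun c => (hn c).trans hHK
    have hN1 : ∀ l, ∀ n : Fin v.dim → ℤ, (∀ c, |v.th c * y l - (n c : ℝ)| ≤ 1) → n ∈ N l := by
      intro l n hn
      exact (s6a_mem_boxN v KH (y l) n).mpr fun c => (hn c).trans (by exact_mod_cast hKH1)
    -- left side
    have hL : ∏ l, ∑ n ∈ N l, F l n = ∑ n ∈ N i, a.chi (fun c => a.th c * y i - (n c : ℝ)) *
        ee (((slotC i : ℚ) : ℝ) * tagPh v (y i) n) := by
      rw [← Finset.mul_prod_erase Finset.univ _ (Finset.mem_univ i)]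
      have h1 : ∏ l ∈ Finset.univ.erase i, ∑ n ∈ N l, F l n = 1 := by
        apply Finset.prod_eq_one
        intro l hl
        have hli : l ≠ i := Finset.ne_of_mem_erase hl
        simp only [F, if_neg hli]
        exact s6a_pou_sum hρ (fun c => v.th c * y l) (N l) (hN1 l)
      rw [h1, mul_one]
      simp only [F, if_true]
    -- right side, factor by factor
    have hR : ∀ (κ : (Fin v.dim → ℤ) × (Fin v.dim → ℤ)) (m : (Fin v.dim → Fin P0) × (Fin v.dim → Fin P0)),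
        ∏ l : Fin 4, (ee (carryTau v κ l * (x + ((l : ℕ) : ℝ) * t)) *
          ∑ n ∈ N l, F l n * ee (-(((slotC l : ℚ) : ℝ) * tagPh v (x + ((l : ℕ) : ℝ) * t) n)) *
            ee ((∑ c, (carryMu (fun c => ((m.1 c : ℕ) : ℤ)) (fun c => ((m.2 c : ℕ) : ℤ)) l c : ℝ) * (n c : ℝ)) / (P0 : ℝ))) =
        (ee ((carryTau v κ i + bt (κ, m) i) * y i) * perS a P0 (resN P0 (mu m i)) (y i)) *
          ∏ l ∈ Finset.univ.erase i,
            conj ((tmpl ρ v l P0 (resN P0 (mu m l)) (-carryTau v κ l - bt (κ, m) l)).eval (y l)) := by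
      intro κ m
      rw [← Finset.mul_prod_erase Finset.univ _ (Finset.mem_univ i)]
      congr 1
      · simp only [F, if_true]
        exact s6a_src_factor a H ha i P0 hP0 (mu m i) (carryTau v κ i) (y i) (N i) hNH
      · apply Finset.prod_congr rfl
        intro l hl
        have hli : l ≠ i := Finset.ne_of_mem_erase hl
        simp only [F, if_neg hli]
        exact s6a_tmpl_conj hρ v l P0 hP0 (mu m l) (carryTau v κ l) (y l) (N l) (hN1 l)
    have h2 : a.eval (y i) = a.unit * ee (a.bet * y i) * ∏ l, ∑ n ∈ N l, F l n := by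
      rw [hL]; exact s6a_src_eval a H ha i (y i) (N i) hNH
    show a.eval (y i) = _
    have hS : ∀ f : σ → ℂ, ∑ s ∈ S, f s = ∑ κ ∈ carryBox v.dim K ×ˢ carryBox v.dim K, ∑ m, f (κ, m) :=
      fun f => Finset.sum_product _ _ _
    rw [h2, key, Finset.mul_sum, hS]
    apply Finset.sum_congr rfl
    intro κ _
    rw [Finset.mul_sum]
    apply Finset.sum_congr rfl
    intro m _
    rw [hR κ m]
    have e : ee ((a.bet + (carryTau v κ i + bt (κ, m) i)) * y i) =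
        ee (a.bet * y i) * ee ((carryTau v κ i + bt (κ, m) i) * y i) := by
      rw [← s4a_ee_add]; congr 1; ring
    simp only [c0]
    rw [e]
    ring

end Claimed.Agent.R258
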