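/-
Row 258 (S0498), block [S6a] (architect helper70).  LEAF P-S6A-CONVMULT.  Mathlib + S6a/Bessel.lean (`s6a_besselZ`, black box) + `s4a_ee_*`.

**CONVOLUTION MULTIPLIER LEMMA** (compactly supported version; also for Lemma 4.6, helper78):
   `|∫∫ F(α u + β v) f(u) g(v) du dv| ≤ √(2/|αβ|) · sup_ξ |∫ F(y) e(-ξ y) dy| · ‖f‖₂ ‖g‖₂`,
 `F, g ∈ L²` supported in intervals, `f ∈ L²(ℝ)`, `F` measurable.

PROOF (only PARSEVAL ON AN INTERVAL from Mathlib: `tsum_sq_fourierCoeffOn` / `hasSum_sq_fourierCoeffOn`, and `s6a_besselZ`).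
 Put `H(y) = ∫ F(y + β v) g(v) dv`.
 (0) integrability on the product: `(u,v) ↦ F(αu+βv) f(u) g(v)` is a.e. strongly measurable (`hFm.comp (by fun_prop)`, `AEStronglyMeasurable.fst/.snd` -- in current Mathlib
     `AEStronglyMeasurable.comp_fst`, `.comp_snd`), and `∫ |g(v)| ∫ |F(αu+βv)| |f(u)| du dv ≤ ‖g‖₁ |α|^{-1/2} ‖F‖₂ ‖f‖₂` (`integrable_prod_iff'`;
     `g ∈ L¹` because it is in `L²` and supported in a bounded interval).
 (1) Fubini: `Λ = ∫ f(u) H(α u) du`; Cauchy-Schwarz: `|Λ| ≤ ‖f‖₂ (∫ |H(αu)|² du)^{1/2} = ‖f‖₂ |α|^{-1/2} (∫ |H|²)^{1/2}` (`integral_comp_mul_left`).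
 (2) `H` is measurable (as a parameter integral of a jointly measurable function: `StronglyMeasurable.integral_prod_right`), bounded: `|H(y)| ≤ ‖F‖₂ |β|^{-1/2}... ` -- simpler:
     `|H(y)| ≤ (∫|F(y+βv)|² dv)^{1/2} ‖g‖₂ = |β|^{-1/2} ‖F‖₂ ‖g‖₂`; and `H(y) ≠ 0` forces `y ∈ J`, `J` = the interval `[aF, aF+rF) - β [ag, ag+rg)` of length `T = rF + |β| rg`:
     `J = Ioc (a_J) (a_J + T)` up to end points (take `a_J = aF - β ag - max(β,0) rg`; the end points have measure zero, or enlarge: any `T' ≥ T` works with the same proof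
     as long as `T' ≤ 2 ...`; the constant below leaves room only for `r_g / T ≤ 1/|β|`, which holds for every `T' ≥ T`).
 (3) Parseval on `J`: `∫_J |H|² = T ∑_m |c_m|²`, `c_m = fourierCoeffOn H m = T⁻¹ ∫_J H(y) e(-m y/T) dy` (`fourierCoeffOn_eq_integral`, `fourier_coe_apply`).
 (4) Fubini + translation `y' = y + β v` (for `v ∈ supp g` the function `F(· + βv)` is supported in `J`):
     `∫_J H(y) e(-m y/T) dy = ∫ g(v) e(m β v/T) dv · ∫ F(y') e(-(m/T) y') dy'`, so `|c_m| ≤ T⁻¹ Mo |B_m|`, `B_m = ∫ g(v) e(m (β/T) v) dv`.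
 (5) `s6a_besselZ` (`σ = β/T`, interval `[ag, ag+rg)`): every finite sum `∑_{m ∈ S} |B_m|² ≤ (rg + T/|β|) ‖g‖₂² ≤ (2T/|β|) ‖g‖₂²`; hence the same for the `tsum`
     (`Summable.tsum_le_of_sum_le` / `tsum_le_of_sum_le'`, or `hasSum_le`-type argument: `HasSum.…` + `sum_le_hasSum`).
 (6) `∫|H|² ≤ T · T⁻² Mo² · (2T/|β|) ‖g‖₂² = (2/|β|) Mo² ‖g‖₂²`, and `|Λ| ≤ ‖f‖₂ |α|^{-1/2} (2/|β|)^{1/2} Mo ‖g‖₂`.
-/
import Claimed.Agent.R258.S6a.Bessel

set_option autoImplicit false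
open MeasureTheory

namespace Claimed.Agent.R258

theorem s6acm_integral_affine {E : Type*} [NormedAddCommGroup E] [NormedSpace ℝ E] (φ : ℝ → E) (y c : ℝ) :
    ∫ v, φ (y + c * v) = |c⁻¹| • ∫ x, φ x := by
  rw [Measure.integral_comp_mul_left (fun x => φ (y + x)) c, integral_add_left_eq_self]

theorem s6acm_integrable_affine {E : Type*} [NormedAddCommGroup E] {φ : ℝ → E} (hφ : Integrable φ) (y : ℝ)
    {c : ℝ} (hc : c ≠ 0) : Integrable (fun v => φ (y + c * v)) :=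
  (hφ.comp_add_left y).comp_mul_left' hc

theorem s6acm_memLp_affine {F : ℝ → ℂ} (hFm : Measurable F) (hF : MemLp F 2 volume) (y : ℝ) {c : ℝ} (hc : c ≠ 0) :
    MemLp (fun v => F (y + c * v)) 2 volume := by
  have hm : Measurable (fun v => F (y + c * v)) := hFm.comp (by fun_prop)
  rw [memLp_two_iff_integrable_sq_norm hm.aestronglyMeasurable]
  exact s6acm_integrable_affine (φ := fun x => ‖F x‖ ^ 2) ((memLp_two_iff_integrable_sq_norm hF.1).1 hF) y hc

/-- the inner integral -/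
noncomputable def s6acm_H (β : ℝ) (F g : ℝ → ℂ) (y : ℝ) : ℂ := ∫ v, F (y + β * v) * g v

theorem s6acm_aesm (α β : ℝ) {F g : ℝ → ℂ} (hFm : Measurable F) (hg : AEStronglyMeasurable g volume) :
    AEStronglyMeasurable (fun p : ℝ × ℝ => F (α * p.1 + β * p.2) * g p.2) (volume.prod volume) :=
  (hFm.comp (by fun_prop)).aestronglyMeasurable.mul hg.comp_snd

theorem s6acm_theta_integrable (β : ℝ) {F g : ℝ → ℂ} (hFm : Measurable F) (hF : Integrable F) (hg : Integrable g) :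
    Integrable (fun p : ℝ × ℝ => F (p.1 + β * p.2) * g p.2) (volume.prod volume) := by
  have hm : AEStronglyMeasurable (fun p : ℝ × ℝ => F (p.1 + β * p.2) * g p.2) (volume.prod volume) :=
    (hFm.comp (by fun_prop)).aestronglyMeasurable.mul hg.1.comp_snd
  rw [integrable_prod_iff' hm]
  refine ⟨Filter.Eventually.of_forall fun v => (hF.comp_add_right (β * v)).mul_const (g v), ?_⟩
  have e : ∀ v, ∫ y, ‖F (y + β * v) * g v‖ = (∫ y, ‖F y‖) * ‖g v‖ := by
    intro v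
    simp only [norm_mul]
    rw [integral_mul_const, integral_add_right_eq_self (fun y => ‖F y‖)]
  simp only [e]
  exact hg.norm.const_mul _

theorem s6acm_H_le {β : ℝ} (hβ : β ≠ 0) {F g : ℝ → ℂ} (hFm : Measurable F) (hF : MemLp F 2 volume)
    (hg : MemLp g 2 volume) (y : ℝ) :
    ‖s6acm_H β F g y‖ ≤ Real.sqrt (|β⁻¹| * ∫ x, ‖F x‖ ^ 2) * Real.sqrt (∫ x, ‖g x‖ ^ 2) := by
  have h := s6a_cs (s6acm_memLp_affine hFm hF y hβ) hg
  rw [s6acm_integral_affine (fun x => ‖F x‖ ^ 2) y β, smul_eq_mul] at h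
  exact h

theorem s6acm_H_supp {β : ℝ} {F g : ℝ → ℂ} {aF rF ag rg : ℝ} (hrg : 0 < rg)
    (hFs : ∀ y, F y ≠ 0 → y ∈ Set.Ico aF (aF + rF)) (hgs : ∀ y, g y ≠ 0 → y ∈ Set.Ico ag (ag + rg)) (y : ℝ)
    (hy : y ∉ Set.Ioc (aF - |β| * (|ag| + rg) - 1) (aF - |β| * (|ag| + rg) - 1 + (rF + 2 * (|β| * (|ag| + rg)) + 1))) :
    s6acm_H β F g y = 0 := by
  unfold s6acm_H
  have : ∀ v, F (y + β * v) * g v = 0 := by
    intro v
    by_contra hne
    have h1 : F (y + β * v) ≠ 0 := fun h => hne (by rw [h, zero_mul])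
    have h2 : g v ≠ 0 := fun h => hne (by rw [h, mul_zero])
    obtain ⟨a1, a2⟩ := hFs _ h1
    obtain ⟨b1, b2⟩ := hgs _ h2
    have hv : |v| ≤ |ag| + rg := by
      rw [abs_le]
      constructor
      · have := neg_abs_le ag; linarith
      · have := le_abs_self ag; linarith
    have hbv : |β * v| ≤ |β| * (|ag| + rg) := by
      rw [abs_mul]; gcongr
    obtain ⟨c1, c2⟩ := abs_le.1 hbv
    apply hy
    constructor <;> linarith
  simp [this]

theorem s6acm_H_fourier (β ξ : ℝ) {F g : ℝ → ℂ} (hFm : Measurable F) (hF : Integrable F) (hg : Integrable g) :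
    ∫ y, s6acm_H β F g y * ee (-(ξ * y)) = (∫ v, g v * ee (ξ * β * v)) * ∫ y, F y * ee (-(ξ * y)) := by
  have hint : Integrable (Function.uncurry fun y v : ℝ => F (y + β * v) * g v * ee (-(ξ * y))) (volume.prod volume) := by
    refine (s6acm_theta_integrable β hFm hF hg).mul_bdd (c := 1) ?_ (Filter.Eventually.of_forall fun p => (s4a_ee_norm _).le)
    exact (s4a_ee_continuous.comp (by fun_prop)).aestronglyMeasurable
  calc ∫ y, s6acm_H β F g y * ee (-(ξ * y)) = ∫ y, ∫ v, F (y + β * v) * g v * ee (-(ξ * y)) := by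
        refine integral_congr_ae (Filter.Eventually.of_forall fun y => ?_)
        simp only [s6acm_H]
        rw [integral_mul_const]
    _ = ∫ v, ∫ y, F (y + β * v) * g v * ee (-(ξ * y)) := integral_integral_swap hint
    _ = ∫ v, (g v * ee (ξ * β * v)) * ∫ y, F y * ee (-(ξ * y)) := by
        refine integral_congr_ae (Filter.Eventually.of_forall fun v => ?_)
        simp only
        rw [← integral_const_mul, ← integral_add_right_eq_self (fun y => g v * ee (ξ * β * v) * (F y * ee (-(ξ * y)))) (β * v)]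
        refine integral_congr_ae (Filter.Eventually.of_forall fun y => ?_)
        simp only
        have : ee (-(ξ * y)) = ee (ξ * β * v) * ee (-(ξ * (y + β * v))) := by
          rw [← s4a_ee_add]; congr 1; ring
        rw [this]; ring
    _ = _ := by rw [integral_mul_const]

/-- an `L²` function supported in a bounded interval is integrable -/
theorem s6acm_integrable_of_supp {g : ℝ → ℂ} (hg : MemLp g 2 volume) (a r : ℝ)
    (hgs : ∀ y, g y ≠ 0 → y ∈ Set.Ico a (a + r)) : Integrable g := by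
  have h1 : MemLp g 2 (volume.restrict (Set.Ico a (a + r))) := hg.restrict _
  have h2 : IntegrableOn g (Set.Ico a (a + r)) := s6a_integrable_of_memLp_two h1
  exact (integrableOn_iff_integrable_of_support_subset (fun y hy => hgs y hy)).1 h2

/-- Bessel inequality for integer frequencies -/
theorem s6acm_besselZ (σ A r : ℝ) (hσ : σ ≠ 0) (hr : 0 ≤ r) (S : Finset ℤ) (F : ℝ → ℂ)
    (hF : MemLp F 2 (volume.restrict (Set.Ico A (A + r)))) :
    ∑ m ∈ S, ‖∫ y in Set.Ico A (A + r), F y * ee ((m : ℝ) * σ * y)‖ ^ 2 ≤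
      (r + 1 / |σ|) * ∫ y in Set.Ico A (A + r), ‖F y‖ ^ 2 := by
  obtain ⟨N, hN⟩ : ∃ N : ℕ, ∀ m ∈ S, -(N : ℤ) ≤ m := by
    refine ⟨∑ m ∈ S, m.natAbs, fun m hm => ?_⟩
    have h1 : m.natAbs ≤ ∑ m ∈ S, m.natAbs := Finset.single_le_sum (f := fun m : ℤ => m.natAbs) (fun _ _ => Nat.zero_le _) hm
    omega
  set F' : ℝ → ℂ := fun y => F y * ee (-(N : ℝ) * σ * y) with hF'
  have hF'2 : MemLp F' 2 (volume.restrict (Set.Ico A (A + r))) := by
    have hm : AEStronglyMeasurable F' (volume.restrict (Set.Ico A (A + r))) :=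
      hF.1.mul (s6a_ee_lin_continuous _).aestronglyMeasurable
    refine hF.of_le hm (Filter.Eventually.of_forall fun y => ?_)
    rw [hF', norm_mul, s4a_ee_norm, mul_one]
  have hb := s6a_bessel σ A r hσ hr (S.image fun m : ℤ => (m + N).toNat) F' hF'2
  have hinj : Set.InjOn (fun m : ℤ => (m + N).toNat) S := by
    intro m hm m' hm' h
    have h1 := hN m hm
    have h2 := hN m' hm'
    simp only at h
    omega
  rw [Finset.sum_image hinj] at hb
  have e1 : ∀ y, ‖F' y‖ ^ 2 = ‖F y‖ ^ 2 := fun y => by rw [hF', norm_mul, s4a_ee_norm, mul_one]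
  simp only [e1] at hb
  refine le_trans (le_of_eq ?_) hb
  refine Finset.sum_congr rfl fun m hm => ?_
  congr 2
  refine integral_congr_ae (Filter.Eventually.of_forall fun y => ?_)
  have h1 := hN m hm
  have h2 : (((m + N).toNat : ℕ) : ℝ) = (m : ℝ) + N := by
    have : (((m + N).toNat : ℕ) : ℤ) = m + N := Int.toNat_of_nonneg (by omega)
    exact_mod_cast this
  simp only [hF']
  rw [mul_assoc (F y), ← s4a_ee_add, h2]
  congr 2
  ring


theorem s6acm_coeff {a b : ℝ} (hab : a < b) (H : ℝ → ℂ) (m : ℤ) :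
    fourierCoeffOn hab H m = ((b - a)⁻¹ : ℝ) * ∫ x in Set.Ioc a b, H x * ee (-((m : ℝ) / (b - a) * x)) := by
  rw [fourierCoeffOn_eq_integral, intervalIntegral.integral_of_le hab.le, Complex.real_smul, one_div]
  congr 1
  refine integral_congr_ae (Filter.Eventually.of_forall fun x => ?_)
  simp only [fourier_coe_apply, smul_eq_mul, ee]
  rw [mul_comm]
  congr 2
  push_cast
  ring

theorem s6acm_H_sq {β : ℝ} (hβ : β ≠ 0) {F g : ℝ → ℂ} (hFm : Measurable F) (hF : MemLp F 2 volume)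
    (hg : MemLp g 2 volume) {aF rF ag rg : ℝ} (hrF : 0 < rF) (hrg : 0 < rg)
    (hFs : ∀ y, F y ≠ 0 → y ∈ Set.Ico aF (aF + rF)) (hgs : ∀ y, g y ≠ 0 → y ∈ Set.Ico ag (ag + rg))
    (Mo : ℝ) (hMo : ∀ ξ : ℝ, ‖∫ y, F y * ee (-(ξ * y))‖ ≤ Mo) :
    Integrable (fun y => ‖s6acm_H β F g y‖ ^ 2) ∧
      ∫ y, ‖s6acm_H β F g y‖ ^ 2 ≤ 2 / |β| * Mo ^ 2 * ∫ y, ‖g y‖ ^ 2 := by
  have hβ0 : 0 < |β| := abs_pos.2 hβ
  have hF1 : Integrable F := s6acm_integrable_of_supp hF aF rF hFs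
  have hg1 : Integrable g := s6acm_integrable_of_supp hg ag rg hgs
  have hMo0 : 0 ≤ Mo := le_trans (norm_nonneg _) (hMo 0)
  obtain ⟨A, T, hA, hT⟩ : ∃ A T : ℝ, A = aF - |β| * (|ag| + rg) - 1 ∧ T = rF + 2 * (|β| * (|ag| + rg)) + 1 := ⟨_, _, rfl, rfl⟩
  have hc0 : 0 ≤ |β| * |ag| := by positivity
  have hT0 : 0 < T := by rw [hT]; nlinarith
  have hTrg : |β| * rg ≤ T := by rw [hT]; nlinarith
  have hab : A < A + T := by linarith
  have hTe : A + T - A = T := by ring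
  have hsupp : ∀ y, y ∉ Set.Ioc A (A + T) → s6acm_H β F g y = 0 := by
    intro y hy
    rw [hA, hT] at hy
    exact s6acm_H_supp hrg hFs hgs y hy
  have hHm : AEStronglyMeasurable (s6acm_H β F g) volume :=
    (s6acm_theta_integrable β hFm hF1 hg1).aestronglyMeasurable.integral_prod_right'
  have hL2 : MemLp (s6acm_H β F g) 2 (volume.restrict (Set.Ioc A (A + T))) :=
    MemLp.of_bound hHm.restrict _ (Filter.Eventually.of_forall fun y => s6acm_H_le hβ hFm hF hg y)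
  have hint : Integrable (fun y => ‖s6acm_H β F g y‖ ^ 2) := by
    have h1 : IntegrableOn (fun y => ‖s6acm_H β F g y‖ ^ 2) (Set.Ioc A (A + T)) :=
      (memLp_two_iff_integrable_sq_norm hL2.1).1 hL2
    refine (integrableOn_iff_integrable_of_support_subset fun y hy => ?_).1 h1
    by_contra hn
    exact hy (by simp [hsupp y hn])
  refine ⟨hint, ?_⟩
  have hP := hasSum_sq_fourierCoeffOn hab hL2
  rw [intervalIntegral.integral_of_le hab.le, hTe,
    setIntegral_eq_integral_of_forall_compl_eq_zero (fun y hy => by simp [hsupp y hy]), smul_eq_mul] at hP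
  set G2 := ∫ y, ‖g y‖ ^ 2 with hG2
  have hG20 : 0 ≤ G2 := integral_nonneg fun y => by positivity
  have hσ : β / T ≠ 0 := div_ne_zero hβ hT0.ne'
  have hcoef : ∀ m : ℤ, ‖fourierCoeffOn hab (s6acm_H β F g) m‖ ^ 2 ≤
      T⁻¹ ^ 2 * Mo ^ 2 * ‖∫ y in Set.Ico ag (ag + rg), g y * ee ((m : ℝ) * (β / T) * y)‖ ^ 2 := by
    intro m
    rw [s6acm_coeff, hTe, setIntegral_eq_integral_of_forall_compl_eq_zero (fun y hy => by simp [hsupp y hy]),
      s6acm_H_fourier β _ hFm hF1 hg1,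
      setIntegral_eq_integral_of_forall_compl_eq_zero (s := Set.Ico ag (ag + rg))
        (fun y hy => by
          have : g y = 0 := by
            by_contra hne
            exact hy (hgs y hne)
          simp [this])]
    rw [norm_mul, norm_mul, Complex.norm_real, Real.norm_eq_abs, abs_of_pos (inv_pos.2 hT0), mul_pow, mul_pow]
    have e1 : ∀ v : ℝ, (m : ℝ) / T * β * v = (m : ℝ) * (β / T) * v := fun v => by ring
    simp only [e1]
    have h2 := hMo ((m : ℝ) / T)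
    have h3 : ‖∫ y, F y * ee (-((m : ℝ) / T * y))‖ ^ 2 ≤ Mo ^ 2 := by gcongr
    calc T⁻¹ ^ 2 * (‖∫ v, g v * ee ((m : ℝ) * (β / T) * v)‖ ^ 2 * ‖∫ y, F y * ee (-((m : ℝ) / T * y))‖ ^ 2)
        ≤ T⁻¹ ^ 2 * (‖∫ v, g v * ee ((m : ℝ) * (β / T) * v)‖ ^ 2 * Mo ^ 2) := by gcongr
      _ = _ := by ring
  have hB : ∀ S : Finset ℤ, ∑ m ∈ S, ‖fourierCoeffOn hab (s6acm_H β F g) m‖ ^ 2 ≤
      T⁻¹ ^ 2 * Mo ^ 2 * (2 * T / |β| * G2) := by
    intro S
    have hb := s6acm_besselZ (β / T) ag rg hσ hrg.le S g (hg.restrict _)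
    rw [setIntegral_eq_integral_of_forall_compl_eq_zero (s := Set.Ico ag (ag + rg)) (f := fun y => ‖g y‖ ^ 2)
        (fun y hy => by
          have : g y = 0 := by
            by_contra hne
            exact hy (hgs y hne)
          simp [this])] at hb
    have h1 : rg + 1 / |β / T| ≤ 2 * T / |β| := by
      rw [abs_div, abs_of_pos hT0, one_div_div]
      have : rg ≤ T / |β| := by rw [le_div_iff₀ hβ0]; linarith
      have e : 2 * T / |β| = T / |β| + T / |β| := by ring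
      linarith
    calc ∑ m ∈ S, ‖fourierCoeffOn hab (s6acm_H β F g) m‖ ^ 2
        ≤ ∑ m ∈ S, T⁻¹ ^ 2 * Mo ^ 2 * ‖∫ y in Set.Ico ag (ag + rg), g y * ee ((m : ℝ) * (β / T) * y)‖ ^ 2 :=
          Finset.sum_le_sum fun m _ => hcoef m
      _ = T⁻¹ ^ 2 * Mo ^ 2 * ∑ m ∈ S, ‖∫ y in Set.Ico ag (ag + rg), g y * ee ((m : ℝ) * (β / T) * y)‖ ^ 2 := by
          rw [Finset.mul_sum]
      _ ≤ T⁻¹ ^ 2 * Mo ^ 2 * ((rg + 1 / |β / T|) * G2) := by gcongr
      _ ≤ _ := by gcongr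
  have hfin := hasSum_le_of_sum_le hP hB
  have e2 : T⁻¹ ^ 2 * Mo ^ 2 * (2 * T / |β| * G2) = T⁻¹ * (2 / |β| * Mo ^ 2 * G2) := by
    field_simp
  rw [e2] at hfin
  exact le_of_mul_le_mul_left hfin (inv_pos.2 hT0)

theorem s6acm_cs_norm {α : Type*} [MeasurableSpace α] {μ : Measure α} {φ ψ : α → ℂ} (hφ : MemLp φ 2 μ)
    (hψ : MemLp ψ 2 μ) :
    ∫ x, ‖φ x‖ * ‖ψ x‖ ∂μ ≤ Real.sqrt (∫ x, ‖φ x‖ ^ 2 ∂μ) * Real.sqrt (∫ x, ‖ψ x‖ ^ 2 ∂μ) := by
  have h := integral_mul_norm_le_Lp_mul_Lq (μ := μ) (f := φ) (g := ψ) Real.HolderConjugate.two_two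
    (by simpa using hφ) (by simpa using hψ)
  simpa only [Real.rpow_two, ← Real.sqrt_eq_rpow] using h

theorem s6a_conv_mult (α β : ℝ) (hα : α ≠ 0) (hβ : β ≠ 0) (F f g : ℝ → ℂ) (hFm : Measurable F)
    (hF : MemLp F 2 volume) (hf : MemLp f 2 volume) (hg : MemLp g 2 volume) (aF rF ag rg : ℝ) (hrF : 0 < rF)
    (hrg : 0 < rg) (hFs : ∀ y, F y ≠ 0 → y ∈ Set.Ico aF (aF + rF)) (hgs : ∀ y, g y ≠ 0 → y ∈ Set.Ico ag (ag + rg))
    (Mo : ℝ) (hMo : ∀ ξ : ℝ, ‖∫ y, F y * ee (-(ξ * y))‖ ≤ Mo) :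
    Integrable (fun p : ℝ × ℝ => F (α * p.1 + β * p.2) * (f p.1 * g p.2)) ∧
    ‖∫ p : ℝ × ℝ, F (α * p.1 + β * p.2) * (f p.1 * g p.2)‖ ≤
      Real.sqrt (2 / |α * β|) * Mo * (Real.sqrt (∫ y, ‖f y‖ ^ 2) * Real.sqrt (∫ y, ‖g y‖ ^ 2)) := by
  have hg1 : Integrable g := s6acm_integrable_of_supp hg ag rg hgs
  have hMo0 : 0 ≤ Mo := le_trans (norm_nonneg _) (hMo 0)
  have hα0 : 0 < |α| := abs_pos.2 hα
  have hβ0 : 0 < |β| := abs_pos.2 hβ
  have hm : AEStronglyMeasurable (fun p : ℝ × ℝ => F (α * p.1 + β * p.2) * (f p.1 * g p.2)) (volume.prod volume) :=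
    (hFm.comp (by fun_prop)).aestronglyMeasurable.mul (hf.1.comp_fst.mul hg.1.comp_snd)
  have hFv : ∀ v : ℝ, MemLp (fun u => F (α * u + β * v)) 2 volume := by
    intro v
    have := s6acm_memLp_affine hFm hF (β * v) hα
    simpa only [add_comm] using this
  have hFv2 : ∀ v : ℝ, ∫ u, ‖F (α * u + β * v)‖ ^ 2 = |α⁻¹| * ∫ x, ‖F x‖ ^ 2 := by
    intro v
    have := s6acm_integral_affine (fun x => ‖F x‖ ^ 2) (β * v) α
    simpa only [add_comm, smul_eq_mul] using this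
  have hΨ : Integrable (fun p : ℝ × ℝ => F (α * p.1 + β * p.2) * (f p.1 * g p.2)) (volume.prod volume) := by
    rw [integrable_prod_iff' hm]
    constructor
    · refine Filter.Eventually.of_forall fun v => ?_
      have h1 : Integrable (fun u => F (α * u + β * v) * f u) := (hFv v).integrable_mul hf
      refine (h1.mul_const (g v)).congr (Filter.Eventually.of_forall fun u => ?_)
      simp only; ring
    · have hm2 : AEStronglyMeasurable (fun v => ∫ u, ‖F (α * u + β * v) * (f u * g v)‖) volume :=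
        hm.norm.prod_swap.integral_prod_right'
      refine (hg1.norm.const_mul (Real.sqrt (|α⁻¹| * ∫ x, ‖F x‖ ^ 2) * Real.sqrt (∫ x, ‖f x‖ ^ 2))).mono' hm2
        (Filter.Eventually.of_forall fun v => ?_)
      have e : ∫ u, ‖F (α * u + β * v) * (f u * g v)‖ = (∫ u, ‖F (α * u + β * v)‖ * ‖f u‖) * ‖g v‖ := by
        rw [← integral_mul_const]
        refine integral_congr_ae (Filter.Eventually.of_forall fun u => ?_)
        simp only [norm_mul]; ring
      rw [e, Real.norm_of_nonneg (mul_nonneg (integral_nonneg fun u => by positivity) (norm_nonneg _))]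
      have h2 := s6acm_cs_norm (hFv v) hf
      rw [hFv2 v] at h2
      gcongr
  refine ⟨hΨ, ?_⟩
  obtain ⟨hHint, hHsq⟩ := s6acm_H_sq hβ hFm hF hg hrF hrg hFs hgs Mo hMo
  have e1 : ∫ p : ℝ × ℝ, F (α * p.1 + β * p.2) * (f p.1 * g p.2) = ∫ u, f u * s6acm_H β F g (α * u) := by
    refine (integral_prod _ hΨ).trans ?_
    refine integral_congr_ae (Filter.Eventually.of_forall fun u => ?_)
    simp only [s6acm_H]
    rw [← integral_const_mul]
    refine integral_congr_ae (Filter.Eventually.of_forall fun v => ?_)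
    simp only; ring
  have hHα : MemLp (fun u => s6acm_H β F g (α * u)) 2 volume := by
    have hm3 : AEStronglyMeasurable (fun u => s6acm_H β F g (α * u)) volume :=
      (s6acm_aesm α β hFm hg.1).integral_prod_right'
    rw [memLp_two_iff_integrable_sq_norm hm3]
    exact hHint.comp_mul_left' hα
  have h3 := s6a_cs hf hHα
  rw [Measure.integral_comp_mul_left (fun y => ‖s6acm_H β F g y‖ ^ 2) α, smul_eq_mul] at h3
  rw [e1]
  refine h3.trans ?_
  set F2 := ∫ y, ‖f y‖ ^ 2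
  set G2 := ∫ y, ‖g y‖ ^ 2 with hG2
  have hG20 : 0 ≤ G2 := integral_nonneg fun y => by positivity
  have h4 : Real.sqrt (|α⁻¹| * ∫ y, ‖s6acm_H β F g y‖ ^ 2) ≤ Real.sqrt (2 / |α * β|) * Mo * Real.sqrt G2 := by
    calc Real.sqrt (|α⁻¹| * ∫ y, ‖s6acm_H β F g y‖ ^ 2) ≤ Real.sqrt (|α⁻¹| * (2 / |β| * Mo ^ 2 * G2)) := by
          apply Real.sqrt_le_sqrt
          gcongr
      _ = Real.sqrt (2 / |α * β| * Mo ^ 2 * G2) := by
          congr 1
          rw [abs_inv, abs_mul]; field_simp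
      _ = _ := by
          rw [Real.sqrt_mul (by positivity), Real.sqrt_mul (by positivity), Real.sqrt_sq hMo0]
  calc Real.sqrt F2 * Real.sqrt (|α⁻¹| * ∫ y, ‖s6acm_H β F g y‖ ^ 2)
      ≤ Real.sqrt F2 * (Real.sqrt (2 / |α * β|) * Mo * Real.sqrt G2) := by gcongr
    _ = _ := by ring

end Claimed.Agent.R258
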