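/-
Row 258 (S0498), block [S6a] (architect helper70), leaf P-S6A-TRIKER (prover helper252): the ABSTRACT form of the removal of a smooth kernel.
`W : ℝ × ℝ → ℂ` is `C¹`, bounded, `W (l, v) = 0`, `‖∂_1 W‖ ≤ Lc`; `F, Ga, Gb ∈ L²(ℝ)` vanish off `Ico l (l + r)`.  Then
   `|∫∫ W(u,v) F(αu+βv) Ga(u) Gb(v)| ≤ √(2/|αβ|) Mo (Lc r) ‖Ga‖₂ ‖Gb‖₂`.
Proof: `W(u,v) = ∫_{s ∈ Ioc l (l+r)} 1[s ≤ u] ∂_1 W(s,v) ds` for `u ∈ Ico l (l+r)` (FTC), Fubini, `s6a_conv_mult` for every `s`.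
-/
import Claimed.Agent.R258.S6a.ConvMult

set_option autoImplicit false
open MeasureTheory

namespace Claimed.Agent.R258

/-- the partial derivative in the first variable -/
noncomputable def s6a_d1 (W : ℝ × ℝ → ℂ) (p : ℝ × ℝ) : ℂ := fderiv ℝ W p (1, 0)

theorem s6a_d1_continuous {W : ℝ × ℝ → ℂ} (hW : ContDiff ℝ 1 W) : Continuous (s6a_d1 W) := by
  unfold s6a_d1
  exact (hW.continuous_fderiv one_ne_zero).clm_apply continuous_const

theorem s6a_d1_hasDerivAt {W : ℝ × ℝ → ℂ} (hW : ContDiff ℝ 1 W) (s v : ℝ) :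
    HasDerivAt (fun s => W (s, v)) (s6a_d1 W (s, v)) s := by
  have h1 : HasFDerivAt W (fderiv ℝ W (s, v)) (s, v) :=
    ((hW.differentiable one_ne_zero) (s, v)).hasFDerivAt
  have h2 : HasDerivAt (fun s : ℝ => ((s, v) : ℝ × ℝ)) ((1 : ℝ), (0 : ℝ)) s :=
    (hasDerivAt_id s).prodMk (hasDerivAt_const s v)
  exact h1.comp_hasDerivAt s h2

/-- FTC in the first variable -/
theorem s6a_d1_ftc {W : ℝ × ℝ → ℂ} (hW : ContDiff ℝ 1 W) {l r : ℝ} (hW0 : ∀ v, W (l, v) = 0) {u : ℝ}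
    (hu : u ∈ Set.Ico l (l + r)) (v : ℝ) :
    W (u, v) = ∫ s in Set.Ioc l (l + r), (Set.Iic u).indicator (fun s => s6a_d1 W (s, v)) s := by
  have hc : Continuous fun s => s6a_d1 W (s, v) := (s6a_d1_continuous hW).comp (by fun_prop)
  have h1 := intervalIntegral.integral_eq_sub_of_hasDerivAt (a := l) (b := u)
    (fun x _ => s6a_d1_hasDerivAt hW x v) (hc.intervalIntegrable _ _)
  rw [hW0 v, sub_zero] at h1
  rw [setIntegral_indicator measurableSet_Iic, Set.Ioc_inter_Iic, min_eq_right hu.2.le, ← h1,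
    intervalIntegral.integral_of_le hu.1]

theorem s6a_sqrt_le_mul {c x y : ℝ} (hc : 0 ≤ c) (h : x ≤ c ^ 2 * y) : Real.sqrt x ≤ c * Real.sqrt y := by
  calc Real.sqrt x ≤ Real.sqrt (c ^ 2 * y) := Real.sqrt_le_sqrt h
    _ = c * Real.sqrt y := by rw [Real.sqrt_mul (by positivity), Real.sqrt_sq hc]

theorem s6a_tri_abs (W : ℝ × ℝ → ℂ) (hW : ContDiff ℝ 1 W) (Bw Lc l r : ℝ) (hr : 0 < r) (hWb : ∀ p, ‖W p‖ ≤ Bw)
    (hWl : ∀ p, ‖s6a_d1 W p‖ ≤ Lc) (hW0 : ∀ v, W (l, v) = 0) (α β : ℝ) (hα : α ≠ 0) (hβ : β ≠ 0) (F Ga Gb : ℝ → ℂ)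
    (hFm : Measurable F) (hF : MemLp F 2 volume) (hGa : MemLp Ga 2 volume) (hGb : MemLp Gb 2 volume)
    (hFs : ∀ y, F y ≠ 0 → y ∈ Set.Ico l (l + r)) (hGas : ∀ y, Ga y ≠ 0 → y ∈ Set.Ico l (l + r))
    (hGbs : ∀ y, Gb y ≠ 0 → y ∈ Set.Ico l (l + r)) (Mo : ℝ) (hMo : ∀ ξ : ℝ, ‖∫ y, F y * ee (-(ξ * y))‖ ≤ Mo) :
    Integrable (fun p : ℝ × ℝ => W p * (F (α * p.1 + β * p.2) * (Ga p.1 * Gb p.2))) ∧
    ‖∫ p : ℝ × ℝ, W p * (F (α * p.1 + β * p.2) * (Ga p.1 * Gb p.2))‖ ≤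
      Real.sqrt (2 / |α * β|) * Mo * (Lc * r) * (Real.sqrt (∫ y, ‖Ga y‖ ^ 2) * Real.sqrt (∫ y, ‖Gb y‖ ^ 2)) := by
  have hLc : 0 ≤ Lc := (norm_nonneg _).trans (hWl (0, 0))
  have hMo0 : 0 ≤ Mo := (norm_nonneg _).trans (hMo 0)
  set Φ : ℝ × ℝ → ℂ := fun p => F (α * p.1 + β * p.2) * (Ga p.1 * Gb p.2) with hΦ
  have hΦi : Integrable Φ :=
    (s6a_conv_mult α β hα hβ F Ga Gb hFm hF hGa hGb l r l r hr hr hFs hGbs Mo hMo).1
  have hWc : Continuous W := hW.continuous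
  have hd1c := s6a_d1_continuous hW
  refine ⟨hΦi.bdd_mul hWc.aestronglyMeasurable (Filter.Eventually.of_forall hWb), ?_⟩
  -- the kernel of the representation
  set μ : Measure ℝ := volume.restrict (Set.Ioc l (l + r)) with hμ
  set k : ℝ → ℝ × ℝ → ℂ := fun s p => (Set.Iic p.1).indicator (fun s => s6a_d1 W (s, p.2)) s with hk
  have hkb : ∀ s p, ‖k s p‖ ≤ Lc := by
    intro s p
    simp only [hk]
    by_cases h : s ∈ Set.Iic p.1
    · rw [Set.indicator_of_mem h]; exact hWl _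
    · rw [Set.indicator_of_notMem h, norm_zero]; exact hLc
  have hkm : Measurable (Function.uncurry k) := by
    have e : Function.uncurry k = fun q : ℝ × (ℝ × ℝ) => if q.1 ≤ q.2.1 then s6a_d1 W (q.1, q.2.2) else 0 := by
      funext q
      simp only [Function.uncurry, hk, Set.indicator, Set.mem_Iic]
    rw [e]
    refine Measurable.ite (measurableSet_le measurable_fst (measurable_fst.comp measurable_snd)) ?_ measurable_const
    exact (hd1c.comp (by fun_prop)).measurable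
  -- step 1: representation
  have h1 : ∀ p : ℝ × ℝ, W p * Φ p = ∫ s, k s p * Φ p ∂μ := by
    intro p
    rw [integral_mul_const]
    by_cases h0 : Φ p = 0
    · rw [h0, mul_zero, mul_zero]
    · have hp1 : p.1 ∈ Set.Ico l (l + r) := by
        apply hGas
        intro hz
        apply h0
        simp only [hΦ, hz, zero_mul, mul_zero]
      congr 1
      exact s6a_d1_ftc hW hW0 hp1 p.2
  -- step 2: Fubini
  have hint : Integrable (Function.uncurry fun s p => k s p * Φ p) (μ.prod volume) := by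
    have hA : Integrable (fun q : ℝ × (ℝ × ℝ) => Φ q.2) (μ.prod volume) := hΦi.comp_snd μ
    exact hA.bdd_mul hkm.aestronglyMeasurable (Filter.Eventually.of_forall fun q => hkb q.1 q.2)
  have h2 : ∫ p : ℝ × ℝ, W p * Φ p = ∫ s, (∫ p : ℝ × ℝ, k s p * Φ p) ∂μ := by
    rw [integral_integral_swap hint]
    exact integral_congr_ae (Filter.Eventually.of_forall h1)
  rw [h2]
  -- step 3: the estimate for fixed `s`
  have hGa2 : Integrable (fun y => ‖Ga y‖ ^ 2) := (memLp_two_iff_integrable_sq_norm hGa.1).1 hGa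
  have hGb2 : Integrable (fun y => ‖Gb y‖ ^ 2) := (memLp_two_iff_integrable_sq_norm hGb.1).1 hGb
  have h3 : ∀ s : ℝ, ‖∫ p : ℝ × ℝ, k s p * Φ p‖ ≤
      Real.sqrt (2 / |α * β|) * Mo * (Real.sqrt (∫ y, ‖Ga y‖ ^ 2) * (Lc * Real.sqrt (∫ y, ‖Gb y‖ ^ 2))) := by
    intro s
    set fs : ℝ → ℂ := (Set.Ici s).indicator Ga with hfs
    set gs : ℝ → ℂ := fun v => s6a_d1 W (s, v) * Gb v with hgs
    have hfsL : MemLp fs 2 volume := hGa.indicator measurableSet_Ici
    have hgsm : AEStronglyMeasurable gs volume :=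
      ((hd1c.comp (by fun_prop : Continuous fun v : ℝ => ((s, v) : ℝ × ℝ))).aestronglyMeasurable).mul hGb.1
    have hgsb : ∀ v, ‖gs v‖ ≤ Lc * ‖Gb v‖ := fun v => by
      simp only [hgs, norm_mul]
      exact mul_le_mul_of_nonneg_right (hWl _) (norm_nonneg _)
    have hgsL : MemLp gs 2 volume := hGb.of_le_mul hgsm (Filter.Eventually.of_forall hgsb)
    have hgss : ∀ y, gs y ≠ 0 → y ∈ Set.Ico l (l + r) := by
      intro y hy
      apply hGbs
      intro hz
      apply hy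
      simp only [hgs, hz, mul_zero]
    have hc := (s6a_conv_mult α β hα hβ F fs gs hFm hF hfsL hgsL l r l r hr hr hFs hgss Mo hMo).2
    have e : (fun p : ℝ × ℝ => k s p * Φ p) = fun p : ℝ × ℝ => F (α * p.1 + β * p.2) * (fs p.1 * gs p.2) := by
      funext p
      simp only [hk, hΦ, hfs, hgs]
      by_cases h : s ≤ p.1
      · rw [Set.indicator_of_mem (show s ∈ Set.Iic p.1 from h), Set.indicator_of_mem (show p.1 ∈ Set.Ici s from h)]
        ring
      · rw [Set.indicator_of_notMem (show s ∉ Set.Iic p.1 from h), Set.indicator_of_notMem (show p.1 ∉ Set.Ici s from h)]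
        ring
    rw [e]
    refine hc.trans ?_
    have n1 : Real.sqrt (∫ y, ‖fs y‖ ^ 2) ≤ Real.sqrt (∫ y, ‖Ga y‖ ^ 2) := by
      apply Real.sqrt_le_sqrt
      apply integral_mono ((memLp_two_iff_integrable_sq_norm hfsL.1).1 hfsL) hGa2
      intro y
      simp only [hfs]
      by_cases h : y ∈ Set.Ici s
      · rw [Set.indicator_of_mem h]
      · rw [Set.indicator_of_notMem h]; simp
    have n2 : Real.sqrt (∫ y, ‖gs y‖ ^ 2) ≤ Lc * Real.sqrt (∫ y, ‖Gb y‖ ^ 2) := by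
      apply s6a_sqrt_le_mul hLc
      rw [← integral_const_mul]
      apply integral_mono ((memLp_two_iff_integrable_sq_norm hgsL.1).1 hgsL) (hGb2.const_mul _)
      intro y
      simp only
      rw [← mul_pow]
      exact pow_le_pow_left₀ (norm_nonneg _) (hgsb y) 2
    have hpos : 0 ≤ Real.sqrt (2 / |α * β|) * Mo := by positivity
    apply mul_le_mul_of_nonneg_left _ hpos
    exact mul_le_mul n1 n2 (Real.sqrt_nonneg _) (Real.sqrt_nonneg _)
  -- step 4: integrate in `s`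
  have h4 := norm_integral_le_of_norm_le_const (μ := μ) (Filter.Eventually.of_forall h3)
  have hμr : μ.real Set.univ = r := by
    rw [hμ, measureReal_restrict_apply MeasurableSet.univ, Set.univ_inter, Real.volume_real_Ioc_of_le (by linarith)]
    ring
  rw [hμr] at h4
  refine h4.trans (le_of_eq ?_)
  ring

end Claimed.Agent.R258
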