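/-
Row 258 (S0498), block [S6a] (architect helper70).  LEAVES P-S6A-L1SUP (`s6a_l1_sup`) and P-S6A-TRIKER (`s6a_tri_ker`).
Mathlib + S6a/Cov.lean, S6a/ConvMult.lean (statements as black boxes).  No paper.

`s6a_l1_sup`: if `E = ∑_ν c_ν E_ν` pointwise, `∑ |c_ν| < ∞`, `|E_ν| ≤ 1`, `Φ ∈ L¹`, then `|∫ Φ E| ≤ (∑ |c_ν|) sup_ν |∫ Φ E_ν|`.
 PROOF: `hasSum_integral_of_summable_integral_norm` (`F ν x = c ν * (Φ x * E_ν x)`, `∫ ‖F ν‖ ≤ ‖c ν‖ ∫ ‖Φ‖`) gives `∫ ∑' = ∑' ∫`; `norm_tsum_le_tsum_norm`, `tsum_mul_right`, `Summable.tsum_le_tsum`.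

`s6a_tri_ker` (removal of the kernel).  `W = kerUV a b w`, `r = |I|`, `α = ξ_j`, `β = ζ_j` (`|αβ| ≥ 2/9`, `s6a_slot_xz`), `S = I.set = Ico left (left + r)`.
 (1) WLOG `F, Ga, Gb` vanish off `S`: replace them by `S.indicator _` (the integrand does not change: `W p ≠ 0` forces `p.1, p.2, α p.1 + β p.2 ∈ S`, `s6a_ker_supp`, `s6a_slot_self`);
     then they are in `L²(ℝ)` (`memLp_indicator_iff_restrict`), `∫ y, ind F y * ee .. = ∫ y in S, F y * ee ..` (`integral_indicator`).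
 (2) integrability: `s6a_conv_mult` gives integrability of `F(αu+βv) Ga(u) Gb(v)`; multiply by the bounded continuous `W` (`Integrable.bdd_mul`).
 (3) `W₁(s,v) := deriv (fun s => W (s,v)) s`.  `W` is `C^∞` (composition of `w` with a linear map), so `W₁` is continuous on `ℝ × ℝ`, `|W₁| ≤ admL C0 / r` (from `s6a_ker_lip`: difference quotients;
     `norm_deriv_le_of_lipschitzWith`-type lemma, or directly from `Admissible.deriv 1`), `W₁(s,v) = 0` for `s ∉ closure S` (there `W(·,v)` vanishes in a neighbourhood -- or avoid this: integrate only over `s ∈ S`, see (4)).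
 (4) FTC: for `u ∈ S`: `W(u,v) = W(u,v) - W(left,v) = ∫ s in left..u, W₁(s,v) = ∫ s in S, 1[s ≤ u] W₁(s,v) ds` (`W(left, v) = 0`: by `Admissible.supp` with `c0 > 0` the point `left` is outside the support;
     `intervalIntegral.integral_eq_sub_of_hasDerivAt`).
 (5) Fubini on `S × (ℝ × ℝ)` (`integral_integral_swap`; the integrand `1[s ≤ u] W₁(s,v) F(αu+βv) Ga(u) Gb(v)` is dominated by `(admL/r) |F(αu+βv) Ga(u) Gb(v)|`, integrable on the product with the finite measure `vol|_S`):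
     `∫∫ W F Ga Gb = ∫_{s ∈ S} Λ(F, 1[s ≤ ·] Ga, W₁(s,·) Gb) ds`.
 (6) for every `s`, `s6a_conv_mult`: `|Λ| ≤ √(2/|αβ|) Mo ‖Ga‖₂ (admL/r) ‖Gb‖₂ ≤ 3 Mo (admL/r) ‖Ga‖₂ ‖Gb‖₂`; integrate over `S` (length `r`): `norm_integral_le_of_norm_le_const`-type bound.
-/
import Claimed.Agent.R258.S6a.Cov
import Claimed.Agent.R258.S6a.ConvMult
import Claimed.Agent.R258.S6a.TriKerAbs

set_option autoImplicit false
open MeasureTheory

namespace Claimed.Agent.R258

theorem s6a_l1_sup {X : Type*} [MeasurableSpace X] (μ : Measure X) {ν : Type*} [Countable ν] (Φ E : X → ℂ)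
    (hΦ : Integrable Φ μ) (Eν : ν → X → ℂ) (c : ν → ℂ) (hc : Summable fun n => ‖c n‖)
    (hEm : ∀ n, AEStronglyMeasurable (Eν n) μ) (hE1 : ∀ n x, ‖Eν n x‖ ≤ 1)
    (hsum : ∀ x, HasSum (fun n => c n * Eν n x) (E x)) (B : ℝ) (hB : ∀ n, ‖∫ x, Φ x * Eν n x ∂μ‖ ≤ B) :
    ‖∫ x, Φ x * E x ∂μ‖ ≤ (∑' n, ‖c n‖) * B := by
  have hint : ∀ n, Integrable (fun x => Φ x * Eν n x) μ := fun n =>
    hΦ.mul_bdd (c := 1) (hEm n) (Filter.Eventually.of_forall (hE1 n))
  have hF_int : ∀ n, Integrable (fun x => c n * (Φ x * Eν n x)) μ := fun n => (hint n).const_mul _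
  have hbound : ∀ n, ∫ x, ‖c n * (Φ x * Eν n x)‖ ∂μ ≤ ‖c n‖ * ∫ x, ‖Φ x‖ ∂μ := by
    intro n
    rw [← integral_const_mul]
    apply integral_mono (hF_int n).norm (hΦ.norm.const_mul _)
    intro x
    simp only [norm_mul]
    have := hE1 n x
    have h0 := norm_nonneg (c n)
    have h1 := norm_nonneg (Φ x)
    calc ‖c n‖ * (‖Φ x‖ * ‖Eν n x‖) ≤ ‖c n‖ * (‖Φ x‖ * 1) := by gcongr
      _ = _ := by ring
  have hF_sum : Summable fun n => ∫ x, ‖c n * (Φ x * Eν n x)‖ ∂μ :=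
    Summable.of_nonneg_of_le (fun n => integral_nonneg fun x => norm_nonneg _) hbound (hc.mul_right _)
  have hs := hasSum_integral_of_summable_integral_norm hF_int hF_sum
  have e : (∫ x, (∑' n, c n * (Φ x * Eν n x)) ∂μ) = ∫ x, Φ x * E x ∂μ := by
    congr 1; funext x
    have := ((hsum x).mul_left (Φ x)).tsum_eq
    rw [← this]
    congr 1; funext n; ring
  rw [e] at hs
  rw [← hs.tsum_eq]
  have hn : ∀ n, ‖∫ x, c n * (Φ x * Eν n x) ∂μ‖ ≤ ‖c n‖ * B := by
    intro n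
    rw [integral_const_mul, norm_mul]
    exact mul_le_mul_of_nonneg_left (hB n) (norm_nonneg _)
  have hsn : Summable fun n => ‖∫ x, c n * (Φ x * Eν n x) ∂μ‖ :=
    Summable.of_nonneg_of_le (fun n => norm_nonneg _) hn (hc.mul_right _)
  calc ‖∑' n, ∫ x, c n * (Φ x * Eν n x) ∂μ‖ ≤ ∑' n, ‖∫ x, c n * (Φ x * Eν n x) ∂μ‖ := norm_tsum_le_tsum_norm hsn
    _ ≤ ∑' n, ‖c n‖ * B := hsn.tsum_le_tsum hn (hc.mul_right _)
    _ = _ := tsum_mul_right

/-- `|ξ_j ζ_j| ≥ 2/9` for a slot `j` different from the two coordinate slots (`fin_cases`) -/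
theorem s6a_slot_xz {i j a b : Fin 4} (h : slot4 i j a b) : 2 / 9 ≤ |slotXi a b j * slotZe a b j| := by
  obtain ⟨h1, h2, h3, h4, h5, h6⟩ := h
  fin_cases i <;> fin_cases j <;> fin_cases a <;> fin_cases b <;>
    first
    | (exfalso; first | exact h1 rfl | exact h2 rfl | exact h3 rfl | exact h4 rfl | exact h5 rfl | exact h6 rfl)
    | (simp only [slotXi, slotZe]; norm_num [abs_of_pos, abs_of_neg])

theorem s6a_ker_contDiff {c0 C0 : ℝ} {I : Cell} {w : ℝ × ℝ → ℂ} (hw : Admissible c0 C0 I w) (a b : Fin 4) :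
    ContDiff ℝ 1 (kerUV a b w) := by
  unfold kerUV
  have h1 : ContDiff ℝ 1 w := hw.smooth.of_le (by exact_mod_cast le_top)
  exact h1.comp (by fun_prop)

/-- the kernel vanishes on the line `u = left` (margin `c0 > 0`) -/
theorem s6a_ker_left {c0 C0 : ℝ} {I : Cell} {w : ℝ × ℝ → ℂ} (hw : Admissible c0 C0 I w) (hc0 : 0 < c0) (a b : Fin 4)
    (hab : a ≠ b) (v : ℝ) : kerUV a b w (I.left, v) = 0 := by
  by_contra hp
  have h := (hw.supp _ hp a).1
  have hne := s6a_slot_cast_ne a b hab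
  have hlen := cell_len_pos I
  have e : slotXi a b 0 * I.left + slotZe a b 0 * v + ((a : ℕ) : ℝ) * ((v - I.left) / (((b : ℕ) : ℝ) - ((a : ℕ) : ℝ)))
      = I.left := by
    unfold slotXi slotZe
    simp only [Fin.val_zero, Nat.cast_zero]
    field_simp
    ring
  simp only at h
  have h2 : I.left + c0 * I.len ≤ I.left := by
    calc I.left + c0 * I.len ≤ _ := h
      _ = I.left := e
  have : 0 < c0 * I.len := by positivity
  linarith

theorem s6a_tri_ker {c0 C0 : ℝ} (hc0 : 0 < c0) {I : Cell} {w : ℝ × ℝ → ℂ} (hw : Admissible c0 C0 I w)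
    {i j a b : Fin 4} (h4 : slot4 i j a b) (F Ga Gb : ℝ → ℂ) (hFm : Measurable F)
    (hF : MemLp F 2 (volume.restrict I.set)) (hGa : MemLp Ga 2 (volume.restrict I.set))
    (hGb : MemLp Gb 2 (volume.restrict I.set)) (Mo : ℝ)
    (hMo : ∀ ξ : ℝ, ‖∫ y in I.set, F y * ee (-(ξ * y))‖ ≤ Mo) :
    Integrable (fun p : ℝ × ℝ => kerUV a b w p * (F (slotXi a b j * p.1 + slotZe a b j * p.2) * (Ga p.1 * Gb p.2))) ∧
    ‖∫ p : ℝ × ℝ, kerUV a b w p * (F (slotXi a b j * p.1 + slotZe a b j * p.2) * (Ga p.1 * Gb p.2))‖ ≤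
      3 * admL C0 * Mo * (Real.sqrt (∫ y in I.set, ‖Ga y‖ ^ 2) * Real.sqrt (∫ y in I.set, ‖Gb y‖ ^ 2)) := by
  have hab : a ≠ b := h4.2.2.2.2.2
  have hxz := s6a_slot_xz h4
  set W := kerUV a b w with hWdef
  set α := slotXi a b j with hαdef
  set β := slotZe a b j with hβdef
  have hα : α ≠ 0 := by
    intro h0; rw [h0, zero_mul, abs_zero] at hxz; norm_num at hxz
  have hβ : β ≠ 0 := by
    intro h0; rw [h0, mul_zero, abs_zero] at hxz; norm_num at hxz
  have hlen := cell_len_pos I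
  have hS : I.set = Set.Ico I.left (I.left + I.len) := by
    unfold Cell.set Cell.right Cell.left
    congr 1
    ring
  have hSm : MeasurableSet I.set := by rw [hS]; exact measurableSet_Ico
  have hWs : ContDiff ℝ 1 W := s6a_ker_contDiff hw a b
  have hL0 : 0 ≤ admL C0 := by
    have := (norm_nonneg _).trans (s6a_ker_lip hw a b hab 0 0 I.len)
    rwa [abs_of_pos hlen, div_self hlen.ne', mul_one] at this
  have hWl : ∀ p, ‖s6a_d1 W p‖ ≤ admL C0 / I.len := by
    intro p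
    refine (s6a_d1_hasDerivAt hWs p.1 p.2).le_of_lip' (by positivity) (Filter.Eventually.of_forall fun x => ?_)
    have := s6a_ker_lip hw a b hab p.1 p.2 (x - p.1)
    rw [add_sub_cancel] at this
    refine this.trans (le_of_eq ?_)
    rw [Real.norm_eq_abs]
    ring
  have hW0 : ∀ v, W (I.left, v) = 0 := fun v => s6a_ker_left hw hc0 a b hab v
  -- restriction to the cell
  have hFs : ∀ y, I.set.indicator F y ≠ 0 → y ∈ Set.Ico I.left (I.left + I.len) := fun y hy => by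
    rw [← hS]; exact Set.mem_of_indicator_ne_zero hy
  have hGas : ∀ y, I.set.indicator Ga y ≠ 0 → y ∈ Set.Ico I.left (I.left + I.len) := fun y hy => by
    rw [← hS]; exact Set.mem_of_indicator_ne_zero hy
  have hGbs : ∀ y, I.set.indicator Gb y ≠ 0 → y ∈ Set.Ico I.left (I.left + I.len) := fun y hy => by
    rw [← hS]; exact Set.mem_of_indicator_ne_zero hy
  have hMo' : ∀ ξ : ℝ, ‖∫ y, I.set.indicator F y * ee (-(ξ * y))‖ ≤ Mo := by
    intro ξ
    have e : (fun y => I.set.indicator F y * ee (-(ξ * y))) = I.set.indicator (fun y => F y * ee (-(ξ * y))) := by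
      funext y
      by_cases hy : y ∈ I.set
      · rw [Set.indicator_of_mem hy, Set.indicator_of_mem hy]
      · rw [Set.indicator_of_notMem hy, Set.indicator_of_notMem hy, zero_mul]
    rw [e, integral_indicator hSm]
    exact hMo ξ
  obtain ⟨k1, k2⟩ := s6a_tri_abs W hWs (admB C0) (admL C0 / I.len) I.left I.len hlen (s6a_ker_bound hw a b) hWl hW0
    α β hα hβ (I.set.indicator F) (I.set.indicator Ga) (I.set.indicator Gb) (hFm.indicator hSm)
    ((memLp_indicator_iff_restrict hSm).2 hF) ((memLp_indicator_iff_restrict hSm).2 hGa)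
    ((memLp_indicator_iff_restrict hSm).2 hGb) hFs hGas hGbs Mo hMo'
  have e : (fun p : ℝ × ℝ => W p * (I.set.indicator F (α * p.1 + β * p.2) *
      (I.set.indicator Ga p.1 * I.set.indicator Gb p.2))) =
      fun p : ℝ × ℝ => W p * (F (α * p.1 + β * p.2) * (Ga p.1 * Gb p.2)) := by
    funext p
    by_cases hp : W p = 0
    · rw [hp, zero_mul, zero_mul]
    · have hs := s6a_ker_supp hw hc0 a b hab p hp
      obtain ⟨s1, s2, s3, s4⟩ := s6a_slot_self a b hab
      have ha := hs a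
      have hb := hs b
      rw [s1, s2, one_mul, zero_mul, add_zero] at ha
      rw [s3, s4, one_mul, zero_mul, zero_add] at hb
      rw [Set.indicator_of_mem (hs j), Set.indicator_of_mem ha, Set.indicator_of_mem hb]
  rw [e] at k1 k2
  refine ⟨k1, k2.trans ?_⟩
  have n : ∀ G : ℝ → ℂ, ∫ y, ‖I.set.indicator G y‖ ^ 2 = ∫ y in I.set, ‖G y‖ ^ 2 := by
    intro G
    have e2 : (fun y => ‖I.set.indicator G y‖ ^ 2) = I.set.indicator (fun y => ‖G y‖ ^ 2) := by
      funext y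
      by_cases hy : y ∈ I.set
      · rw [Set.indicator_of_mem hy, Set.indicator_of_mem hy]
      · rw [Set.indicator_of_notMem hy, Set.indicator_of_notMem hy]; simp
    rw [e2, integral_indicator hSm]
  rw [n, n]
  have hMo0 : 0 ≤ Mo := (norm_nonneg _).trans (hMo 0)
  have h3 : Real.sqrt (2 / |α * β|) ≤ 3 := by
    rw [Real.sqrt_le_left (by norm_num)]
    rw [div_le_iff₀ (by linarith)]
    linarith
  have e3 : admL C0 / I.len * I.len = admL C0 := div_mul_cancel₀ _ hlen.ne'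
  rw [e3]
  have hX : 0 ≤ Real.sqrt (∫ y in I.set, ‖Ga y‖ ^ 2) * Real.sqrt (∫ y in I.set, ‖Gb y‖ ^ 2) := by positivity
  apply mul_le_mul_of_nonneg_right _ hX
  calc Real.sqrt (2 / |α * β|) * Mo * admL C0 ≤ 3 * Mo * admL C0 := by gcongr
    _ = 3 * admL C0 * Mo := by ring

end Claimed.Agent.R258
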