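/-
Row 258 (S0498), block [S6a] (architect helper70).  **LEMMA 6.6** (`lem:same-tag`) in scalar form.  GLUE (proved from the leaves).
If all normalized moments of the target `z j` against the templates of the tag `a.tag i` in the slot `j` are `≤ Mo`, then
   `‖form I w z‖ ≤ stH0 C0 H * Mo * ‖z a'‖_{2,I} ‖z b'‖_{2,I}`      (`z i = a.eval`).
-/
import Claimed.Agent.R258.S6a.SrcExp
import Claimed.Agent.R258.S6a.TriKer
import Claimed.Agent.R258.S6a.SepCore

set_option autoImplicit false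
open MeasureTheory
open scoped ComplexConjugate

namespace Claimed.Agent.R258

/-- the constant `H_0` of Lemma 6.6 -/
noncomputable def stH0 (C0 H : ℝ) : ℝ := ((stP0 H : ℕ) : ℝ) ^ (2 * Real.log H) * (srcA H * (3 * admL C0))

theorem s6a_memLp_mul_bdd {f U : ℝ → ℂ} {μ : Measure ℝ} (hf : MemLp f 2 μ) (hU : Continuous U)
    (hU1 : ∀ y, ‖U y‖ ≤ 1) : MemLp (fun y => f y * U y) 2 μ := by
  refine hf.of_le (hf.1.mul hU.aestronglyMeasurable) (Filter.Eventually.of_forall fun y => ?_)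
  rw [norm_mul]
  calc ‖f y‖ * ‖U y‖ ≤ ‖f y‖ * 1 := by gcongr; exact hU1 y
    _ = ‖f y‖ := mul_one _

theorem s6a_sq_int_mul_bdd {f U : ℝ → ℂ} {μ : Measure ℝ} (hf : MemLp f 2 μ) (hU1 : ∀ y, ‖U y‖ ≤ 1) :
    ∫ y, ‖f y * U y‖ ^ 2 ∂μ ≤ ∫ y, ‖f y‖ ^ 2 ∂μ := by
  apply integral_mono_of_nonneg (Filter.Eventually.of_forall fun y => by positivity) hf.norm.integrable_sq
  · exact Filter.Eventually.of_forall fun y => by
      simp only [norm_mul]
      have : ‖f y‖ * ‖U y‖ ≤ ‖f y‖ * 1 := by gcongr; exact hU1 y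
      rw [mul_one] at this
      gcongr

section
variable {c0 C0 : ℝ} {I : Cell} {w : ℝ × ℝ → ℂ} {i j a b : Fin 4}

/-- one separated term -/
theorem s6a_st_one (hc0 : 0 < c0) (hw : Admissible c0 C0 I w) (h4 : slot4 i j a b) (F Ga Gb : ℝ → ℂ)
    (hFm : Measurable F) (hF : MemLp F 2 (volume.restrict I.set)) (hGa : MemLp Ga 2 (volume.restrict I.set))
    (hGb : MemLp Gb 2 (volume.restrict I.set)) (Mo : ℝ) (hMo : ∀ ξ : ℝ, ‖∫ y in I.set, F y * ee (-(ξ * y))‖ ≤ Mo)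
    (γ : ℝ) :
    Integrable (fun p : ℝ × ℝ => kerUV a b w p * (F (slotXi a b j * p.1 + slotZe a b j * p.2) * (Ga p.1 * Gb p.2)) *
      ee (γ * (slotXi a b i * p.1 + slotZe a b i * p.2))) ∧
    ‖∫ p : ℝ × ℝ, kerUV a b w p * (F (slotXi a b j * p.1 + slotZe a b j * p.2) * (Ga p.1 * Gb p.2)) *
      ee (γ * (slotXi a b i * p.1 + slotZe a b i * p.2))‖ ≤
      3 * admL C0 * Mo * (Real.sqrt (∫ y in I.set, ‖Ga y‖ ^ 2) * Real.sqrt (∫ y in I.set, ‖Gb y‖ ^ 2)) := by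
  have cU : ∀ s : ℝ, Continuous fun y : ℝ => ee (s * y) := fun s => s4a_ee_continuous.comp (by fun_prop)
  have nU : ∀ s y : ℝ, ‖ee (s * y)‖ ≤ 1 := fun s y => (s4a_ee_norm _).le
  have hGa' := s6a_memLp_mul_bdd hGa (cU (γ * slotXi a b i)) (nU _)
  have hGb' := s6a_memLp_mul_bdd hGb (cU (γ * slotZe a b i)) (nU _)
  obtain ⟨h1, h2⟩ := s6a_tri_ker hc0 hw h4 F _ _ hFm hF hGa' hGb' Mo hMo
  have e : (fun p : ℝ × ℝ => kerUV a b w p * (F (slotXi a b j * p.1 + slotZe a b j * p.2) * (Ga p.1 * Gb p.2)) *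
      ee (γ * (slotXi a b i * p.1 + slotZe a b i * p.2))) =
      fun p : ℝ × ℝ => kerUV a b w p * (F (slotXi a b j * p.1 + slotZe a b j * p.2) *
        ((Ga p.1 * ee (γ * slotXi a b i * p.1)) * (Gb p.2 * ee (γ * slotZe a b i * p.2)))) := by
    funext p
    have : ee (γ * (slotXi a b i * p.1 + slotZe a b i * p.2)) =
        ee (γ * slotXi a b i * p.1) * ee (γ * slotZe a b i * p.2) := by
      rw [← s4a_ee_add]; congr 1; ring
    rw [this]; ring
  rw [e]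
  refine ⟨h1, h2.trans ?_⟩
  have n1 : ∀ (G : ℝ → ℂ) (s : ℝ), (∫ y in I.set, ‖G y * ee (s * y)‖ ^ 2) = ∫ y in I.set, ‖G y‖ ^ 2 := by
    intro G s
    congr 1; funext y
    rw [norm_mul, s4a_ee_norm, mul_one]
  rw [n1, n1]

/-- one term with the periodized source factor -/
theorem s6a_st_src (hc0 : 0 < c0) (hw : Admissible c0 C0 I w) (h4 : slot4 i j a b) (F Ga Gb : ℝ → ℂ)
    (hFm : Measurable F) (hF : MemLp F 2 (volume.restrict I.set)) (hGa : MemLp Ga 2 (volume.restrict I.set))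
    (hGb : MemLp Gb 2 (volume.restrict I.set)) (Mo : ℝ) (hMo : ∀ ξ : ℝ, ‖∫ y in I.set, F y * ee (-(ξ * y))‖ ≤ Mo)
    (γ : ℝ) (A : Chart) (H : ℝ) (hA : A.Cplx H) (P0 : ℕ) (hP0 : 0 < P0) (l : Fin A.d → ℕ) (hl : ∀ c, l c < P0) :
    Integrable (fun p : ℝ × ℝ => kerUV a b w p * (F (slotXi a b j * p.1 + slotZe a b j * p.2) * (Ga p.1 * Gb p.2)) *
      ee (γ * (slotXi a b i * p.1 + slotZe a b i * p.2)) * perS A P0 l (slotXi a b i * p.1 + slotZe a b i * p.2)) ∧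
    ‖∫ p : ℝ × ℝ, kerUV a b w p * (F (slotXi a b j * p.1 + slotZe a b j * p.2) * (Ga p.1 * Gb p.2)) *
      ee (γ * (slotXi a b i * p.1 + slotZe a b i * p.2)) * perS A P0 l (slotXi a b i * p.1 + slotZe a b i * p.2)‖ ≤
      srcA H * (3 * admL C0 * Mo *
        (Real.sqrt (∫ y in I.set, ‖Ga y‖ ^ 2) * Real.sqrt (∫ y in I.set, ‖Gb y‖ ^ 2))) := by
  obtain ⟨Aq, hs, hle, hsum⟩ := s6a_src_fourier A H hA P0 hP0 l hl
  obtain ⟨hint, hb0⟩ := s6a_st_one hc0 hw h4 F Ga Gb hFm hF hGa hGb Mo hMo γ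
  set B := 3 * admL C0 * Mo * (Real.sqrt (∫ y in I.set, ‖Ga y‖ ^ 2) * Real.sqrt (∫ y in I.set, ‖Gb y‖ ^ 2)) with hB
  have hB0 : 0 ≤ B := (norm_nonneg _).trans hb0
  have hYc : Continuous fun p : ℝ × ℝ => slotXi a b i * p.1 + slotZe a b i * p.2 := by fun_prop
  constructor
  · refine hint.mul_bdd (c := srcA H) ((s6a_perS_continuous A H hA P0 l).comp hYc).aestronglyMeasurable
      (Filter.Eventually.of_forall fun p => ?_)
    have h1 := hsum (slotXi a b i * p.1 + slotZe a b i * p.2)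
    have hn : ∀ q, ‖Aq q * ee ((∑ c, (q c : ℝ) * A.th c) * (slotXi a b i * p.1 + slotZe a b i * p.2))‖ = ‖Aq q‖ := by
      intro q; rw [norm_mul, s4a_ee_norm, mul_one]
    rw [← h1.tsum_eq]
    refine (norm_tsum_le_tsum_norm (by simpa only [hn] using hs)).trans ?_
    simp only [hn]; exact hle
  · have hEm : ∀ q : Fin A.d → ℤ, AEStronglyMeasurable (fun p : ℝ × ℝ =>
        ee ((∑ c, (q c : ℝ) * A.th c) * (slotXi a b i * p.1 + slotZe a b i * p.2))) volume :=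
      fun q => (s4a_ee_continuous.comp (continuous_const.mul hYc)).aestronglyMeasurable
    refine (s6a_l1_sup volume
      (fun p : ℝ × ℝ => kerUV a b w p * (F (slotXi a b j * p.1 + slotZe a b j * p.2) * (Ga p.1 * Gb p.2)) *
        ee (γ * (slotXi a b i * p.1 + slotZe a b i * p.2)))
      (fun p : ℝ × ℝ => perS A P0 l (slotXi a b i * p.1 + slotZe a b i * p.2)) hint
      (fun (q : Fin A.d → ℤ) (p : ℝ × ℝ) =>
        ee ((∑ c, (q c : ℝ) * A.th c) * (slotXi a b i * p.1 + slotZe a b i * p.2))) Aq hs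
      hEm (fun q p => (s4a_ee_norm _).le)
      (fun p => hsum _) B (fun q => ?_)).trans (mul_le_mul_of_nonneg_right hle hB0)
    obtain ⟨-, hb⟩ := s6a_st_one hc0 hw h4 F Ga Gb hFm hF hGa hGb Mo hMo (γ + ∑ c, (q c : ℝ) * A.th c)
    refine le_trans (le_of_eq ?_) hb
    congr 2; funext p
    rw [mul_assoc, ← s4a_ee_add]
    congr 2; ring

end

/-- **Lemma 6.6, scalar form** -/
theorem s6a_same_tag_scalar {ρ : ℝ → ℝ} (hρ : IsPou ρ) {c0 C0 : ℝ} (hc0 : 0 < c0) (A : Chart) (H : ℝ)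
    (hA : A.Cplx H) {i j a b : Fin 4} (h4 : slot4 i j a b) (I : Cell) (w : ℝ × ℝ → ℂ) (hw : Admissible c0 C0 I w)
    (z : Fin 4 → ℝ → ℂ) (hzi : z i = A.eval) (hzm : Measurable (z j))
    (hz : ∀ l, MemLp (z l) 2 (volume.restrict I.set)) (Mo : ℝ)
    (hMo : ∀ (ℓ : Fin (A.tag i).dim → ℕ) (β : ℝ), (∀ c, ℓ c < stP0 H) →
      ‖smom I (z j) (tmpl ρ (A.tag i) j (stP0 H) ℓ β).eval‖ ≤ Mo) :
    ‖form I w z‖ ≤ stH0 C0 H * Mo * (nnorm 2 I (z a) * nnorm 2 I (z b)) := by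
  obtain ⟨σ, S, c, γ, ls, T, hc, hls, hT, hexp⟩ := s6a_src_expand hρ A H hA i
  have hab : a ≠ b := h4.2.2.2.2.2
  have hr : 0 < I.len := cell_len_pos I
  set r := I.len with hrdef
  have hP0 := s6a_stP0_pos H
  have hMo0 : 0 ≤ Mo := (norm_nonneg _).trans (hMo (fun _ => 0) 0 (fun _ => hP0))
  have hTc : ∀ s l, Continuous fun y => conj ((T s l).eval y) := by
    intro s l
    obtain ⟨ℓ, β, -, e⟩ := hT s l
    rw [e]
    exact Complex.continuous_conj.comp (s6a_tmpl_continuous hρ _ _ _ _ _)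
  have hTb : ∀ s l y, ‖conj ((T s l).eval y)‖ ≤ 1 := by
    intro s l y
    obtain ⟨ℓ, β, -, e⟩ := hT s l
    rw [e, RCLike.norm_conj]
    exact s6a_tmpl_bdd hρ _ _ _ _ _ y
  obtain ⟨sa1, sa2, sa3, sa4⟩ := s6a_slot_self a b hab
  let term : σ → ℝ × ℝ → ℂ := fun s p =>
    kerUV a b w p * ((z j (slotXi a b j * p.1 + slotZe a b j * p.2) *
        conj ((T s j).eval (slotXi a b j * p.1 + slotZe a b j * p.2))) *
      ((z a p.1 * conj ((T s a).eval p.1)) * (z b p.2 * conj ((T s b).eval p.2)))) *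
      ee (γ s * (slotXi a b i * p.1 + slotZe a b i * p.2)) *
      perS A (stP0 H) (ls s) (slotXi a b i * p.1 + slotZe a b i * p.2)
  have hpt : ∀ p : ℝ × ℝ, kerUV a b w p * ∏ l, z l (slotXi a b l * p.1 + slotZe a b l * p.2) =
      ∑ s ∈ S, c s * term s p := by
    intro p
    have hx := hexp (slotXi a b 0 * p.1 + slotZe a b 0 * p.2) ((p.2 - p.1) / (((b : ℕ) : ℝ) - ((a : ℕ) : ℝ)))
    simp only [← s6a_slot_prog a b _ hab p.1 p.2] at hx
    rw [s6a_slot_prod h4, hzi, hx, Finset.sum_mul, Finset.sum_mul, Finset.mul_sum]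
    apply Finset.sum_congr rfl
    intro s _
    rw [s6a_slot_prod_erase h4]
    simp only [term, sa1, sa2, sa3, sa4, one_mul, zero_mul, add_zero, zero_add]
    ring
  set Nf := ∫ y in I.set, ‖z a y‖ ^ 2 with hNf
  set Ng := ∫ y in I.set, ‖z b y‖ ^ 2 with hNg
  have hterm : ∀ s, Integrable (term s) ∧
      ‖∫ p, term s p‖ ≤ srcA H * (3 * admL C0 * (Mo * r) * (Real.sqrt Nf * Real.sqrt Ng)) := by
    intro s
    have hMo' : ∀ ξ : ℝ, ‖∫ y in I.set, (z j y * conj ((T s j).eval y)) * ee (-(ξ * y))‖ ≤ Mo * r := by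
      intro ξ
      obtain ⟨ℓ, β, hℓ, e⟩ := hT s j
      have h1 := hMo ℓ (β + ξ) hℓ
      unfold smom at h1
      rw [norm_mul, Complex.norm_real, Real.norm_eq_abs, abs_of_pos (by positivity : 0 < r⁻¹)] at h1
      have e2 : (∫ y in I.set, (z j y * conj ((T s j).eval y)) * ee (-(ξ * y))) =
          ∫ y in I.set, z j y * conj ((tmpl ρ (A.tag i) j (stP0 H) ℓ (β + ξ)).eval y) := by
        congr 1; funext y
        rw [← s6a_tmpl_mod, map_mul, s4a_ee_conj, e]; ring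
      rw [e2]
      rw [inv_mul_le_iff₀ hr] at h1
      linarith
    obtain ⟨h1, h2⟩ := s6a_st_src hc0 hw h4 (fun y => z j y * conj ((T s j).eval y))
      (fun y => z a y * conj ((T s a).eval y)) (fun y => z b y * conj ((T s b).eval y))
      (hzm.mul (hTc s j).measurable) (s6a_memLp_mul_bdd (hz j) (hTc s j) (hTb s j))
      (s6a_memLp_mul_bdd (hz a) (hTc s a) (hTb s a)) (s6a_memLp_mul_bdd (hz b) (hTc s b) (hTb s b)) (Mo * r) hMo'
      (γ s) A H hA (stP0 H) hP0 (ls s) (hls s)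
    refine ⟨h1, h2.trans ?_⟩
    have hL0 : 0 ≤ admL C0 := by
      have := (norm_nonneg _).trans (s6a_ker_lip hw a b hab 0 0 r)
      rw [abs_of_pos hr, div_self hr.ne', mul_one] at this
      exact this
    have hsA : 0 ≤ srcA H := (Real.exp_pos _).le
    have q1 := Real.sqrt_le_sqrt (s6a_sq_int_mul_bdd (hz a) (hTb s a))
    have q2 := Real.sqrt_le_sqrt (s6a_sq_int_mul_bdd (hz b) (hTb s b))
    gcongr
  have hint : (∫ p : ℝ × ℝ, kerUV a b w p * ∏ l, z l (slotXi a b l * p.1 + slotZe a b l * p.2)) =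
      ∑ s ∈ S, c s * ∫ p, term s p := by
    simp only [hpt]
    rw [integral_finsetSum S (fun s _ => (hterm s).1.const_mul (c s))]
    apply Finset.sum_congr rfl
    intro s _
    exact integral_const_mul _ _
  set B := srcA H * (3 * admL C0 * (Mo * r) * (Real.sqrt Nf * Real.sqrt Ng)) with hB
  have hB0 : 0 ≤ B := by
    by_cases hS : S.Nonempty
    · obtain ⟨s, -⟩ := hS
      exact (norm_nonneg _).trans (hterm s).2
    · -- then the source vanishes identically; use positivity directly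
      have hL0 : 0 ≤ admL C0 := by
        have := (norm_nonneg _).trans (s6a_ker_lip hw a b hab 0 0 r)
        rw [abs_of_pos hr, div_self hr.ne', mul_one] at this
        exact this
      have hsA : 0 ≤ srcA H := (Real.exp_pos _).le
      rw [hB]; positivity
  have hsum : ‖∑ s ∈ S, c s * ∫ p, term s p‖ ≤ ((stP0 H : ℕ) : ℝ) ^ (2 * Real.log H) * B := by
    calc ‖∑ s ∈ S, c s * ∫ p, term s p‖ ≤ ∑ s ∈ S, ‖c s‖ * B := by
          refine (norm_sum_le _ _).trans (Finset.sum_le_sum fun s _ => ?_)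
          rw [norm_mul]
          exact mul_le_mul_of_nonneg_left (hterm s).2 (norm_nonneg _)
      _ = (∑ s ∈ S, ‖c s‖) * B := by rw [Finset.sum_mul]
      _ ≤ ((stP0 H : ℕ) : ℝ) ^ (2 * A.d) * B := mul_le_mul_of_nonneg_right hc hB0
      _ ≤ _ := by
          apply mul_le_mul_of_nonneg_right _ hB0
          rw [← Real.rpow_natCast]
          apply Real.rpow_le_rpow_of_exponent_le
          · exact_mod_cast hP0
          · push_cast
            linarith [hA.dim]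
  rw [s6a_form_cov I w a b hab z, hint, norm_mul, Complex.norm_real, Real.norm_eq_abs, s6a_nnorm2_eq, s6a_nnorm2_eq]
  have hdiff := s6a_slot_diff a b hab
  have hpre : |(r ^ 2)⁻¹ * |((b : ℕ) : ℝ) - ((a : ℕ) : ℝ)|⁻¹| ≤ (r ^ 2)⁻¹ := by
    rw [abs_mul, abs_inv, abs_inv, abs_abs, abs_of_pos (by positivity : 0 < r ^ 2)]
    have : |((b : ℕ) : ℝ) - ((a : ℕ) : ℝ)|⁻¹ ≤ 1 := inv_le_one_of_one_le₀ hdiff
    calc _ ≤ (r ^ 2)⁻¹ * 1 := by gcongr
      _ = _ := mul_one _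
  have hs1 : Real.sqrt (r⁻¹ * Nf) = Real.sqrt r⁻¹ * Real.sqrt Nf := Real.sqrt_mul (by positivity) _
  have hs2 : Real.sqrt (r⁻¹ * Ng) = Real.sqrt r⁻¹ * Real.sqrt Ng := Real.sqrt_mul (by positivity) _
  have hs3 : Real.sqrt r⁻¹ * Real.sqrt r⁻¹ = r⁻¹ := Real.mul_self_sqrt (by positivity)
  calc _ ≤ (r ^ 2)⁻¹ * (((stP0 H : ℕ) : ℝ) ^ (2 * Real.log H) * B) := by gcongr
    _ = stH0 C0 H * Mo * ((Real.sqrt r⁻¹ * Real.sqrt r⁻¹) * (Real.sqrt Nf * Real.sqrt Ng)) := by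
        rw [hs3, hB, stH0]; field_simp
    _ = _ := by rw [hs1, hs2]; ring

end Claimed.Agent.R258
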