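/-
Row 258 (S0498), block [S6a] (architect helper70).  LEAF P-S6A-SEPARITH.  Mathlib + S6a/Defs, Ret (`retD`), Cov (`admB`, `admL`), S4a/Br (black boxes
`s4a_clear_den`, `s4a_height_mul_le`, `s4a_height_neg`, `s4a_height_zero`), Weyl/Defs (`wy_qp c X = exp (c (1 + log X)^c)`), S5/Defs (`qpoly`).

THE THRESHOLDS OF LEMMA 6.1:  number of multiples `sepM`, return threshold `sepA`, master parameter `sepX`.

PLAN.
 * `admB C0 = (2 C0)^(2 C0) ≥ 1`, `admL C0 = 3 (3 C0)^(3 C0) ≥ 3` for `C0 ≥ 1` (`Real.one_le_rpow`).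
 * with `M = sepM`, `α = sepA`, `D = admL + 6 admB retD > 0`: `M α D = τ/4`; `M ≥ 8 admB²/τ²` (`Nat.le_ceil`) gives `admB √(2/M) ≤ τ/2`
   (`Real.sqrt_le_iff` / `Real.sqrt_le_sqrt` + `Real.sqrt_sq`): `2/M ≤ τ²/(4 admB²)`.
 * `s6a_loc_period`: `s4a_clear_den` for `A.C`, `B.C` (`H = Hc`): `P' = P_A P_B`; `P_A ≤ Hc^(d_A²) ≤ exp (L · L²)`, `L = log Hc ≥ d_A` (`Real.rpow_natCast`, `Real.exp_log`).
   `6 P' · (c_i⁻¹ A.C x y) = (6/c_i) P_B (P_A A.C x y) ∈ ℤ` (`6/c_i ∈ {-6, 2, -2, 6}`), off-diagonal blocks are `0`.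
 * `s6a_locC_height`: `qHeight (c⁻¹ * q) ≤ qHeight c⁻¹ * qHeight q ≤ 3 Hc` (`fin_cases i`, `qHeight` of `-1, 1/3, -1/3, 1` by `decide`/`norm_num [qHeight]`), `qHeight 0 = 1 ≤ 3 Hc`.
 * `s6a_sepX_*`: `L = log Hc ≥ 2`, `exp (2 L³) ≥ exp (2 L) = Hc² ≥ 3 Hc`, `log (6 exp (2L³)) ≥ 2 L³ ≥ 2 L`.
 * `s6a_sepX_qpoly`: `log sepX ≤ log 6 + 2 L³ + log (1/τ) + log 4 + log sepM + log D`, `sepM ≤ 8 admB²/τ² + 2`, `log D ≤ log(admL + 6 admB) + 16 L²`;
   so `1 + log sepX ≤ K (1 + L + log(1/τ))³` with `K = K(C0)`, and `wy_qp c sepX ≤ exp (c K^c (1 + x)^(3c)) ≤ qpoly Cq x` for `Cq = max (c K^c) (3c)`, `x = L + log (1/τ) ≥ 0`.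
-/
import Claimed.Agent.R258.S6a.Ret
import Claimed.Agent.R258.S6a.Cov

set_option autoImplicit false

namespace Claimed.Agent.R258

/-- number of multiples of a return -/
noncomputable def sepM (C0 τ : ℝ) : ℕ := ⌈8 * admB C0 ^ 2 / τ ^ 2⌉₊ + 1
/-- the return threshold -/
noncomputable def sepA (C0 Hc τ : ℝ) : ℝ := τ / (4 * sepM C0 τ * (admL C0 + 6 * admB C0 * retD Hc))
/-- the master parameter fed into (W3) -/
noncomputable def sepX (C0 Hc τ : ℝ) : ℝ := max (6 * Real.exp (2 * (Real.log Hc) ^ 3)) (1 / sepA C0 Hc τ)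

theorem s6a_sepM_pos (C0 τ : ℝ) : 0 < sepM C0 τ := Nat.succ_pos _

theorem sepa_admB_ge {C0 : ℝ} (hC0 : 1 ≤ C0) : 1 ≤ admB C0 :=
  Real.one_le_rpow (by linarith) (by linarith)

theorem sepa_admL_ge {C0 : ℝ} (hC0 : 1 ≤ C0) : 3 ≤ admL C0 := by
  have : 1 ≤ (C0 * 3) ^ (C0 * 3) := Real.one_le_rpow (by linarith) (by linarith)
  unfold admL; linarith

theorem sepa_retD_ge (H : ℝ) : 1 ≤ retD H := by
  unfold retD
  exact Real.one_le_exp (by positivity)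

theorem sepa_D_ge {C0 : ℝ} (hC0 : 1 ≤ C0) (Hc : ℝ) :
    3 + 6 * retD Hc ≤ admL C0 + 6 * admB C0 * retD Hc := by
  have h1 := sepa_admB_ge hC0
  have h2 := sepa_admL_ge hC0
  have h3 := sepa_retD_ge Hc
  nlinarith

theorem sepa_M_ge (C0 τ : ℝ) : 8 * admB C0 ^ 2 / τ ^ 2 ≤ (sepM C0 τ : ℝ) := by
  unfold sepM
  push_cast
  have := Nat.le_ceil (8 * admB C0 ^ 2 / τ ^ 2)
  linarith

theorem sepa_M_pos (C0 τ : ℝ) : (0 : ℝ) < (sepM C0 τ : ℝ) := by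
  exact_mod_cast s6a_sepM_pos C0 τ

theorem s6a_sepA_pos {C0 Hc τ : ℝ} (hC0 : 1 ≤ C0) (hτ0 : 0 < τ) : 0 < sepA C0 Hc τ := by
  have hD := sepa_D_ge hC0 Hc
  have h3 := sepa_retD_ge Hc
  have hM := sepa_M_pos C0 τ
  unfold sepA
  have : 0 < admL C0 + 6 * admB C0 * retD Hc := by linarith
  positivity

theorem sepa_MA {C0 Hc τ : ℝ} (hC0 : 1 ≤ C0) :
    (sepM C0 τ : ℝ) * sepA C0 Hc τ * (admL C0 + 6 * admB C0 * retD Hc) = τ / 4 := by
  have hD := sepa_D_ge hC0 Hc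
  have h3 := sepa_retD_ge Hc
  have hM := sepa_M_pos C0 τ
  have : 0 < admL C0 + 6 * admB C0 * retD Hc := by linarith
  unfold sepA
  field_simp

theorem sepa_sqrt_le {C0 τ : ℝ} (hC0 : 1 ≤ C0) (hτ0 : 0 < τ) :
    admB C0 * Real.sqrt (2 / sepM C0 τ) ≤ τ / 2 := by
  have hB := sepa_admB_ge hC0
  have hB0 : 0 < admB C0 := by linarith
  have hM := sepa_M_pos C0 τ
  have hMge := sepa_M_ge C0 τ
  have h1 : Real.sqrt (2 / sepM C0 τ) ≤ τ / (2 * admB C0) := by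
    rw [Real.sqrt_le_iff]
    refine ⟨by positivity, ?_⟩
    rw [div_le_iff₀ hM, div_pow]
    rw [div_le_iff₀ (by positivity)] at hMge
    rw [div_mul_eq_mul_div, le_div_iff₀ (by positivity)]
    nlinarith
  calc admB C0 * Real.sqrt (2 / sepM C0 τ) ≤ admB C0 * (τ / (2 * admB C0)) :=
        mul_le_mul_of_nonneg_left h1 hB0.le
    _ = τ / 2 := by field_simp

theorem s6a_sep_num3 {C0 Hc τ : ℝ} (hC0 : 1 ≤ C0) (hτ0 : 0 < τ) (hτ1 : τ ≤ 1) :
    3 * (sepM C0 τ : ℝ) * sepA C0 Hc τ ≤ 1 := by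
  have hD := sepa_D_ge hC0 Hc
  have h3 := sepa_retD_ge Hc
  have hMA := sepa_MA (Hc := Hc) (τ := τ) hC0
  have hpos : 0 ≤ (sepM C0 τ : ℝ) * sepA C0 Hc τ :=
    mul_nonneg (sepa_M_pos C0 τ).le (s6a_sepA_pos hC0 hτ0).le
  nlinarith

theorem s6a_sep_num_cross {C0 Hc τ : ℝ} (hC0 : 1 ≤ C0) (hτ0 : 0 < τ) :
    2 * (sepM C0 τ * sepA C0 Hc τ * (admL C0 + 6 * admB C0 * retD Hc)) + admB C0 * Real.sqrt (2 / sepM C0 τ) ≤ τ := by
  rw [sepa_MA hC0]
  have := sepa_sqrt_le hC0 hτ0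
  linarith

theorem s6a_sep_num_same {C0 Hc τ : ℝ} (hC0 : 1 ≤ C0) (hτ0 : 0 < τ) :
    sepM C0 τ * sepA C0 Hc τ * (6 * retD Hc + 2) + Real.sqrt (2 / sepM C0 τ) ≤ τ := by
  have hD := sepa_D_ge hC0 Hc
  have hMA := sepa_MA (Hc := Hc) (τ := τ) hC0
  have hpos : 0 ≤ (sepM C0 τ : ℝ) * sepA C0 Hc τ :=
    mul_nonneg (sepa_M_pos C0 τ).le (s6a_sepA_pos hC0 hτ0).le
  have h1 : (sepM C0 τ : ℝ) * sepA C0 Hc τ * (6 * retD Hc + 2) ≤ τ / 4 := by
    rw [← hMA]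
    exact mul_le_mul_of_nonneg_left (by linarith) hpos
  have h2 := sepa_sqrt_le hC0 hτ0
  have hB := sepa_admB_ge hC0
  have h3 : Real.sqrt (2 / sepM C0 τ) ≤ admB C0 * Real.sqrt (2 / sepM C0 τ) :=
    le_mul_of_one_le_left (Real.sqrt_nonneg _) hB
  linarith

theorem sepa_slot_int (i : Fin 4) : ∃ w : ℤ, (6 : ℚ) * (slotC i)⁻¹ = w := by
  fin_cases i
  · exact ⟨-6, by norm_num [slotC]⟩
  · exact ⟨2, by norm_num [slotC]⟩
  · exact ⟨-2, by norm_num [slotC]⟩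
  · exact ⟨6, by norm_num [slotC]⟩

theorem sepa_pow_le {Hc : ℝ} (hH : Real.exp 2 ≤ Hc) {d : ℕ} (hd : (d : ℝ) ≤ Real.log Hc) :
    Hc ^ (d ^ 2) ≤ Real.exp ((Real.log Hc) ^ 3) := by
  have hH0 : 0 < Hc := lt_of_lt_of_le (Real.exp_pos 2) hH
  have hL : 0 ≤ Real.log Hc := le_trans (Nat.cast_nonneg d) hd
  have e : Hc ^ (d ^ 2) = Real.exp (Real.log Hc * ((d : ℝ) ^ 2)) := by
    rw [← Real.rpow_natCast, Real.rpow_def_of_pos hH0]
    push_cast; rfl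
  rw [e]
  refine Real.exp_le_exp.2 ?_
  have : (d : ℝ) ^ 2 ≤ (Real.log Hc) ^ 2 := pow_le_pow_left₀ (Nat.cast_nonneg d) hd 2
  nlinarith

/-- a common period -/
theorem s6a_loc_period (A B : Chart) (Hc : ℝ) (hA : A.Cplx Hc) (hB : B.Cplx Hc) (i j : Fin 4) :
    ∃ P' : ℕ, 0 < P' ∧ ClearsDen P' A.C ∧ ClearsDen P' B.C ∧ ClearsDen (6 * P') (locC (A.tag i) (B.tag j)) ∧
      ((6 * P' : ℕ) : ℝ) ≤ 6 * Real.exp (2 * (Real.log Hc) ^ 3) := by
  obtain ⟨PA, hPA1, hPAle, hPA⟩ := s4a_clear_den A.C Hc hA.height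
  obtain ⟨PB, hPB1, hPBle, hPB⟩ := s4a_clear_den B.C Hc hB.height
  rw [Fintype.card_fin] at hPAle hPBle
  have cA : ClearsDen (PA * PB) A.C := by
    intro x y
    obtain ⟨z, hz⟩ := hPA x y
    refine ⟨PB * z, ?_⟩
    push_cast
    rw [← hz]; ring
  have cB : ClearsDen (PA * PB) B.C := by
    intro x y
    obtain ⟨z, hz⟩ := hPB x y
    refine ⟨PA * z, ?_⟩
    push_cast
    rw [← hz]; ring
  refine ⟨PA * PB, Nat.mul_pos hPA1 hPB1, cA, cB, ?_, ?_⟩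
  · obtain ⟨wi, hwi⟩ := sepa_slot_int i
    obtain ⟨wj, hwj⟩ := sepa_slot_int j
    intro x y
    rcases x with x | x <;> rcases y with y | y
    · obtain ⟨z, hz⟩ := cA x y
      refine ⟨wi * z, ?_⟩
      have e : locC (A.tag i) (B.tag j) (Sum.inl x) (Sum.inl y) = (slotC i)⁻¹ * A.C x y := rfl
      rw [e]
      push_cast at hz ⊢
      rw [← hz, ← hwi]; ring
    · exact ⟨0, by
        have e : locC (A.tag i) (B.tag j) (Sum.inl x) (Sum.inr y) = 0 := rfl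
        rw [e]; simp⟩
    · exact ⟨0, by
        have e : locC (A.tag i) (B.tag j) (Sum.inr x) (Sum.inl y) = 0 := rfl
        rw [e]; simp⟩
    · obtain ⟨z, hz⟩ := cB x y
      refine ⟨-(wj * z), ?_⟩
      have e : locC (A.tag i) (B.tag j) (Sum.inr x) (Sum.inr y) = -((slotC j)⁻¹ * B.C x y) := rfl
      rw [e]
      push_cast at hz ⊢
      rw [← hz, ← hwj]; ring
  · have h1 := hPAle.trans (sepa_pow_le hA.H_ge hA.dim)
    have h2 := hPBle.trans (sepa_pow_le hB.H_ge hB.dim)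
    have h3 : (PA : ℝ) * PB ≤ Real.exp ((Real.log Hc) ^ 3) * Real.exp ((Real.log Hc) ^ 3) :=
      mul_le_mul h1 h2 (Nat.cast_nonneg _) (Real.exp_pos _).le
    rw [← Real.exp_add] at h3
    have e : (Real.log Hc) ^ 3 + (Real.log Hc) ^ 3 = 2 * (Real.log Hc) ^ 3 := by ring
    rw [e] at h3
    push_cast
    linarith

theorem sepa_slot_height (i : Fin 4) : qHeight (slotC i)⁻¹ ≤ 3 := by
  fin_cases i
  · have : (slotC (0 : Fin 4))⁻¹ = -1 := by norm_num [slotC]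
    show qHeight (slotC (0 : Fin 4))⁻¹ ≤ 3
    rw [this]; decide
  · have : (slotC (1 : Fin 4))⁻¹ = 1 / 3 := by norm_num [slotC]
    show qHeight (slotC (1 : Fin 4))⁻¹ ≤ 3
    rw [this]; norm_num [qHeight]
  · have : (slotC (2 : Fin 4))⁻¹ = -1 / 3 := by
      have e : slotC (2 : Fin 4) = -3 := rfl
      rw [e]; norm_num
    show qHeight (slotC (2 : Fin 4))⁻¹ ≤ 3
    rw [this]; norm_num [qHeight]
  · have : (slotC (3 : Fin 4))⁻¹ = 1 := by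
      have e : slotC (3 : Fin 4) = 1 := rfl
      rw [e]; norm_num
    show qHeight (slotC (3 : Fin 4))⁻¹ ≤ 3
    rw [this]; decide


theorem s6a_locC_height (A B : Chart) (Hc : ℝ) (hA : A.Cplx Hc) (hB : B.Cplx Hc) (i j : Fin 4)
    (x y : Fin A.d ⊕ Fin B.d) : (qHeight (locC (A.tag i) (B.tag j) x y) : ℝ) ≤ 3 * Hc := by
  have hH0 : 0 < Hc := lt_of_lt_of_le (Real.exp_pos 2) hA.H_ge
  have hH1 : 1 ≤ Hc := le_trans (Real.one_le_exp (by norm_num)) hA.H_ge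
  have key : ∀ (k : Fin 4) (q : ℚ), (qHeight q : ℝ) ≤ Hc → (qHeight ((slotC k)⁻¹ * q) : ℝ) ≤ 3 * Hc := by
    intro k q hq
    have h1 : (qHeight ((slotC k)⁻¹ * q) : ℝ) ≤ (qHeight (slotC k)⁻¹ : ℝ) * (qHeight q : ℝ) := by
      exact_mod_cast s4a_height_mul_le _ _
    have h2 : (qHeight (slotC k)⁻¹ : ℝ) ≤ 3 := by exact_mod_cast sepa_slot_height k
    exact h1.trans (mul_le_mul h2 hq (Nat.cast_nonneg _) (by norm_num))
  rcases x with x | x <;> rcases y with y | y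
  · exact key i _ (hA.height x y)
  · change ((qHeight (0 : ℚ) : ℕ) : ℝ) ≤ 3 * Hc
    rw [s4a_height_zero]; push_cast; linarith
  · change ((qHeight (0 : ℚ) : ℕ) : ℝ) ≤ 3 * Hc
    rw [s4a_height_zero]; push_cast; linarith
  · change ((qHeight (-((slotC j)⁻¹ * B.C x y)) : ℕ) : ℝ) ≤ 3 * Hc
    rw [s4a_height_neg]
    exact key j _ (hB.height x y)

theorem sepa_L_ge {Hc : ℝ} (hH : Real.exp 2 ≤ Hc) : 2 ≤ Real.log Hc := by
  have := Real.log_le_log (Real.exp_pos 2) hH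
  rwa [Real.log_exp] at this

theorem s6a_sepX_ge {C0 Hc τ : ℝ} (hH : Real.exp 2 ≤ Hc) :
    2 ≤ sepX C0 Hc τ ∧ 3 * Hc ≤ sepX C0 Hc τ ∧ 2 * Real.log Hc ≤ 1 + Real.log (sepX C0 Hc τ) := by
  have hH0 : 0 < Hc := lt_of_lt_of_le (Real.exp_pos 2) hH
  have hL := sepa_L_ge hH
  set L := Real.log Hc with hLdef
  have hL3 : L ≤ 2 * L ^ 3 := by nlinarith [sq_nonneg L, mul_pos (by linarith : 0 < L) (by linarith : 0 < L)]
  have h0 : 6 * Real.exp (2 * L ^ 3) ≤ sepX C0 Hc τ := le_max_left _ _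
  have h1 : 1 ≤ Real.exp (2 * L ^ 3) := Real.one_le_exp (by positivity)
  have h2 : Hc ≤ Real.exp (2 * L ^ 3) := by
    calc Hc = Real.exp L := (Real.exp_log hH0).symm
      _ ≤ _ := Real.exp_le_exp.2 hL3
  refine ⟨by linarith, by linarith, ?_⟩
  have h3 : Real.log (6 * Real.exp (2 * L ^ 3)) ≤ Real.log (sepX C0 Hc τ) :=
    Real.log_le_log (by positivity) h0
  rw [Real.log_mul (by norm_num) (Real.exp_pos _).ne', Real.log_exp] at h3
  have h4 : 0 ≤ Real.log 6 := Real.log_nonneg (by norm_num)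
  nlinarith [sq_nonneg L, mul_pos (by linarith : 0 < L) (by linarith : 0 < L)]

/-- upper bound for `sepX` -/
theorem sepa_sepX_le {C0 : ℝ} (hC0 : 1 ≤ C0) {Hc τ : ℝ} (hH : Real.exp 2 ≤ Hc) (hτ0 : 0 < τ) (hτ1 : τ ≤ 1) :
    Real.log (sepX C0 Hc τ) ≤ Real.log 6 + Real.log (4 * (8 * admB C0 ^ 2 + 2) * (admL C0 + 6 * admB C0))
      + 2 * (Real.log Hc) ^ 3 + 3 * Real.log (1 / τ) + 16 * (Real.log Hc) ^ 2 := by
  have hL := sepa_L_ge hH
  set L := Real.log Hc with hLdef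
  set t := Real.log (1 / τ) with ht
  have ht0 : 0 ≤ t := Real.log_nonneg (by rw [le_div_iff₀ hτ0]; linarith)
  have het : Real.exp t = 1 / τ := Real.exp_log (by positivity)
  have hB := sepa_admB_ge hC0
  have hLa := sepa_admL_ge hC0
  set K₁ := 4 * (8 * admB C0 ^ 2 + 2) * (admL C0 + 6 * admB C0) with hK₁
  have hK₁1 : 1 ≤ K₁ := by
    have h1 : (1 : ℝ) ≤ 8 * admB C0 ^ 2 + 2 := by nlinarith
    have h2 : (1 : ℝ) ≤ admL C0 + 6 * admB C0 := by linarith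
    have := mul_le_mul h1 h2 zero_le_one (by linarith)
    rw [hK₁]; nlinarith
  have hlK : 0 ≤ Real.log K₁ := Real.log_nonneg hK₁1
  have hl6 : 0 ≤ Real.log 6 := Real.log_nonneg (by norm_num)
  have hX0 : 0 < sepX C0 Hc τ := lt_of_lt_of_le (by positivity) (le_max_left _ _)
  rw [Real.log_le_iff_le_exp hX0]
  refine max_le ?_ ?_
  · calc 6 * Real.exp (2 * L ^ 3) = Real.exp (Real.log 6 + 2 * L ^ 3) := by
          rw [Real.exp_add, Real.exp_log (by norm_num)]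
      _ ≤ _ := Real.exp_le_exp.2 (by nlinarith [sq_nonneg L])
  · have hD0 : 0 < admL C0 + 6 * admB C0 * retD Hc := by
      have := sepa_D_ge hC0 Hc
      have := sepa_retD_ge Hc
      linarith
    have hM0 := sepa_M_pos C0 τ
    have e1 : 1 / sepA C0 Hc τ = 4 * (sepM C0 τ : ℝ) * (admL C0 + 6 * admB C0 * retD Hc) * (1 / τ) := by
      unfold sepA; field_simp
    have hM : (sepM C0 τ : ℝ) ≤ (8 * admB C0 ^ 2 + 2) * Real.exp (2 * t) := by
      have h1 : (sepM C0 τ : ℝ) ≤ 8 * admB C0 ^ 2 / τ ^ 2 + 2 := by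
        unfold sepM
        push_cast
        have := (Nat.ceil_lt_add_one (by positivity : 0 ≤ 8 * admB C0 ^ 2 / τ ^ 2)).le
        linarith
      have h2 : Real.exp (2 * t) = 1 / τ ^ 2 := by
        rw [two_mul, Real.exp_add, het]; field_simp
      have h3 : (1 : ℝ) ≤ 1 / τ ^ 2 := by
        rw [le_div_iff₀ (by positivity)]; nlinarith
      rw [h2]
      have e : (8 * admB C0 ^ 2 + 2) * (1 / τ ^ 2) = 8 * admB C0 ^ 2 / τ ^ 2 + 2 * (1 / τ ^ 2) := by ring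
      rw [e]; linarith
    have hD : admL C0 + 6 * admB C0 * retD Hc ≤ (admL C0 + 6 * admB C0) * Real.exp (16 * L ^ 2) := by
      have h1 := sepa_retD_ge Hc
      have e : retD Hc = Real.exp (16 * L ^ 2) := rfl
      rw [← e]
      nlinarith
    rw [e1, ← het]
    calc 4 * (sepM C0 τ : ℝ) * (admL C0 + 6 * admB C0 * retD Hc) * Real.exp t
        ≤ 4 * ((8 * admB C0 ^ 2 + 2) * Real.exp (2 * t))
            * ((admL C0 + 6 * admB C0) * Real.exp (16 * L ^ 2)) * Real.exp t := by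
          refine mul_le_mul_of_nonneg_right ?_ (Real.exp_pos _).le
          exact mul_le_mul (by linarith) hD hD0.le (by positivity)
      _ = Real.exp (Real.log K₁ + 3 * t + 16 * L ^ 2) := by
          rw [Real.exp_add, Real.exp_add, Real.exp_log (lt_of_lt_of_le one_pos hK₁1)]
          have : Real.exp (3 * t) = Real.exp (2 * t) * Real.exp t := by
            rw [← Real.exp_add]; congr 1; ring
          rw [this, hK₁]; ring
      _ ≤ _ := Real.exp_le_exp.2 (by nlinarith [pow_pos (by linarith : 0 < L) 3])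

/-- the threshold for `H_ed` is quasipolynomial -/
theorem s6a_sepX_qpoly (c : ℕ) (C0 : ℝ) (hC0 : 1 ≤ C0) :
    ∃ Cq : ℝ, 0 < Cq ∧ ∀ Hc τ : ℝ, Real.exp 2 ≤ Hc → 0 < τ → τ ≤ 1 →
      wy_qp c (sepX C0 Hc τ) ≤ qpoly Cq (Real.log Hc + Real.log (1 / τ)) := by
  set K₀ := Real.log 6 + Real.log (4 * (8 * admB C0 ^ 2 + 2) * (admL C0 + 6 * admB C0)) with hK₀
  have hK₀0 : 0 ≤ K₀ := by
    have hB := sepa_admB_ge hC0
    have hLa := sepa_admL_ge hC0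
    have h1 : (1 : ℝ) ≤ 8 * admB C0 ^ 2 + 2 := by nlinarith
    have h2 : (1 : ℝ) ≤ admL C0 + 6 * admB C0 := by linarith
    have h3 := mul_le_mul h1 h2 zero_le_one (by linarith)
    have h4 : 1 ≤ 4 * (8 * admB C0 ^ 2 + 2) * (admL C0 + 6 * admB C0) := by nlinarith
    have := Real.log_nonneg h4
    have := Real.log_nonneg (by norm_num : (1 : ℝ) ≤ 6)
    linarith
  set K := 22 + K₀ with hK
  have hK0 : 0 < K := by linarith
  refine ⟨max ((c : ℝ) * K ^ c) (3 * c) + 1, by positivity, fun Hc τ hH hτ0 hτ1 => ?_⟩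
  set Cq := max ((c : ℝ) * K ^ c) (3 * c) + 1 with hCq
  have hL := sepa_L_ge hH
  have hle := sepa_sepX_le hC0 hH hτ0 hτ1
  have hge := (s6a_sepX_ge (C0 := C0) (τ := τ) hH).1
  set L := Real.log Hc with hLdef
  set t := Real.log (1 / τ) with ht
  have ht0 : 0 ≤ t := Real.log_nonneg (by rw [le_div_iff₀ hτ0]; linarith)
  set u := 1 + (L + t) with hu
  have hu1 : 1 ≤ u := by linarith
  have hlog0 : 0 ≤ Real.log (sepX C0 Hc τ) := Real.log_nonneg (by linarith)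
  have hu2 : u ≤ u ^ 2 := by nlinarith
  have hu3 : u ^ 2 ≤ u ^ 3 := by nlinarith [sq_nonneg u]
  have hL2 : L ^ 2 ≤ u ^ 2 := pow_le_pow_left₀ (by linarith) (by linarith) 2
  have hL3 : L ^ 3 ≤ u ^ 3 := pow_le_pow_left₀ (by linarith) (by linarith) 3
  have hmain : 1 + Real.log (sepX C0 Hc τ) ≤ K * u ^ 3 := by
    have h1 : (1 : ℝ) ≤ u ^ 3 := by linarith
    have h2 : K₀ ≤ K₀ * u ^ 3 := le_mul_of_one_le_right hK₀0 h1
    have h3 : t ≤ u ^ 3 := by linarith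
    rw [hK]
    nlinarith
  unfold wy_qp qpoly
  refine Real.exp_le_exp.2 ?_
  have h5 : (1 + Real.log (sepX C0 Hc τ)) ^ c ≤ K ^ c * u ^ (3 * c) := by
    calc _ ≤ (K * u ^ 3) ^ c := pow_le_pow_left₀ (by linarith) hmain c
      _ = _ := by rw [mul_pow, ← pow_mul]
  have h6 : u ^ (3 * c) ≤ u ^ Cq := by
    rw [← Real.rpow_natCast]
    refine Real.rpow_le_rpow_of_exponent_le hu1 ?_
    push_cast
    have := le_max_right ((c : ℝ) * K ^ c) (3 * c)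
    linarith
  have h7 : (c : ℝ) * K ^ c ≤ Cq := by
    have := le_max_left ((c : ℝ) * K ^ c) (3 * c)
    linarith
  calc (c : ℝ) * (1 + Real.log (sepX C0 Hc τ)) ^ c ≤ (c : ℝ) * (K ^ c * u ^ (3 * c)) :=
        mul_le_mul_of_nonneg_left h5 (Nat.cast_nonneg c)
    _ = ((c : ℝ) * K ^ c) * u ^ (3 * c) := by ring
    _ ≤ Cq * u ^ Cq := mul_le_mul h7 h6 (by positivity) (by positivity)

end Claimed.Agent.R258
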