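/-
Row 258 (S0498), block [S6a] (architect helper70).  **LEMMA 6.1** (`lem:tag-separation`), both parts, from (W3) (`W3Goal c`, block [Weyl]).
GLUE (proved): `s6a_sep_same`, `s6a_sep_cross`.
-/
import Claimed.Agent.R258.S6a.SepCore
import Claimed.Agent.R258.S6a.SepArith
import Claimed.Agent.R258.S6a.SplitBasic

set_option autoImplicit false
open MeasureTheory

namespace Claimed.Agent.R258

/-- (W3) applied to the difference data of two charts -/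
theorem s6a_edge_of_retBdd (c : ℕ) (hW : W3Goal c) {C0 Hc τ Hed : ℝ} (hC0 : 1 ≤ C0) (hτ0 : 0 < τ)
    (hHed : wy_qp c (sepX C0 Hc τ) ≤ Hed) (A B : Chart) (hA : A.Cplx Hc) (hB : B.Cplx Hc) (i j : Fin 4) (s : ℤ)
    (P' : ℕ) (hP0 : 0 < P') (hP : ClearsDen (6 * P') (locC (A.tag i) (B.tag j)))
    (hPX : ((6 * P' : ℕ) : ℝ) ≤ 6 * Real.exp (2 * (Real.log Hc) ^ 3))
    (hR : RetBdd (locV s (A.tag i) (B.tag j)) (locC (A.tag i) (B.tag j)) (locLam s (A.tag i) (B.tag j)) (6 * P')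
      (sepA C0 Hc τ) 2) : locEdge Hed s (A.tag i) (B.tag j) := by
  obtain ⟨x2, x3, xl⟩ := s6a_sepX_ge (C0 := C0) (τ := τ) hA.H_ge
  have hcard : (Fintype.card (Fin (A.tag i).dim ⊕ Fin (B.tag j).dim) : ℝ) ≤ 1 + Real.log (sepX C0 Hc τ) := by
    have e : Fintype.card (Fin (A.tag i).dim ⊕ Fin (B.tag j).dim) = A.d + B.d := by
      show Fintype.card (Fin A.d ⊕ Fin B.d) = A.d + B.d
      rw [Fintype.card_sum, Fintype.card_fin, Fintype.card_fin]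
    rw [e]; push_cast
    linarith [hA.dim, hB.dim]
  have hApos := s6a_sepA_pos (Hc := Hc) hC0 hτ0
  have h1 : 1 / sepX C0 Hc τ ≤ sepA C0 Hc τ := by
    have : 1 / sepA C0 Hc τ ≤ sepX C0 Hc τ := le_max_right _ _
    rw [div_le_iff₀ (by linarith)]
    rw [div_le_iff₀ hApos] at this
    linarith
  have := hW (Fin (A.tag i).dim ⊕ Fin (B.tag j).dim) (locV s (A.tag i) (B.tag j)) (locC (A.tag i) (B.tag j))
    (locLam s (A.tag i) (B.tag j)) (6 * P') (sepX C0 Hc τ) (sepA C0 Hc τ) 2 (by linarith) hcard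
    (fun x y => (s6a_locC_height A B Hc hA hB i j x y).trans x3) (by positivity) hP
    (hPX.trans (le_max_left _ _)) h1 x2 hR
  exact s6a_split_mono hHed this

/-- **Lemma 6.1, same slot** -/
theorem s6a_sep_same (c : ℕ) (hW : W3Goal c) {C0 Hc τ Hed : ℝ} (hC0 : 1 ≤ C0) (hτ0 : 0 < τ) (hτ1 : τ ≤ 1)
    (hHed : wy_qp c (sepX C0 Hc τ) ≤ Hed) (A B : Chart) (i : Fin 4) (I : Cell) (hA : A.Cplx Hc) (hB : B.Cplx Hc)
    (hAb : A.Bdd) (hBb : B.Bdd) (hne : ¬ locEdge Hed I.depth (A.tag i) (B.tag i)) :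
    ‖smom I A.eval B.eval‖ ≤ τ := by
  by_contra hbig
  obtain ⟨P', hP0, hPA, hPB, hP, hPX⟩ := s6a_loc_period A B Hc hA hB i i
  apply hne
  refine s6a_edge_of_retBdd c hW hC0 hτ0 hHed A B hA hB i i I.depth P' hP0 hP hPX ?_
  intro h' m hm hh hd
  by_contra hΩ
  apply hbig
  refine (s6a_same_core A B Hc hA hB hAb hBb i I P' hPA hPB (sepM C0 τ) (s6a_sepM_pos _ _) (sepA C0 Hc τ)
    (s6a_sep_num3 hC0 hτ0 hτ1) h' m hm hh hd (le_of_lt (not_le.mp hΩ))).trans ?_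
  exact s6a_sep_num_same hC0 hτ0

/-- **Lemma 6.1, distinct slots** -/
theorem s6a_sep_cross (c : ℕ) (hW : W3Goal c) {c0 C0 Hc τ Hed : ℝ} (hc0 : 0 < c0) (hC0 : 1 ≤ C0) (hτ0 : 0 < τ)
    (hτ1 : τ ≤ 1) (hHed : wy_qp c (sepX C0 Hc τ) ≤ Hed) (A B : Chart) (i j : Fin 4) (hij : i ≠ j) (I : Cell)
    (w : ℝ × ℝ → ℂ) (hw : Admissible c0 C0 I w) (hA : A.Cplx Hc) (hB : B.Cplx Hc) (hAb : A.Bdd) (hBb : B.Bdd)
    (hne : ¬ locEdge Hed I.depth (A.tag i) (B.tag j)) (g : Fin 4 → ℝ → ℂ)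
    (hg : ∀ l, MemLp (g l) 2 (volume.restrict I.set)) (hgi : g i = A.eval) (hgj : g j = B.eval) :
    ‖form I w g‖ ≤ τ * ∏ l ∈ (Finset.univ.erase i).erase j, nnorm 2 I (g l) := by
  obtain ⟨a, b, h4⟩ := s6a_slot_exists i j hij
  have hab : a ≠ b := h4.2.2.2.2.2
  rw [s6a_slot_erase h4, Finset.prod_pair hab]
  by_contra hbig
  obtain ⟨P', hP0, hPA, hPB, hP, hPX⟩ := s6a_loc_period A B Hc hA hB i j
  apply hne
  refine s6a_edge_of_retBdd c hW hC0 hτ0 hHed A B hA hB i j I.depth P' hP0 hP hPX ?_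
  intro h' m hm hh hd
  by_contra hΩ
  apply hbig
  refine (s6a_cross_core hc0 A B Hc hA hB hAb hBb h4 I w hw P' hPA hPB (sepM C0 τ) (s6a_sepM_pos _ _) (sepA C0 Hc τ)
    (s6a_sep_num3 hC0 hτ0 hτ1) h' m hm hh hd (le_of_lt (not_le.mp hΩ)) g hgi hgj (hg a) (hg b)).trans ?_
  have hnn : 0 ≤ nnorm 2 I (g a) * nnorm 2 I (g b) := mul_nonneg (nnorm_nonneg _ _ _) (nnorm_nonneg _ _ _)
  exact mul_le_mul_of_nonneg_right (s6a_sep_num_cross hC0 hτ0) hnn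

end Claimed.Agent.R258
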