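/-
Row 258 (S0498), block [S6a] (architect helper70).  **EXPORTS** of the block in the shapes of Loc/IfaceTag.lean (helper68):
  `s6a_sepOk`      : Lemma 6.1  (`LocSepOk`),      threshold `qpoly Cq (log Hc + log (1 / min τ2 1)) ≤ Hed`;
  `s6a_pathOk`     : Lemma 6.2  (`LocPathOk`),     `Hpath = pathH Lp dmax (max 2 ⌈Hed⌉₊) ⌈Hb⌉₊` (`s6a_pathH_log`: `log Hpath ≤ 100 ((Lp+1)(dmax+1))^6 (1 + log .. + log ..)`);
  `s6a_sameTagOk`  : Lemma 6.6  (`LocSameTagOk`),  for `Hc ≥ max (3 Hb) (exp (dmax + 2))`, `H0 ≥ stH0 C0 Hc` (`s6a_stH0_qpoly`);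
  `s6a_tag_ok`     : a chart of complexity `≤ D` has tags `Ok ⌊log D⌋₊ (3 D)`.
Everything here is PROVED from the leaves of the block, (W3) (`wy_W3Goal`, Weyl/Adapt3.lean), `gev_S6_G1/G2` (Gev/S6.lean), the XV API and `s5f_form_congr`;
the only own sorry is the arithmetic `s6a_stH0_qpoly` (LEAF P-S6A-STARITH).
-/
import Claimed.Agent.R258.S6a.Sep
import Claimed.Agent.R258.Pack015
import Claimed.Agent.R258.S6a.SameTag
import Claimed.Agent.R258.Pack004
import Claimed.Agent.R258.Weyl.Adapt3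
import Claimed.Agent.R258.Gev.S6
import Claimed.Agent.R258.Pack011
import Claimed.Agent.R258.S5.Form

set_option autoImplicit false
open MeasureTheory
open scoped ComplexConjugate

namespace Claimed.Agent.R258

/-! ### heights of tags -/

theorem s6a_slotC_height (j : Fin 4) : qHeight (slotC j) ≤ 3 ∧ qHeight (slotC j)⁻¹ ≤ 3 := by
  fin_cases j <;> constructor <;> simp [slotC, qHeight] <;> decide

theorem s6a_height_smul_le {q r : ℚ} {B : ℝ} (hq : qHeight q ≤ 3) (hr : (qHeight r : ℝ) ≤ B) :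
    (qHeight (q * r) : ℝ) ≤ 3 * B := by
  have h1 : (qHeight (q * r) : ℝ) ≤ (qHeight q : ℝ) * (qHeight r : ℝ) := by exact_mod_cast s4a_height_mul_le q r
  have h2 : (qHeight q : ℝ) ≤ 3 := by exact_mod_cast hq
  have h0 : (0 : ℝ) ≤ (qHeight r : ℝ) := Nat.cast_nonneg _
  calc (qHeight (q * r) : ℝ) ≤ (qHeight q : ℝ) * (qHeight r : ℝ) := h1
    _ ≤ 3 * B := mul_le_mul h2 hr h0 (by norm_num)

/-- a chart of complexity `≤ D` has tags within the basic bounds `⌊log D⌋₊`, `3 D` -/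
theorem s6a_tag_ok (a : Chart) (D : ℝ) (ha : a.Cplx D) (i : Fin 4) : (a.tag i).Ok ⌊Real.log D⌋₊ (3 * D) := by
  refine ⟨Nat.le_floor ha.dim, fun x y => ?_⟩
  exact s6a_height_smul_le (s6a_slotC_height i).2 (ha.height x y)

/-! ### Lemma 6.1 -/

theorem s6a_sepOk (c0 C0 : ℝ) (hc0 : 0 < c0) (hC0 : 1 ≤ C0) :
    ∃ Cq : ℝ, 0 < Cq ∧ ∀ (Hc τ2 Hed Hb : ℝ) (dmax : ℕ), 0 < τ2 →
      qpoly Cq (Real.log Hc + Real.log (1 / min τ2 1)) ≤ Hed →
      LocSepOk (loc_tagSys Hed Hb dmax) c0 C0 Hc τ2 dmax Hb := by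
  obtain ⟨c, hW⟩ := wy_W3Goal
  obtain ⟨Cq, hCq, hq⟩ := s6a_sepX_qpoly c C0 hC0
  refine ⟨Cq, hCq, fun Hc τ2 Hed Hb dmax hτ hHed => ?_⟩
  have hτ0 : 0 < min τ2 1 := lt_min hτ one_pos
  have hτ1 : min τ2 1 ≤ 1 := min_le_right _ _
  constructor
  · intro a a' i I ha ha' hb hb' ho ho' hd
    have hX := (hq Hc (min τ2 1) ha.H_ge hτ0 hτ1).trans hHed
    exact (s6a_sep_same c hW hC0 hτ0 hτ1 hX a a' i I ha ha' hb hb' (loc_not_edge_of_one_lt ho ho' hd).1).trans
      (min_le_left _ _)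
  · intro a a' i j I w hij hw ha ha' hb hb' ho ho' hd g hg hgi hgj
    have hX := (hq Hc (min τ2 1) ha.H_ge hτ0 hτ1).trans hHed
    refine (s6a_sep_cross c hW hc0 hC0 hτ0 hτ1 hX a a' i j hij I w hw ha ha' hb hb'
      (loc_not_edge_of_one_lt ho ho' hd).1 g hg hgi hgj).trans ?_
    exact mul_le_mul_of_nonneg_right (min_le_left _ _) (Finset.prod_nonneg fun l _ => nnorm_nonneg _ _ _)

/-! ### Lemma 6.2 -/

theorem s6a_pathOk (Hed Hb : ℝ) (dmax Lp : ℕ) :
    LocPathOk (loc_tagSys Hed Hb dmax) Lp (pathH Lp dmax (max 2 ⌈Hed⌉₊) ⌈Hb⌉₊) := by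
  intro s v w hd
  by_cases hvw : v = w
  · subst hvw
    exact s6a_locEdge_mono (le_max_left _ _) (s6a_locEdge_self s v)
  have hd' : (locGraph Hed Hb dmax s).edist v w ≤ (Lp : ℕ∞) := hd
  have hne : (locGraph Hed Hb dmax s).edist v w ≠ ⊤ := ne_top_of_le_ne_top (ENat.natCast_ne_top _) hd'
  obtain ⟨p, hp⟩ := SimpleGraph.exists_walk_of_edist_ne_top hne
  have hlen : p.length ≤ Lp := by
    rw [← hp] at hd'; exact_mod_cast hd'
  have hpos : 0 < p.length := by
    rcases Nat.eq_zero_or_pos p.length with h0 | h0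
    · exact absurd (SimpleGraph.Walk.eq_of_length_eq_zero h0) hvw
    · exact h0
  set H : ℕ := max 2 ⌈Hed⌉₊ with hH
  have hHed : Hed ≤ (H : ℝ) := (Nat.le_ceil Hed).trans (by exact_mod_cast le_max_right _ _)
  have hH2 : (2 : ℝ) ≤ (H : ℝ) := by exact_mod_cast le_max_left 2 ⌈Hed⌉₊
  have hadj : ∀ e < p.length, (p.getVert e).Ok dmax Hb ∧ (p.getVert (e + 1)).Ok dmax Hb ∧
      (locEdge H s (p.getVert e) (p.getVert (e + 1)) ∨ locEdge H s (p.getVert (e + 1)) (p.getVert e)) := by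
    intro e he
    have := p.adj_getVert_succ he
    simp only [locGraph, SimpleGraph.fromRel_adj] at this
    rcases this.2 with ⟨a, b, c⟩ | ⟨a, b, c⟩
    · exact ⟨a, b, Or.inl (s6a_locEdge_mono hHed c)⟩
    · exact ⟨b, a, Or.inr (s6a_locEdge_mono hHed c)⟩
  have hok : ∀ e, (p.getVert e).Ok dmax Hb := by
    intro e
    rcases lt_or_ge e p.length with he | he
    · exact (hadj e he).1
    · rw [p.getVert_of_length_le he]
      have := (hadj (p.length - 1) (by omega)).2.1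
      rwa [Nat.sub_add_cancel hpos, p.getVert_length] at this
  have key := s6a_path p.getVert Lp s dmax H ⌈Hb⌉₊ (le_trans (by norm_num) (le_max_left 2 ⌈Hed⌉₊))
    (fun e _ => (hok e).1)
    (fun e _ a b => by
      have h1 := (hok e).2 a b
      have h2 : ((qHeight ((p.getVert e).C a b) : ℕ) : ℝ) ≤ ((⌈Hb⌉₊ : ℕ) : ℝ) := h1.trans (Nat.le_ceil Hb)
      exact_mod_cast h2)
    (fun e _ => by
      rcases lt_or_ge e p.length with he | he
      · exact (hadj e he).2.2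
      · rw [p.getVert_of_length_le he, p.getVert_of_length_le (le_trans he (Nat.le_succ e))]
        exact Or.inl (s6a_locEdge_mono hH2 (s6a_locEdge_self s w)))
  rwa [p.getVert_zero, p.getVert_of_length_le hlen] at key

/-! ### Lemma 6.6 -/

/-- the partition of unity of block [GEV] -/
theorem s6a_pou_exists : ∃ ρ : ℝ → ℝ, IsPou ρ ∧ ∀ (d : ℕ) (H : ℝ), Real.exp ((d : ℝ) + 2) ≤ H → TmplAmpOk ρ H d := by
  obtain ⟨h1, h2, -, h4, h5⟩ := gev_S6_G1
  refine ⟨gevPU, ⟨h1, h2, h4, h5⟩, fun d H hH s hs => ?_⟩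
  obtain ⟨g1, -, -, g4⟩ := gev_S6_G2 s hs hH
  exact ⟨g1, g4⟩

theorem s6a_nnorm_phys_le (I : Cell) (z : XV) : nnorm 2 I (physFn z) ≤ n2 I z := by
  rw [s6a_nnorm2_eq]
  have hr := cell_len_pos I
  have h1 : ∫ y in I.set, ‖physFn z y‖ ^ 2 ≤ ‖restr I.set z‖ ^ 2 := by
    rw [xv_normsq_restr (cell_measurableSet I)]
    apply integral_mono_of_nonneg (Filter.Eventually.of_forall fun y => by positivity)
    · exact ((Lp.memLp z).restrict _).norm.integrable_sq
    · exact Filter.Eventually.of_forall fun y => by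
        have := xv_physFn_norm_le z y
        simp only
        gcongr
  unfold n2
  rw [Real.sqrt_le_left (by positivity), div_pow, Real.sq_sqrt hr.le, inv_mul_eq_div]
  gcongr

theorem s6a_physFn_measurable (z : XV) : Measurable (physFn z) :=
  ((xv_continuous_coord 0).comp_stronglyMeasurable (Lp.stronglyMeasurable z)).measurable

/-- LEAF P-S6A-STARITH (arithmetic only): `stH0 C0 H = (12⌈H⌉₊+1)^(2 log H) · exp (100 log² H) · 9 (3C0)^(3C0)`; with `L = log H ≥ 2`: `12⌈H⌉₊ + 1 ≤ 12 H + 13 ≤ H³`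
(`H ≥ e² > 7.38`), so `stH0 ≤ exp (6L² + 100L² + log (3 admL C0)) ≤ qpoly Cq L` for `Cq = max 2 (106 + log (3 admL C0))` (`qpoly C x = exp (C (1+x)^C)`, `(1+L)^2 ≤ (1+L)^Cq`). -/
theorem s6a_stH0_qpoly (C0 : ℝ) (hC0 : 1 ≤ C0) :
    ∃ Cq : ℝ, 0 < Cq ∧ ∀ H : ℝ, Real.exp 2 ≤ H → 0 < stH0 C0 H ∧ stH0 C0 H ≤ qpoly Cq (Real.log H) := by
  have hK : 0 < 3 * admL C0 := by
    unfold admL
    have : 0 < (C0 * 3) ^ (C0 * 3) := Real.rpow_pos_of_pos (by linarith) _
    positivity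
  refine ⟨max 2 (106 + |Real.log (3 * admL C0)|), lt_of_lt_of_le (by norm_num) (le_max_left _ _), fun H hH => ?_⟩
  have he2 : (7 : ℝ) ≤ Real.exp 2 := by
    have h1 : Real.exp 2 = Real.exp 1 * Real.exp 1 := by rw [← Real.exp_add]; norm_num
    have h2 : (2.7 : ℝ) ≤ Real.exp 1 := by
      have := Real.exp_one_gt_d9
      linarith
    rw [h1]
    calc (7 : ℝ) ≤ 2.7 * 2.7 := by norm_num
      _ ≤ Real.exp 1 * Real.exp 1 := mul_le_mul h2 h2 (by norm_num) (Real.exp_pos _).le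
  have hH7 : 7 ≤ H := he2.trans hH
  have hH0 : 0 < H := by linarith
  have hL : 2 ≤ Real.log H := by
    rw [Real.le_log_iff_exp_le hH0]
    exact hH
  have hP0 : (0 : ℝ) < ((stP0 H : ℕ) : ℝ) := by
    unfold stP0
    positivity
  have hP : ((stP0 H : ℕ) : ℝ) ≤ H ^ 3 := by
    unfold stP0
    push_cast
    have h1 : (⌈H⌉₊ : ℝ) ≤ H + 1 := (Nat.ceil_lt_add_one hH0.le).le
    have h2 : 49 * H ≤ H ^ 3 := by
      have : H ^ 3 = H * H * H := by ring
      rw [this]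
      exact mul_le_mul_of_nonneg_right (by nlinarith) hH0.le
    linarith
  constructor
  · unfold stH0 srcA
    have := Real.rpow_pos_of_pos hP0 (2 * Real.log H)
    have h2 := Real.exp_pos (100 * Real.log H ^ 2)
    positivity
  · have h1 : ((stP0 H : ℕ) : ℝ) ^ (2 * Real.log H) ≤ Real.exp (6 * Real.log H ^ 2) := by
      calc ((stP0 H : ℕ) : ℝ) ^ (2 * Real.log H) ≤ (H ^ 3) ^ (2 * Real.log H) :=
            Real.rpow_le_rpow hP0.le hP (by linarith)
        _ = Real.exp (6 * Real.log H ^ 2) := by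
            rw [Real.rpow_def_of_pos (by positivity), Real.log_pow]
            congr 1
            push_cast
            ring
    have h2 : 3 * admL C0 = Real.exp (Real.log (3 * admL C0)) := (Real.exp_log hK).symm
    unfold stH0 srcA qpoly
    rw [h2, ← Real.exp_add]
    calc ((stP0 H : ℕ) : ℝ) ^ (2 * Real.log H) * Real.exp (100 * Real.log H ^ 2 + Real.log (3 * admL C0))
        ≤ Real.exp (6 * Real.log H ^ 2) * Real.exp (100 * Real.log H ^ 2 + Real.log (3 * admL C0)) :=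
          mul_le_mul_of_nonneg_right h1 (Real.exp_pos _).le
      _ = Real.exp (6 * Real.log H ^ 2 + (100 * Real.log H ^ 2 + Real.log (3 * admL C0))) := (Real.exp_add _ _).symm
      _ ≤ _ := by
          apply Real.exp_le_exp.2
          obtain ⟨Cq, hCq⟩ : ∃ Cq : ℝ, Cq = max 2 (106 + |Real.log (3 * admL C0)|) := ⟨_, rfl⟩
          rw [← h2, ← hCq]
          have hc2 : 2 ≤ Cq := by rw [hCq]; exact le_max_left _ _
          have hc106 : 106 + |Real.log (3 * admL C0)| ≤ Cq := by rw [hCq]; exact le_max_right _ _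
          have h3 : (1 + Real.log H) ^ (2 : ℝ) ≤ (1 + Real.log H) ^ Cq :=
            Real.rpow_le_rpow_of_exponent_le (by linarith) hc2
          rw [Real.rpow_two] at h3
          have h4 : Real.log H ^ 2 ≤ (1 + Real.log H) ^ 2 := by nlinarith
          have h5 : 1 ≤ (1 + Real.log H) ^ 2 := by nlinarith
          have h6 := le_abs_self (Real.log (3 * admL C0))
          have h7 := abs_nonneg (Real.log (3 * admL C0))
          calc 6 * Real.log H ^ 2 + (100 * Real.log H ^ 2 + Real.log (3 * admL C0))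
              ≤ 106 * (1 + Real.log H) ^ 2 + |Real.log (3 * admL C0)| * (1 + Real.log H) ^ 2 := by nlinarith
            _ = (106 + |Real.log (3 * admL C0)|) * (1 + Real.log H) ^ 2 := by ring
            _ ≤ Cq * (1 + Real.log H) ^ Cq := mul_le_mul hc106 h3 (by positivity) (by linarith)

theorem s6a_sameTagOk_aux {ρ : ℝ → ℝ} (hρ : IsPou ρ) (c0 C0 Hc H0 Hb : ℝ) (dmax : ℕ) (hc0 : 0 < c0)
    (hamp : ∀ d ≤ dmax, TmplAmpOk ρ Hc d) (hHb : 3 * Hb ≤ Hc) (hH0 : stH0 C0 Hc ≤ H0) (hH0p : 0 < H0) :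
    LocSameTagOk c0 C0 Hc H0 dmax Hb := by
  intro Φ a i j I w x t0 hij hw hΦ ha hab hok ht0 hns
  by_contra hcon
  apply hns
  have hP0 := s6a_stP0_pos Hc
  -- all template moments are small
  have hMo : ∀ (ℓ : Fin (a.tag i).dim → ℕ) (β : ℝ), (∀ c, ℓ c < stP0 Hc) →
      ‖smom I (physFn x) (tmpl ρ (a.tag i) j (stP0 Hc) ℓ β).eval‖ ≤ t0 / H0 := by
    intro ℓ β hℓ
    by_contra hbig
    apply hcon
    refine ⟨tmpl ρ (a.tag i) j (stP0 Hc) ℓ β, s6a_tmpl_tag _ _ _ _ _ _, ?_, s6a_tmpl_bdd hρ _ _ _ _ _,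
      le_of_lt (not_le.mp hbig)⟩
    refine s6a_tmpl_cplx hρ (a.tag i) (hamp _ hok.1) ha.H_ge j ha.dim (fun p q => ?_) (stP0 Hc) hP0 ℓ hℓ β
    exact (s6a_height_smul_le (s6a_slotC_height j).1 (hok.2 p q)).trans hHb
  intro z hzi hzj
  obtain ⟨a', b', h4⟩ := s6a_slot_exists i j hij
  have hab' : a' ≠ b' := h4.2.2.2.2.2
  rw [s6a_slot_erase h4, Finset.prod_pair hab']
  have hcont := s4b_eval_continuous ha
  have hreg : Φ.Reg I := xv_reg_of_bdd (B := 1) (by rw [hΦ]; exact hcont.aestronglyMeasurable) I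
    (fun y _ => by rw [hΦ]; exact hab y)
  set g : Fin 4 → ℝ → ℂ := Function.update (fun l => physFn (z l)) i a.eval with hg
  have hgi : g i = a.eval := by rw [hg, Function.update_self]
  have hgl : ∀ l, l ≠ i → g l = physFn (z l) := fun l hl => by rw [hg, Function.update_of_ne hl]
  have hform : formV I w z = form I w g := by
    unfold formV
    apply s5f_form_congr c0 C0 hc0 I w hw
    intro l
    by_cases hl : l = i
    · subst hl
      rw [hgi, hzi]
      have h1 := ae_restrict_of_ae (s := I.set) (xv_physFn_vec hreg)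
      filter_upwards [h1, ae_restrict_mem (cell_measurableSet I)] with y hy hyI
      rw [hy, Set.indicator_of_mem hyI, hΦ]
    · rw [hgl l hl]
  have hfin : IsFiniteMeasure (volume.restrict I.set) := ⟨by
    rw [Measure.restrict_apply_univ]; exact lt_top_iff_ne_top.2 (cell_volume_ne_top I)⟩
  have hmem : ∀ l, MemLp (g l) 2 (volume.restrict I.set) := by
    intro l
    by_cases hl : l = i
    · subst hl
      rw [hgi]
      exact MemLp.of_bound hcont.aestronglyMeasurable 1 (Filter.Eventually.of_forall hab)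
    · rw [hgl l hl]
      exact (xv_physFn_memLp (z l)).restrict _
  have hji : j ≠ i := fun h => hij h.symm
  have key := s6a_same_tag_scalar hρ hc0 a Hc ha h4 I w hw g hgi
    (by rw [hgl j hji]; exact s6a_physFn_measurable _) hmem (t0 / H0)
    (by rw [hgl j hji, hzj]; exact hMo)
  rw [hform]
  refine key.trans ?_
  rw [hgl a' (fun h => h4.2.1 h.symm), hgl b' (fun h => h4.2.2.1 h.symm)]
  have h1 : stH0 C0 Hc * (t0 / H0) ≤ t0 := by
    calc stH0 C0 Hc * (t0 / H0) ≤ H0 * (t0 / H0) := by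
          apply mul_le_mul_of_nonneg_right hH0 (by positivity)
      _ = t0 := by field_simp
  have hn : nnorm 2 I (physFn (z a')) * nnorm 2 I (physFn (z b')) ≤ n2 I (z a') * n2 I (z b') :=
    mul_le_mul (s6a_nnorm_phys_le I _) (s6a_nnorm_phys_le I _) (nnorm_nonneg _ _ _) (xv_n2_nonneg _ _)
  calc stH0 C0 Hc * (t0 / H0) * (nnorm 2 I (physFn (z a')) * nnorm 2 I (physFn (z b')))
      ≤ t0 * (nnorm 2 I (physFn (z a')) * nnorm 2 I (physFn (z b'))) :=
        mul_le_mul_of_nonneg_right h1 (mul_nonneg (nnorm_nonneg _ _ _) (nnorm_nonneg _ _ _))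
    _ ≤ t0 * (n2 I (z a') * n2 I (z b')) := mul_le_mul_of_nonneg_left hn ht0.le

/-- **Lemma 6.6** in the shape of Loc/IfaceTag.lean -/
theorem s6a_sameTagOk (c0 C0 Hc H0 Hb : ℝ) (dmax : ℕ) (hc0 : 0 < c0) (hd : Real.exp ((dmax : ℝ) + 2) ≤ Hc)
    (hHb : 3 * Hb ≤ Hc) (hH0 : stH0 C0 Hc ≤ H0) (hH0p : 0 < H0) : LocSameTagOk c0 C0 Hc H0 dmax Hb := by
  obtain ⟨ρ, hρ, hamp⟩ := s6a_pou_exists
  refine s6a_sameTagOk_aux hρ c0 C0 Hc H0 Hb dmax hc0 (fun d hdd => hamp d Hc ?_) hHb hH0 hH0p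
  refine le_trans (Real.exp_le_exp.mpr ?_) hd
  have : (d : ℝ) ≤ (dmax : ℝ) := by exact_mod_cast hdd
  linarith

end Claimed.Agent.R258
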